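import Vale.Agent.P101.ZStab.Defs
import Vale.Agent.P095.SI.NU.Compare
import Vale.Agent.P095.Nonunital.LocallyFinite
import Vale.Agent.P095.Lossy.Pins

/-!
# P095: definitions for algebras which need not be unital

* `spatialNU π ρ` is the C⋆-algebra generated by the elementary tensors `π a ⊗ ρ b`, so
  `IsSpatialTensorNU R A B` says that `R` is the minimal tensor product of `A` and the unital `B`.
* `CocConj α β` is cocycle conjugacy with a cocycle of unitaries in the multiplier algebra, to which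
  an automorphism extends by `mapMult`.
* `IsEquiStableNU A B α` says that `α` is cocycle conjugate to `α ⊗ id` on `A ⊗ B`.
-/

open scoped ENNReal

namespace Vale.P095.NU

open Vale.P101 Vale.P101.ZS Vale.P095.Nonunital Vale.P095.SI

noncomputable section

section Spatial

variable {A B H K : Type*} [NonUnitalCStarAlgebra A] [CStarAlgebra B]
  [NormedAddCommGroup H] [InnerProductSpace ℂ H] [CompleteSpace H]
  [NormedAddCommGroup K] [InnerProductSpace ℂ K] [CompleteSpace K]

/-- The C⋆-algebra generated by the elementary tensors `π a ⊗ ρ b`. -/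
def spatialNU (π : A →⋆ₙₐ[ℂ] (H →L[ℂ] H)) (ρ : B →⋆ₐ[ℂ] (K →L[ℂ] K)) :
    NonUnitalStarSubalgebra ℂ (HTensor H K →L[ℂ] HTensor H K) :=
  (NonUnitalStarAlgebra.adjoin ℂ
    (Set.range fun p : A × B => ampLeft (K := K) (π p.1) * ampRight (H := H) (ρ p.2))).topologicalClosure

instance (π : A →⋆ₙₐ[ℂ] (H →L[ℂ] H)) (ρ : B →⋆ₐ[ℂ] (K →L[ℂ] K)) :
    IsClosed (spatialNU π ρ : Set (HTensor H K →L[ℂ] HTensor H K)) := isClosed_closure

instance (π : A →⋆ₙₐ[ℂ] (H →L[ℂ] H)) (ρ : B →⋆ₐ[ℂ] (K →L[ℂ] K)) :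
    NonUnitalCStarAlgebra (spatialNU π ρ) :=
  NonUnitalStarSubalgebra.nonUnitalCStarAlgebra _

end Spatial

/-- `R` is the spatial tensor product of `A` and the unital algebra `B`. -/
def IsSpatialTensorNU (R A B : Type) [NonUnitalCStarAlgebra R] [NonUnitalCStarAlgebra A]
    [CStarAlgebra B] : Prop :=
  ∃ (H K : Type) (_ : NormedAddCommGroup H) (_ : InnerProductSpace ℂ H) (_ : CompleteSpace H)
    (_ : NormedAddCommGroup K) (_ : InnerProductSpace ℂ K) (_ : CompleteSpace K)
    (π : A →⋆ₙₐ[ℂ] (H →L[ℂ] H)) (ρ : B →⋆ₐ[ℂ] (K →L[ℂ] K)),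
    Function.Injective π ∧ Function.Injective ρ ∧ Nonempty (R ≃⋆ₐ[ℂ] spatialNU π ρ)

section Mult

variable {R : Type*} [NonUnitalCStarAlgebra R]

/-- A star automorphism as a continuous linear map. -/
def autCLM (θ : R ≃⋆ₐ[ℂ] R) : R →L[ℂ] R :=
  LinearMap.mkContinuous
    { toFun := θ
      map_add' := map_add θ
      map_smul' := fun c x => map_smul θ c x } 1
    fun x => by
      rw [one_mul]
      exact NonUnitalStarAlgHom.norm_apply_le (autHom θ) x

theorem autCLM_apply (θ : R ≃⋆ₐ[ℂ] R) (x : R) : autCLM θ x = θ x := rfl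

/-- The extension of an automorphism to the multiplier algebra. -/
def mapMult (θ : R ≃⋆ₐ[ℂ] R) (u : DoubleCentralizer ℂ R) : DoubleCentralizer ℂ R where
  fst := (autCLM θ).comp (u.fst.comp (autCLM θ.symm))
  snd := (autCLM θ).comp (u.snd.comp (autCLM θ.symm))
  central x y := by
    show θ (u.snd (θ.symm x)) * y = x * θ (u.fst (θ.symm y))
    refine (θ.symm : R ≃⋆ₐ[ℂ] R).injective ?_
    show θ.symm (θ (u.snd (θ.symm x)) * y) = θ.symm (x * θ (u.fst (θ.symm y)))
    rw [map_mul, map_mul, θ.symm_apply_apply, θ.symm_apply_apply]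
    exact u.central _ _

end Mult

/-- Cocycle conjugacy. -/
def CocConj {A R : Type*} [NonUnitalCStarAlgebra A] [NonUnitalCStarAlgebra R] {G : Type*} [Group G]
    (α : G →* (A ≃⋆ₐ[ℂ] A)) (β : G →* (R ≃⋆ₐ[ℂ] R)) : Prop :=
  ∃ (Φ : A ≃⋆ₐ[ℂ] R) (u : G → DoubleCentralizer ℂ R),
    (∀ g, star (u g) * u g = 1 ∧ u g * star (u g) = 1) ∧
    (∀ g h, u (g * h) = u g * mapMult (β g) (u h)) ∧
    ∀ g a, DoubleCentralizer.coe ℂ (Φ (α g a)) =
      u g * DoubleCentralizer.coe ℂ (β g (Φ a)) * star (u g)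

/-- `α` is cocycle conjugate to `α ⊗ id` on the minimal tensor product `A ⊗ B`. -/
def IsEquiStableNU (A B : Type) [NonUnitalCStarAlgebra A] [CStarAlgebra B] {G : Type} [Group G]
    (α : G →* (A ≃⋆ₐ[ℂ] A)) : Prop :=
  ∃ (H K : Type) (_ : NormedAddCommGroup H) (_ : InnerProductSpace ℂ H) (_ : CompleteSpace H)
    (_ : NormedAddCommGroup K) (_ : InnerProductSpace ℂ K) (_ : CompleteSpace K)
    (π : A →⋆ₙₐ[ℂ] (H →L[ℂ] H)) (ρ : B →⋆ₐ[ℂ] (K →L[ℂ] K))
    (β : G →* (spatialNU π ρ ≃⋆ₐ[ℂ] spatialNU π ρ)),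
    Function.Injective π ∧ Function.Injective ρ ∧
    (∀ g a b (x : spatialNU π ρ), x.1 = ampLeft (π a) * ampRight (ρ b) →
      (β g x).1 = ampLeft (π (α g a)) * ampRight (ρ b)) ∧
    CocConj α β

/-- The bilinear map of a tensor product with a unital algebra. -/
structure TensorData (A B R : Type*) [NonUnitalCStarAlgebra A] [CStarAlgebra B]
    [NonUnitalCStarAlgebra R] where
  /-- The map `a, b ↦ a ⊗ b`. -/
  m : A →ₗ[ℂ] B →ₗ[ℂ] R
  map_mul : ∀ a a' b b', m a b * m a' b' = m (a * a') (b * b')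
  map_star : ∀ a b, star (m a b) = m (star a) (star b)
  norm_le : ∀ a b, ‖m a b‖ ≤ ‖a‖ * ‖b‖
  dense : Dense (Submodule.span ℂ (Set.range fun p : A × B => m p.1 p.2) : Set R)
  injective : Function.Injective fun a => m a 1

/-- The embedding `a ↦ a ⊗ 1`. -/
def TensorData.left {A B R : Type*} [NonUnitalCStarAlgebra A] [CStarAlgebra B]
    [NonUnitalCStarAlgebra R] (T : TensorData A B R) : A →⋆ₙₐ[ℂ] R where
  toFun a := T.m a 1
  map_smul' c a := by simp
  map_zero' := by simp
  map_add' a a' := by simp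
  map_mul' a a' := by rw [T.map_mul, one_mul]
  map_star' a := by rw [T.map_star, star_one]

section Cut

variable {A : Type*} [NonUnitalCStarAlgebra A]

/-- The elements fixed by `G` and `star G` on both sides. -/
def FixedBy (G x : Unitization ℂ A) : Prop :=
  G * x = x ∧ x * G = x ∧ star G * x = x ∧ x * star G = x

/-- The unitization of the elements of `A` fixed by `G`, inside the unitization of `A`. -/
def cutAlg (G : Unitization ℂ A) : StarSubalgebra ℂ (Unitization ℂ A) where
  carrier := {z | FixedBy G (Unitization.inr z.snd)}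
  mul_mem' {z w} hz hw := by
    obtain ⟨a1, a2, a3, a4⟩ := hz
    obtain ⟨b1, b2, b3, b4⟩ := hw
    have e : (Unitization.inr (z * w).snd : Unitization ℂ A) =
        z.fst • Unitization.inr w.snd + w.fst • Unitization.inr z.snd +
          Unitization.inr z.snd * Unitization.inr w.snd := by
      rw [Unitization.snd_mul, Unitization.inr_add, Unitization.inr_add, Unitization.inr_smul,
        Unitization.inr_smul, Unitization.inr_mul]
    simp only [Set.mem_ofPred_eq, FixedBy, e, mul_add, add_mul, mul_smul_comm, smul_mul_assoc,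
      a1, a2, a3, a4, b1, b2, b3, b4]
    simp only [← mul_assoc, a1, a3]
    simp only [mul_assoc, b2, b4]
    simp
  add_mem' {z w} hz hw := by
    obtain ⟨a1, a2, a3, a4⟩ := hz
    obtain ⟨b1, b2, b3, b4⟩ := hw
    simp only [Set.mem_ofPred_eq, FixedBy, Unitization.snd_add, Unitization.inr_add, mul_add,
      add_mul, a1, a2, a3, a4, b1, b2, b3, b4]
    simp
  algebraMap_mem' c := by
    simp [FixedBy, Unitization.algebraMap_eq_inl]
  star_mem' {z} hz := by
    obtain ⟨a1, a2, a3, a4⟩ := hz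
    simp only [Set.mem_ofPred_eq, FixedBy, Unitization.snd_star, Unitization.inr_star]
    refine ⟨?_, ?_, ?_, ?_⟩
    · simpa using congrArg star a4
    · simpa using congrArg star a3
    · simpa using congrArg star a2
    · simpa using congrArg star a1

instance (G : Unitization ℂ A) : IsClosed (cutAlg G : Set (Unitization ℂ A)) := by
  have hc : Continuous fun z : Unitization ℂ A => (Unitization.inr z.snd : Unitization ℂ A) :=
    ((Unitization.uniformEquivProd (𝕜 := ℂ) (A := A)).symm.continuous.comp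
      ((continuous_const (y := (0 : ℂ))).prodMk
        (continuous_snd.comp (Unitization.uniformEquivProd (𝕜 := ℂ) (A := A)).continuous)))
  show IsClosed {z : Unitization ℂ A | FixedBy G (Unitization.inr z.snd)}
  simp only [FixedBy, Set.ofPred_and]
  exact (isClosed_eq (continuous_const.mul hc) hc).inter
    ((isClosed_eq (hc.mul continuous_const) hc).inter
      ((isClosed_eq (continuous_const.mul hc) hc).inter
        (isClosed_eq (hc.mul continuous_const) hc)))

instance (G : Unitization ℂ A) : CStarAlgebra (cutAlg G) := StarSubalgebra.cstarAlgebra _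

/-- Positive contractions of `A`, each a unit for the one before. -/
structure IsChain (G : ℕ → Unitization ℂ A) : Prop where
  mem : ∀ n, G n ∈ inrSet A
  pos : ∀ n, IsPos (G n)
  norm_le : ∀ n, ‖G n‖ ≤ 1
  fix : ∀ n, G (n + 1) * G n = G n
  ne_zero : G 0 ≠ 0

end Cut

/-- `A` has a tracial weight which is finite and nonzero below some unit pair. -/
def HasWeight (A : Type*) [NonUnitalCStarAlgebra A] : Prop :=
  ∃ (p : UnitPair A) (τ : TraceWeight A),
    p.Normed τ ∧ τ.toFun (star (p.c * p.c) * (p.c * p.c)) ≠ 0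

/-- Large in norm against finitely many test elements. -/
def LargeNorm {A : Type*} [NonUnitalCStarAlgebra A] (D : Finset (Unitization ℂ A)) (κ η : ℝ)
    (x : Unitization ℂ A) : Prop :=
  ∀ d ∈ D, κ * ‖d‖ - η ≤ ‖x * d‖

/-- The relations of `Z(2,3)` among the fixed points of `F(A)`. -/
def HasFixedRelations {A : Type} [NonUnitalCStarAlgebra A] [TopologicalSpace.SeparableSpace A]
    {G : Type} [Group G] [Countable G] {ω : Ultrafilter ℕ}
    (hω : (ω : Filter ℕ) ≤ Filter.cofinite) (α : G →* (A ≃⋆ₐ[ℂ] A)) : Prop :=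
  ∃ x v : fixedAlg (sysFA hω α).act, x * x = 0 ∧
    star v * v = 1 - (star x * x + x * star x) ∧ x * star x * v = v

/-- Unitaries of the unitization almost commuting with `j A`, almost fixed on `R`, moving given
elements almost into `j A`. -/
def HasFlips {A R : Type*} [NonUnitalCStarAlgebra A] [NonUnitalCStarAlgebra R] (j : A →⋆ₙₐ[ℂ] R)
    {G : Type*} [Group G] (β : G →* (R ≃⋆ₐ[ℂ] R)) : Prop :=
  ∀ (F : Finset A) (X : Finset R) (S : Finset G) (ε : ℝ), 0 < ε →
    ∃ w ∈ unitary (Unitization ℂ R),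
      (∀ a ∈ F, ‖w * (j a : Unitization ℂ R) - (j a : Unitization ℂ R) * w‖ ≤ ε) ∧
      (∀ g ∈ S, ∀ x ∈ X, ‖(extAction β g w - w) * (x : Unitization ℂ R)‖ ≤ ε ∧
        ‖(x : Unitization ℂ R) * (extAction β g w - w)‖ ≤ ε) ∧
      ∀ x ∈ X, ∃ a, ‖star w * (x : Unitization ℂ R) * w - (j a : Unitization ℂ R)‖ ≤ ε

end

end Vale.P095.NU
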