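import Vale.Agent.P095.NU.Question
import Vale.Agent.P095.NU.Defs
import Vale.Agent.P095.SI.NU.Defs
import Vale.Agent.P101.ZStab.Absorb.Rep

/-!
# P095: the modules' notions and the notions of the question, algebras not necessarily unital
-/

open scoped InnerProductSpace TensorProduct
open Filter Topology UniformSpace

namespace Vale.P095.NU

open Vale.P101 Vale.P101.ZS

theorem isTopSimple_of {A : Type} [NonUnitalCStarAlgebra A] (h : IsSimpleAlg A) :
    Vale.P095.SI.NU.IsTopSimple A := h

theorem hasCPAP_of {A : Type} [NonUnitalCStarAlgebra A] (h : IsNuclearAlg A) :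
    Vale.P095.SI.NU.HasCPAP A := h

section Pairing

variable {H K L : Type} [NormedAddCommGroup H] [InnerProductSpace ℂ H]
  [NormedAddCommGroup K] [InnerProductSpace ℂ K] [NormedAddCommGroup L] [InnerProductSpace ℂ L]
  {t : H → K → L}

theorem pairing_ext (h : Equi.IsTensorPairing t) {v w : L}
    (hvw : ∀ x y, ⟪v, t x y⟫_ℂ = ⟪w, t x y⟫_ℂ) : v = w := by
  refine h.2.eq_of_inner_left (𝕜 := ℂ) fun z hz => ?_
  induction hz using Submodule.span_induction with
  | mem z hz =>
    obtain ⟨⟨x, y⟩, rfl⟩ := hz
    exact hvw x y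
  | zero => rw [inner_zero_right, inner_zero_right]
  | add u u' _ _ hu hu' => rw [inner_add_right, inner_add_right, hu, hu']
  | smul c u _ hu => rw [inner_smul_right, inner_smul_right, hu]

theorem pairing_op_ext (h : Equi.IsTensorPairing t) {S T : L →L[ℂ] L}
    (hST : ∀ x y, S (t x y) = T (t x y)) : S = T := by
  refine ContinuousLinearMap.ext fun z => ?_
  refine congrFun (Continuous.ext_on h.2 S.continuous T.continuous ?_) z
  intro w hw
  induction hw using Submodule.span_induction with
  | mem w hw =>
    obtain ⟨⟨x, y⟩, rfl⟩ := hw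
    exact hST x y
  | zero => rw [map_zero, map_zero]
  | add u v _ _ hu hv => rw [map_add, map_add, hu, hv]
  | smul c u _ hu => rw [map_smul, map_smul, hu]

theorem pairing_add_left (h : Equi.IsTensorPairing t) (x x' : H) (y : K) :
    t (x + x') y = t x y + t x' y :=
  pairing_ext h fun u v => by rw [inner_add_left, h.1, h.1, h.1, inner_add_left, add_mul]

theorem pairing_add_right (h : Equi.IsTensorPairing t) (x : H) (y y' : K) :
    t x (y + y') = t x y + t x y' :=
  pairing_ext h fun u v => by rw [inner_add_left, h.1, h.1, h.1, inner_add_left, mul_add]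

theorem pairing_smul_left (h : Equi.IsTensorPairing t) (c : ℂ) (x : H) (y : K) :
    t (c • x) y = c • t x y :=
  pairing_ext h fun u v => by rw [inner_smul_left, h.1, h.1, inner_smul_left, mul_assoc]

theorem pairing_smul_right (h : Equi.IsTensorPairing t) (c : ℂ) (x : H) (y : K) :
    t x (c • y) = c • t x y :=
  pairing_ext h fun u v => by rw [inner_smul_left, h.1, h.1, inner_smul_left, mul_left_comm]

end Pairing

noncomputable section

/-- A minimal tensor product carries the bilinear map. -/
theorem IsMinTensorNU.tensorData {A B R : Type} [NonUnitalCStarAlgebra A] [CStarAlgebra B]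
    [Nontrivial B] [NonUnitalCStarAlgebra R] {m : A → B → R} (h : IsMinTensorNU m) :
    Nonempty (TensorData A B R) := by
  obtain ⟨hd, H, K, L, _, _, _, _, _, _, _, _, _, π', ρ', j', t, ⟨π, hπ, eπ⟩, ⟨ρ, hρ, eρ⟩,
    ⟨j, hj, ej⟩, ht, hact⟩ := h
  simp only [ActsTensor, eπ, eρ, ej] at hact
  have ext' : ∀ r s : R, (∀ x y, j r (t x y) = j s (t x y)) → r = s := fun r s he =>
    hj (pairing_op_ext ht he)
  have hmul : ∀ a a' b b', m a b * m a' b' = m (a * a') (b * b') := fun a a' b b' =>
    ext' _ _ fun x y => by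
      rw [map_mul, ContinuousLinearMap.mul_apply, hact, hact, hact, map_mul, map_mul]
      rfl
  have hstar : ∀ a b, star (m a b) = m (star a) (star b) := fun a b =>
    ext' _ _ fun x y => pairing_ext ht fun x' y' => by
      rw [map_star, ContinuousLinearMap.star_eq_adjoint, ContinuousLinearMap.adjoint_inner_left,
        hact, hact, ht.1, ht.1, map_star, map_star, ContinuousLinearMap.star_eq_adjoint,
        ContinuousLinearMap.star_eq_adjoint, ContinuousLinearMap.adjoint_inner_left,
        ContinuousLinearMap.adjoint_inner_left]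
  let T : A →ₗ[ℂ] B →ₗ[ℂ] R := LinearMap.mk₂ ℂ m
    (fun a a' b => ext' _ _ fun x y => by
      rw [map_add, ContinuousLinearMap.add_apply, hact, hact, hact, map_add,
        ContinuousLinearMap.add_apply, pairing_add_left ht])
    (fun c a b => ext' _ _ fun x y => by
      rw [map_smul, ContinuousLinearMap.smul_apply, hact, hact, map_smul,
        ContinuousLinearMap.smul_apply, pairing_smul_left ht])
    (fun a b b' => ext' _ _ fun x y => by
      rw [map_add, ContinuousLinearMap.add_apply, hact, hact, hact, map_add,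
        ContinuousLinearMap.add_apply, pairing_add_right ht])
    (fun c a b => ext' _ _ fun x y => by
      rw [map_smul, ContinuousLinearMap.smul_apply, hact, hact, map_smul,
        ContinuousLinearMap.smul_apply, pairing_smul_right ht])
  let f : A →⋆ₙₐ[ℂ] R :=
    { toFun := fun a => T a 1
      map_smul' := fun c a => by rw [map_smul]; rfl
      map_zero' := by rw [map_zero]; rfl
      map_add' := fun a a' => by rw [map_add]; rfl
      map_mul' := fun a a' => by
        show m (a * a') 1 = m a 1 * m a' 1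
        rw [hmul, one_mul]
      map_star' := fun a => by
        show m (star a) 1 = star (m a 1)
        rw [hstar, star_one] }
  have hnorm : ∀ a b, ‖m a b‖ ≤ ‖a‖ * ‖b‖ := by
    intro a b
    let _iR : PartialOrder R := CStarAlgebra.spectralOrder R
    have : StarOrderedRing R := CStarAlgebra.spectralOrderedRing R
    let _iB : PartialOrder B := CStarAlgebra.spectralOrder B
    have : StarOrderedRing B := CStarAlgebra.spectralOrderedRing B
    obtain ⟨d, hd⟩ := CStarAlgebra.nonneg_iff_eq_star_mul_self.1
      (sub_nonneg.2 (CStarAlgebra.star_mul_le_algebraMap_norm_sq (a := b)))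
    have e : star (m a d) * m a d =
        (((‖b‖ ^ 2 : ℝ) : ℂ)) • f (star a * a) - star (m a b) * m a b := by
      rw [hstar, hmul, ← hd, hstar, hmul]
      show T (star a * a) (algebraMap ℝ B (‖b‖ ^ 2) - star b * b) =
        (((‖b‖ ^ 2 : ℝ) : ℂ)) • T (star a * a) 1 - T (star a * a) (star b * b)
      rw [map_sub, Algebra.algebraMap_eq_smul_one, ← Complex.coe_smul, map_smul]
    have hle : star (m a b) * m a b ≤ (((‖b‖ ^ 2 : ℝ) : ℂ)) • f (star a * a) :=
      sub_nonneg.1 (e ▸ star_mul_self_nonneg _)
    have h1 : ‖star (m a b) * m a b‖ ≤ ‖b‖ ^ 2 * ‖star a * a‖ := by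
      refine (CStarAlgebra.norm_le_norm_of_nonneg_of_le (star_mul_self_nonneg _) hle).trans ?_
      rw [norm_smul, Complex.norm_real, Real.norm_of_nonneg (by positivity)]
      exact mul_le_mul_of_nonneg_left (NonUnitalStarAlgHom.norm_apply_le f _) (by positivity)
    rw [CStarRing.norm_star_mul_self, CStarRing.norm_star_mul_self] at h1
    nlinarith [h1, norm_nonneg (m a b), mul_nonneg (norm_nonneg a) (norm_nonneg b)]
  refine ⟨⟨T, hmul, hstar, hnorm, hd, ?_⟩⟩
  intro a a' he
  refine hπ (ContinuousLinearMap.ext fun x => ?_)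
  have : Nontrivial K := by
    rw [← not_subsingleton_iff_nontrivial]
    intro hK
    exact one_ne_zero (hρ (show ρ (1 : B) = ρ 0 from ContinuousLinearMap.ext fun y =>
      Subsingleton.elim _ _))
  obtain ⟨y, hy⟩ := exists_ne (0 : K)
  have h2 : t (π a x) y = t (π a' x) y := by
    have := congrArg (fun r => j r (t x y)) (show m a 1 = m a' 1 from he)
    simpa [hact] using this
  refine ext_inner_left ℂ fun v => mul_right_cancel₀ (inner_self_ne_zero.2 hy : ⟪y, y⟫_ℂ ≠ 0) ?_
  rw [← ht.1, ← ht.1, h2]

/-- `A ≅ A ⊗ B` gives a bilinear map into `A`. -/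
theorem tensorData_of_isAbsorbingNU {A B : Type} [NonUnitalCStarAlgebra A] [CStarAlgebra B]
    [Nontrivial B] (h : IsAbsorbingNU A B) : Nonempty (TensorData A B A) :=
  h.choose_spec.tensorData

section Spatial

variable {A B H K : Type} [NonUnitalCStarAlgebra A] [CStarAlgebra B] [NormedAddCommGroup H]
  [InnerProductSpace ℂ H] [CompleteSpace H] [NormedAddCommGroup K] [InnerProductSpace ℂ K]
  [CompleteSpace K] (π : A →⋆ₙₐ[ℂ] (H →L[ℂ] H)) (ρ : B →⋆ₐ[ℂ] (K →L[ℂ] K))

/-- `π a ⊗ ρ b` as an element of the spatial tensor product. -/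
def elemTensor (a : A) (b : B) : spatialNU π ρ :=
  ⟨ampLeft (π a) * ampRight (ρ b), NonUnitalStarSubalgebra.le_topologicalClosure _
    (NonUnitalStarAlgebra.subset_adjoin ℂ _ ⟨(a, b), rfl⟩)⟩

theorem elemTensor_apply (a : A) (b : B) (x : H) (y : K) :
    (elemTensor π ρ a b).1 (Rep.emb (x ⊗ₜ[ℂ] y)) = Rep.emb ((π a x) ⊗ₜ[ℂ] (ρ b y)) := by
  show ampLeft (π a) (ampRight (ρ b) _) = _
  rw [Rep.ampRight_emb, Rep.ampLeft_emb]
  simp

theorem elemTensor_spansDense : SpansDense (elemTensor π ρ) := by
  intro z
  set S : Set (HTensor H K →L[ℂ] HTensor H K) :=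
    Set.range fun p : A × B => ampLeft (K := K) (π p.1) * ampRight (H := H) (ρ p.2) with hS
  have hcomm : ∀ (s : H →L[ℂ] H) (u : K →L[ℂ] K),
      ampRight (H := H) u * ampLeft (K := K) s = ampLeft s * ampRight u := fun s u =>
    (Rep.amp_commute s u).symm.eq
  have hsub : ∀ w ∈ NonUnitalStarAlgebra.adjoin ℂ S, w ∈ Submodule.span ℂ S := by
    intro w hw
    induction hw using NonUnitalStarAlgebra.adjoin_induction with
    | mem w hw => exact Submodule.subset_span hw
    | add u v _ _ hu hv => exact add_mem hu hv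
    | zero => exact zero_mem _
    | smul c u _ hu => exact Submodule.smul_mem _ c hu
    | mul u v _ _ hu hv =>
      refine Submodule.span_induction ?_ ?_ ?_ ?_ hu
      · rintro _ ⟨⟨a, b⟩, rfl⟩
        refine Submodule.span_induction ?_ ?_ ?_ ?_ hv
        · rintro _ ⟨⟨a', b'⟩, rfl⟩
          refine Submodule.subset_span ⟨(a * a', b * b'), ?_⟩
          show ampLeft (π (a * a')) * ampRight (ρ (b * b')) = _
          rw [map_mul, map_mul]
          show Rep.left (π a * π a') * Rep.right (ρ b * ρ b') = _
          rw [map_mul, map_mul]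
          show ampLeft (π a) * ampLeft (π a') * (ampRight (ρ b) * ampRight (ρ b')) = _
          simp only [mul_assoc]
          rw [← mul_assoc (ampLeft (π a')), ← hcomm]
          simp only [mul_assoc]
        · rw [mul_zero]; exact zero_mem _
        · intro v v' _ _ hv hv'; rw [mul_add]; exact add_mem hv hv'
        · intro c v _ hv; rw [mul_smul_comm]; exact Submodule.smul_mem _ c hv
      · rw [zero_mul]; exact zero_mem _
      · intro u u' _ _ hu hu'; rw [add_mul]; exact add_mem hu hu'
      · intro c u _ hu; rw [smul_mul_assoc]; exact Submodule.smul_mem _ c hu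
    | star u _ hu =>
      refine Submodule.span_induction ?_ ?_ ?_ ?_ hu
      · rintro _ ⟨⟨a, b⟩, rfl⟩
        refine Submodule.subset_span ⟨(star a, star b), ?_⟩
        show ampLeft (π (star a)) * ampRight (ρ (star b)) = _
        rw [map_star, map_star, star_mul]
        show Rep.left (star (π a)) * Rep.right (star (ρ b)) = _
        rw [map_star, map_star]
        show star (ampLeft (π a)) * star (ampRight (ρ b)) = _
        rw [← star_mul, hcomm, star_mul]
      · rw [star_zero]; exact zero_mem _
      · intro u u' _ _ hu hu'; rw [star_add]; exact add_mem hu hu'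
      · intro c u _ hu; rw [star_smul]; exact Submodule.smul_mem _ _ hu
  rw [Topology.IsInducing.subtypeVal.closure_eq_preimage_closure_image, Set.mem_preimage]
  have hz : z.1 ∈ closure (NonUnitalStarAlgebra.adjoin ℂ S : Set _) := z.2
  refine closure_mono ?_ hz
  intro w hw
  refine Submodule.span_induction ?_ ?_ ?_ ?_ (hsub w hw)
  · rintro _ ⟨⟨a, b⟩, rfl⟩
    exact ⟨elemTensor π ρ a b, Submodule.subset_span ⟨(a, b), rfl⟩, rfl⟩
  · exact ⟨0, zero_mem _, rfl⟩
  · rintro _ _ _ _ ⟨u, hu, rfl⟩ ⟨v, hv, rfl⟩
    exact ⟨u + v, add_mem hu hv, rfl⟩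
  · rintro c _ _ ⟨u, hu, rfl⟩
    exact ⟨c • u, Submodule.smul_mem _ c hu, rfl⟩

theorem elemTensor_isMinTensor (hπ : Function.Injective π) (hρ : Function.Injective ρ) :
    IsMinTensorNU (elemTensor π ρ) := by
  refine ⟨elemTensor_spansDense π ρ, H, K, HTensor H K, inferInstance, inferInstance,
    inferInstance, inferInstance, inferInstance, inferInstance, inferInstance, inferInstance,
    inferInstance, fun a => π a, fun b => ρ b,
    fun r => NonUnitalStarSubalgebraClass.subtype (spatialNU π ρ) r,
    fun x y => Rep.emb (x ⊗ₜ[ℂ] y), ⟨π, hπ, fun a => rfl⟩, ⟨ρ, hρ, fun b => rfl⟩,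
    ⟨_, Subtype.val_injective, fun r => rfl⟩,
    ⟨fun x y x' y' => by rw [Rep.inner_emb, TensorProduct.inner_tmul], ?_⟩, fun a b x y => ?_⟩
  · intro z
    refine closure_mono ?_ (Rep.emb_dense (H := H) (K := K) z)
    rintro _ ⟨w, rfl⟩
    induction w using TensorProduct.induction_on with
    | zero => rw [Rep.emb_zero]; exact Submodule.zero_mem _
    | tmul x y => exact Submodule.subset_span ⟨(x, y), rfl⟩
    | add u v hu hv => rw [Rep.emb_add]; exact Submodule.add_mem _ hu hv
  · exact elemTensor_apply π ρ a b x y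

end Spatial

/-- Equivariant stability inside `B(H ⊗ K)` gives the notion of the question. -/
theorem isEquiAbsorbingNU {A B : Type} [NonUnitalCStarAlgebra A] [CStarAlgebra B] {G : Type}
    [Group G] (α : Action G A) (h : IsEquiStableNU (G := G) A B α) :
    IsEquiAbsorbingNU A B α.map := by
  obtain ⟨H, K, _, _, _, _, _, _, π, ρ, β, hπ, hρ, hβ, Φ, u, hu, hc, hint⟩ := h
  refine ⟨spatialNU π ρ, inferInstance, elemTensor π ρ, β, Φ, u,
    elemTensor_isMinTensor π ρ hπ hρ, fun g a b => Subtype.ext (hβ g a b _ rfl),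
    ⟨hu, fun g k x => ?_⟩, fun g a => hint g a⟩
  have := congrArg (fun v : DoubleCentralizer ℂ (spatialNU π ρ) => v.fst x) (hc g k)
  refine this.trans ?_
  show (u g).fst (β g ((u k).fst ((β g).symm x))) = (u g).fst (β g ((u k).fst (β g⁻¹ x)))
  rw [map_inv]
  rfl

end

end Vale.P095.NU
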