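import Vale.Agent.P095.NU.Pins
import Vale.Agent.P095.NU.QuestionOf
import Vale.Agent.P101.ZStab.Univ
import Vale.Agent.P101.ZStab.Absorb.Core
import Vale.Agent.P095.Equi.Limit
import Vale.Agent.P095.Equi.NoChar
import Vale.Agent.P095.Equi.QuestionOf

/-!
# P095: assembly for algebras which need not be unital

The modules give Conjecture A for the Jiang–Su algebra of `Equi.bigTower`.
-/

open scoped Kronecker Matrix.Norms.L2Operator

namespace Vale.P095.NU

open Vale.P101 Vale.P101.ZS

noncomputable section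

/-- A tensor product of separable algebras is separable. -/
theorem TensorData.separableSpace {A B R : Type} [NonUnitalCStarAlgebra A] [CStarAlgebra B]
    [NonUnitalCStarAlgebra R] [TopologicalSpace.SeparableSpace A]
    [TopologicalSpace.SeparableSpace B] (T : TensorData A B R) :
    TopologicalSpace.SeparableSpace R := by
  have hc : Continuous fun p : A × B => T.m p.1 p.2 :=
    (LinearMap.mkContinuous₂ T.m 1 fun a b => by simpa using T.norm_le a b).continuous₂
  rw [← TopologicalSpace.isSeparable_univ_iff, ← T.dense.closure_eq]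
  exact ((TopologicalSpace.isSeparable_range hc).span (R := ℂ)).closure

/-- Conjecture A from the modules. -/
theorem exists_conjectureA (hRep : RepNUStmt) (hExp : CommExpStmt) (hUp : UpperNUStmt)
    (hLow : LowerNUStmt) (hUn : UnperfNUStmt) (hW : WeightCompareStmt) (hN : NormCompareStmt)
    (hT : TracedSIStmt) (hP : PureSIStmt) (hSt : StagesStmt) (hF : FlipsStmt)
    (hI : IntertwineNUStmt) (hNC : NoCharNUStmt) :
    ∃ (Z : Type) (_ : CStarAlgebra Z), Equi.IsJiangSuAlg Z ∧ ConjectureA Z := by
  obtain ⟨Z, _, T, hZ, hw⟩ := Equi.bigTower Equi.com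
  refine ⟨Z, inferInstance, Equi.isJiangSuAlg hZ, ?_⟩
  intro A _ _ _ hs hA hAZ G _ _ hG α
  have : Nontrivial Z := by
    obtain ⟨τ, ⟨h1, -, -⟩, -⟩ := hZ.2.1
    exact nontrivial_of_ne (1 : Z) 0 fun h => one_ne_zero' ℂ (by rw [← h1, h, map_zero])
  obtain ⟨T₀⟩ := tensorData_of_isAbsorbingNU hAZ
  let ω : Ultrafilter ℕ := Filter.hyperfilter ℕ
  have hω : (ω : Filter ℕ) ≤ Filter.cofinite := Filter.hyperfilter_le_cofinite
  have hfull := hNC A Z T hw ⟨T₀⟩ ω hω
  have hs' := isTopSimple_of hs
  have hA' := hasCPAP_of hA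
  have hrel : HasFixedRelations hω (show G →* (A ≃⋆ₐ[ℂ] A) from α) := by
    by_cases hwt : HasWeight A
    · exact hT A ω hω hs' hA' hfull (hW hUp hLow hUn A ω hω hs' hA' hfull hwt) G hG α
    · exact hP A ω hω hs' hA' hfull (hN hUp hLow hUn A ω hω hs' hA' hfull hwt) G hG α
  obtain ⟨R, _, T₁, β, hβ, hpack⟩ := hRep A Z G α
  have : TopologicalSpace.SeparableSpace Z := Absorb.separableSpace_tower T
  have : TopologicalSpace.SeparableSpace R := T₁.separableSpace
  have hflips := hF ZS.univ hExp A Z R ω hω G α (hSt A ω hω G α hrel) T T₁ β hβ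
  exact isEquiAbsorbingNU α
    (hpack (hI A R G α β T₁.left T₁.injective (fun g a => hβ g a 1) hflips))

end

end Vale.P095.NU
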