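import Vale.Agent.P101.ZStab.Limit.DDBasic

/-!
# P095: commutators of unitaries commuting with a copy of `Z(2,3)` are connected to `1`

In `Z(2,3)[F₂]` the commutator `[a, b]` is split over the six diagonal slots; the slot projection of
`a` is rotated until it is orthogonal to that of `b`, compatibly with both endpoint conditions.
-/

open scoped Kronecker Matrix.Norms.L2Operator ComplexOrder
open MonoidAlgebra

namespace Vale.P095.NU.Cmt

open Vale.P101.ZS

noncomputable section

abbrev G2 := FreeGroup (Fin 2)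

abbrev gA : G2 := FreeGroup.of 0
abbrev gB : G2 := FreeGroup.of 1

section Ring

variable {S T : Type*} [Ring S] [Ring T]

/-- The element `1 - p + p g`. -/
def uSl (p : S) (g : G2) : MonoidAlgebra S G2 := single 1 (1 - p) + single g p

theorem uSl_mul {p : S} (hp : p * p = p) (g h : G2) : uSl p g * uSl p h = uSl p (g * h) := by
  simp only [uSl, add_mul, mul_add, single_mul_single, one_mul, mul_one, sub_mul, mul_sub, hp,
    sub_self, single_zero, add_zero, zero_add, sub_zero]

theorem uSl_one (p : S) : uSl p 1 = 1 := by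
  rw [uSl, ← single_add, sub_add_cancel]
  rfl

theorem uSl_mul_orth {p e : S} (h : p * e = 0) (g : G2) : uSl p g * uSl e g = uSl (p + e) g := by
  simp only [uSl, add_mul, mul_add, single_mul_single, one_mul, mul_one, sub_mul, mul_sub, h,
    sub_zero, single_zero, add_zero]
  rw [sub_sub, single_add]
  abel

theorem uSl_comm {p e : S} (h : p * e = 0) (h' : e * p = 0) (g k : G2) :
    Commute (uSl p g) (uSl e k) := by
  show _ = _
  simp only [uSl, add_mul, mul_add, single_mul_single, one_mul, mul_one, sub_mul, mul_sub, h, h',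
    sub_zero, single_zero, add_zero]
  rw [sub_sub, sub_sub, add_comm e p]
  abel

/-- The commutator of `1 - p + p a` and `1 - e + e b`. -/
def cmt (p e : S) : MonoidAlgebra S G2 := uSl p gA * uSl e gB * uSl p gA⁻¹ * uSl e gB⁻¹

theorem cmt_self {e : S} (he : e * e = e) : cmt e e = uSl e (gA * gB * gA⁻¹ * gB⁻¹) := by
  rw [cmt, uSl_mul he, uSl_mul he, uSl_mul he]

theorem cmt_orth {p e : S} (hp : p * p = p) (he : e * e = e) (h : p * e = 0) (h' : e * p = 0) :
    cmt p e = 1 := by
  rw [cmt, mul_assoc (uSl p gA), ← (uSl_comm h h' gA⁻¹ gB).eq, ← mul_assoc, uSl_mul hp, mul_assoc,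
    uSl_mul he, mul_inv_cancel, mul_inv_cancel, uSl_one, uSl_one, one_mul]

theorem map_uSl (f : S →+* T) (p : S) (g : G2) : mapRingHom G2 f (uSl p g) = uSl (f p) g := by
  simp [uSl, map_sub]

theorem map_cmt (f : S →+* T) (p e : S) : mapRingHom G2 f (cmt p e) = cmt (f p) (f e) := by
  simp [cmt, map_uSl]

/-- `x` on the range of the idempotent `E`, and `1` off it. -/
def cut (E : S) (x : MonoidAlgebra S G2) : MonoidAlgebra S G2 := x * single 1 E + (1 - single 1 E)

theorem cut_mul {E : S} (hE : E * E = E) {x y : MonoidAlgebra S G2}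
    (hy : Commute y (single 1 E)) : cut E x * cut E y = cut E (x * y) := by
  have hq : (single 1 E : MonoidAlgebra S G2) * single 1 E = single 1 E := by
    rw [single_mul_single, one_mul, hE]
  simp only [cut]
  generalize (single 1 E : MonoidAlgebra S G2) = q at hy hq
  have h1 : x * q * (y * q) = x * y * q := by
    rw [mul_assoc, ← mul_assoc q, ← hy.eq, mul_assoc y, hq, ← mul_assoc]
  have h2 : x * q * (1 - q) = 0 := by rw [mul_assoc, mul_sub, mul_one, hq, sub_self, mul_zero]
  have h3 : (1 - q) * (y * q) = 0 := by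
    rw [hy.eq, ← mul_assoc, sub_mul, one_mul, hq, sub_self, zero_mul]
  have h4 : (1 - q) * (1 - q) = 1 - q := by
    rw [sub_mul, one_mul, mul_sub, mul_one, hq, sub_self, sub_zero]
  rw [add_mul, mul_add, mul_add, h1, h2, h3, h4, add_zero, zero_add]

theorem cut_uSl (E p : S) (g : G2) : cut E (uSl p g) = uSl (p * E) g := by
  have hsub : ∀ x y : S, (single (1 : G2) (x - y) : MonoidAlgebra S G2) = single 1 x - single 1 y :=
    fun x y => eq_sub_of_add_eq (by rw [← single_add, sub_add_cancel])
  rw [cut, uSl, uSl, add_mul, single_mul_single, single_mul_single, one_mul, mul_one, sub_mul,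
    one_mul, one_def]
  simp only [hsub]
  abel

theorem uSl_commute_single {E p : S} (h : p * E = E * p) (g : G2) :
    Commute (uSl p g) (single 1 E) := by
  show _ = _
  simp only [uSl, add_mul, mul_add, single_mul_single, one_mul, mul_one, sub_mul, mul_sub, h]

theorem cmt_commute_single {E p e : S} (hp : p * E = E * p) (he : e * E = E * e) :
    Commute (cmt p e) (single 1 E) :=
  (((uSl_commute_single hp _).mul_left (uSl_commute_single he _)).mul_left
    (uSl_commute_single hp _)).mul_left (uSl_commute_single he _)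

theorem cut_cmt {E p e : S} (hE : E * E = E) (hp : p * E = E * p) (he : e * E = E * e) :
    cut E (cmt p e) = cmt (p * E) (e * E) := by
  rw [cmt, ← cut_mul hE (uSl_commute_single he _), ← cut_mul hE (uSl_commute_single hp _),
    ← cut_mul hE (uSl_commute_single he _), cut_uSl, cut_uSl, cut_uSl, cut_uSl]
  rfl

theorem cut_one (E : S) : cut E 1 = 1 := by
  rw [cut, one_mul, add_sub_cancel]

/-- Cuts by orthogonal idempotents multiply to the cut by their sum. -/
theorem cut_mul_orth {E E' : S} (h : E * E' = 0) {x : MonoidAlgebra S G2}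
    (hx : Commute x (single 1 E)) : cut E x * cut E' x = cut (E + E') x := by
  have hq : (single 1 E : MonoidAlgebra S G2) * single 1 E' = 0 := by
    rw [single_mul_single, one_mul, h, single_zero]
  simp only [cut, single_add]
  generalize (single 1 E : MonoidAlgebra S G2) = q at hx hq
  generalize (single 1 E' : MonoidAlgebra S G2) = q' at hq
  have h1 : x * q * (x * q') = 0 := by
    rw [mul_assoc, ← mul_assoc q, ← hx.eq, mul_assoc x q q', hq, mul_zero, mul_zero]
  have h3 : (1 - q) * (x * q') = x * q' := by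
    rw [sub_mul, one_mul, ← mul_assoc, ← hx.eq, mul_assoc, hq, mul_zero, sub_zero]
  rw [add_mul, mul_add, mul_add, h1, h3, mul_sub, mul_one, mul_assoc x q q', hq, mul_zero, sub_zero,
    sub_mul, one_mul, mul_sub, mul_one, hq, sub_zero, zero_add, mul_add]
  abel

end Ring

section Star

variable {S T : Type*} [Ring S] [StarRing S] [Ring T] [StarRing T]

/-- The formal adjoint: `c g ↦ c* g⁻¹`. -/
def st (x : MonoidAlgebra S G2) : MonoidAlgebra S G2 :=
  liftNC ((singleOneRingHom : S →+* MonoidAlgebra S G2).toAddMonoidHom.comp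
    (starAddEquiv (R := S)).toAddMonoidHom) (fun g => single g⁻¹ 1) x

theorem st_single (g : G2) (c : S) : st (single g c) = single g⁻¹ (star c) := by
  simp [st, single_mul_single]

theorem st_add (x y : MonoidAlgebra S G2) : st (x + y) = st x + st y := by simp [st]

theorem st_zero : st (0 : MonoidAlgebra S G2) = 0 := by simp [st]

theorem st_sub (x y : MonoidAlgebra S G2) : st (x - y) = st x - st y := by simp [st]

theorem st_mul (x y : MonoidAlgebra S G2) : st (x * y) = st y * st x := by
  induction x using MonoidAlgebra.induction_linear with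
  | zero => simp [st_zero]
  | add x x' hx hx' => rw [add_mul, st_add, hx, hx', st_add, mul_add]
  | single g c =>
    induction y using MonoidAlgebra.induction_linear with
    | zero => simp [st_zero]
    | add y y' hy hy' => rw [mul_add, st_add, hy, hy', st_add, add_mul]
    | single k d => rw [single_mul_single, st_single, st_single, st_single, single_mul_single,
        mul_inv_rev, star_mul]

/-- Formally unitary. -/
def IsU (x : MonoidAlgebra S G2) : Prop := st x * x = 1 ∧ x * st x = 1

theorem IsU.mul {x y : MonoidAlgebra S G2} (hx : IsU x) (hy : IsU y) : IsU (x * y) := by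
  refine ⟨?_, ?_⟩
  · rw [st_mul, mul_assoc, ← mul_assoc (st x), hx.1, one_mul, hy.1]
  · rw [st_mul, mul_assoc, ← mul_assoc y, hy.2, one_mul, hx.2]

theorem isU_uSl {p : S} (hs : star p = p) (hp : p * p = p) (g : G2) : IsU (uSl p g) := by
  have h : st (uSl p g) = uSl p g⁻¹ := by simp [uSl, st_add, st_sub, st_single, hs]
  refine ⟨?_, ?_⟩ <;> rw [h, uSl_mul hp] <;> simp [uSl_one]

theorem isU_cmt {p e : S} (hs : star p = p) (hp : p * p = p) (hs' : star e = e) (he : e * e = e) :
    IsU (cmt p e) :=
  (((isU_uSl hs hp _).mul (isU_uSl hs' he _)).mul (isU_uSl hs hp _)).mul (isU_uSl hs' he _)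

theorem map_st (f : S →+* T) (hf : ∀ c, f (star c) = star (f c)) (x : MonoidAlgebra S G2) :
    mapRingHom G2 f (st x) = st (mapRingHom G2 f x) := by
  induction x using MonoidAlgebra.induction_linear with
  | zero => simp [st_zero]
  | add x x' hx hx' => rw [map_add, st_add, st_add, map_add, hx, hx']
  | single g c => rw [st_single, mapRingHom_single, mapRingHom_single, st_single, hf]

end Star

section Slots

abbrev M6 := Mat 2 3
abbrev R2 := C(II × II, M6)

/-- The slot `(p,q)` as a vector, rotated towards `(p+1,q)` and `(p,q+1)`. -/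
def vec (i : Fin 2 × Fin 3) (a b : ℝ) : Fin 2 × Fin 3 → ℂ := fun k =>
  (Real.cos a : ℂ) * (if k = i then 1 else 0) +
    (Real.sin a : ℂ) * ((Real.cos b : ℂ) * (if k = (i.1 + 1, i.2) then 1 else 0) +
      (Real.sin b : ℂ) * (if k = (i.1, i.2 + 1) then 1 else 0))

theorem vec_real (i : Fin 2 × Fin 3) (a b : ℝ) (k : Fin 2 × Fin 3) :
    star (vec i a b k) = vec i a b k := by
  simp only [vec, Complex.star_def, map_add, map_mul, Complex.conj_ofReal]
  split_ifs <;> simp

theorem vec_norm (i : Fin 2 × Fin 3) (a b : ℝ) : ∑ k, vec i a b k * vec i a b k = 1 := by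
  have ha : ((Real.cos a : ℂ)) * Real.cos a + (Real.sin a : ℂ) * Real.sin a = 1 := by
    rw [← Complex.ofReal_mul, ← Complex.ofReal_mul, ← Complex.ofReal_add, ← sq, ← sq,
      Real.cos_sq_add_sin_sq, Complex.ofReal_one]
  have hb : ((Real.cos b : ℂ)) * Real.cos b + (Real.sin b : ℂ) * Real.sin b = 1 := by
    rw [← Complex.ofReal_mul, ← Complex.ofReal_mul, ← Complex.ofReal_add, ← sq, ← sq,
      Real.cos_sq_add_sin_sq, Complex.ofReal_one]
  simp only [Complex.ofReal_cos, Complex.ofReal_sin] at ha hb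
  obtain ⟨p, q⟩ := i
  fin_cases p <;> fin_cases q <;>
    simp [vec, Fintype.sum_prod_type, Fin.sum_univ_two, Fin.sum_univ_three] <;>
    linear_combination ha + Complex.sin a * Complex.sin a * hb

/-- The angle running from `0` to `π/2`. -/
def ang (t : II) : ℝ := (t : ℝ) * (Real.pi / 2)

/-- The rotated slot projection. -/
def pr (i : Fin 2 × Fin 3) : R2 where
  toFun x := Matrix.of fun k l => vec i (ang x.1) (ang x.2) k * vec i (ang x.1) (ang x.2) l
  continuous_toFun := continuous_matrix fun k l => by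
    simp only [Matrix.of_apply, vec, ang]; fun_prop

theorem pr_apply (i : Fin 2 × Fin 3) (x : II × II) (k l : Fin 2 × Fin 3) :
    pr i x k l = vec i (ang x.1) (ang x.2) k * vec i (ang x.1) (ang x.2) l := rfl

/-- The fixed slot projection. -/
def ec (i : Fin 2 × Fin 3) : R2 := ContinuousMap.const _ (Matrix.single i i 1)

theorem pr_star (i : Fin 2 × Fin 3) : star (pr i) = pr i := by
  refine ContinuousMap.ext fun x => Matrix.ext fun k l => ?_
  simp [ContinuousMap.star_apply, Matrix.star_apply, pr_apply, mul_comm,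
    vec_real]

theorem pr_mul (i : Fin 2 × Fin 3) : pr i * pr i = pr i := by
  refine ContinuousMap.ext fun x => Matrix.ext fun k l => ?_
  simp only [ContinuousMap.mul_apply, Matrix.mul_apply, pr_apply]
  calc ∑ j, vec i (ang x.1) (ang x.2) k * vec i (ang x.1) (ang x.2) j *
        (vec i (ang x.1) (ang x.2) j * vec i (ang x.1) (ang x.2) l)
      = vec i (ang x.1) (ang x.2) k * (∑ j, vec i (ang x.1) (ang x.2) j *
          vec i (ang x.1) (ang x.2) j) * vec i (ang x.1) (ang x.2) l := by
        rw [Finset.mul_sum, Finset.sum_mul]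
        exact Finset.sum_congr rfl fun j _ => by ring
    _ = _ := by rw [vec_norm, mul_one]

theorem ec_star (i : Fin 2 × Fin 3) : star (ec i) = ec i :=
  ContinuousMap.ext fun _ => by simp [ec, Matrix.star_eq_conjTranspose]

theorem ec_mul (i : Fin 2 × Fin 3) : ec i * ec i = ec i :=
  ContinuousMap.ext fun _ => by simp [ec]

/-- The path in `s`, as a formal element over functions of `(s,t)`. -/
def path : MonoidAlgebra R2 G2 :=
  (cmt (pr (0, 0)) (ec (0, 0)) * cmt (pr (0, 1)) (ec (0, 1)) * cmt (pr (0, 2)) (ec (0, 2))) *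
    (cmt (pr (1, 0)) (ec (1, 0)) * cmt (pr (1, 1)) (ec (1, 1)) * cmt (pr (1, 2)) (ec (1, 2)))

theorem isU_path : IsU path := by
  have h := fun i => isU_cmt (pr_star i) (pr_mul i) (ec_star i) (ec_mul i)
  exact (((h _).mul (h _)).mul (h _)).mul (((h _).mul (h _)).mul (h _))

/-- Evaluation at a point of the square. -/
def evx (x : II × II) : R2 →+* M6 where
  toFun f := f x
  map_one' := rfl
  map_mul' _ _ := rfl
  map_zero' := rfl
  map_add' _ _ := rfl

/-- `A ↦ A ⊗ 1`. -/
def j0 : Matrix (Fin 2) (Fin 2) ℂ →+* M6 where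
  toFun A := A ⊗ₖ (1 : Matrix (Fin 3) (Fin 3) ℂ)
  map_one' := Matrix.one_kronecker_one
  map_mul' A B := by simp [← Matrix.mul_kronecker_mul]
  map_zero' := Matrix.zero_kronecker _
  map_add' A B := Matrix.add_kronecker A B _

/-- `B ↦ 1 ⊗ B`. -/
def j1 : Matrix (Fin 3) (Fin 3) ℂ →+* M6 where
  toFun B := (1 : Matrix (Fin 2) (Fin 2) ℂ) ⊗ₖ B
  map_one' := Matrix.one_kronecker_one
  map_mul' A B := by simp [← Matrix.mul_kronecker_mul]
  map_zero' := Matrix.kronecker_zero _
  map_add' A B := Matrix.kronecker_add _ A B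

theorem j0_comm_j1 (A : Matrix (Fin 2) (Fin 2) ℂ) (B : Matrix (Fin 3) (Fin 3) ℂ) :
    j0 A * j1 B = j1 B * j0 A := by
  simp [j0, j1, ← Matrix.mul_kronecker_mul]

/-- The rotated two-point projection. -/
def pl (p : Fin 2) (a : ℝ) : Matrix (Fin 2) (Fin 2) ℂ :=
  Matrix.of fun k l =>
    ((Real.cos a : ℂ) * (if k = p then 1 else 0) + (Real.sin a : ℂ) * (if k = p + 1 then 1 else 0))
      * ((Real.cos a : ℂ) * (if l = p then 1 else 0) +
        (Real.sin a : ℂ) * (if l = p + 1 then 1 else 0))

/-- The rotated three-point projection. -/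
def p3 (q : Fin 3) (a : ℝ) : Matrix (Fin 3) (Fin 3) ℂ :=
  Matrix.of fun k l =>
    ((Real.cos a : ℂ) * (if k = q then 1 else 0) + (Real.sin a : ℂ) * (if k = q + 1 then 1 else 0))
      * ((Real.cos a : ℂ) * (if l = q then 1 else 0) +
        (Real.sin a : ℂ) * (if l = q + 1 then 1 else 0))

theorem ang_zero : ang 0 = 0 := by simp [ang]

theorem ang_one : ang 1 = Real.pi / 2 := by simp [ang]

theorem evx_pr_left (s : II) (p : Fin 2) (q : Fin 3) :
    evx (s, 0) (pr (p, q)) = j0 (pl p (ang s)) * j1 (Matrix.single q q 1) := by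
  ext ⟨a, b⟩ ⟨c, d⟩
  show vec _ _ (ang 0) _ * vec _ _ (ang 0) _ =
    ((pl p (ang s) ⊗ₖ (1 : Matrix (Fin 3) (Fin 3) ℂ)) * ((1 : Matrix (Fin 2) (Fin 2) ℂ) ⊗ₖ
      Matrix.single q q 1) : M6) (a, b) (c, d)
  rw [← Matrix.mul_kronecker_mul, mul_one, one_mul, ang_zero]
  by_cases hb : b = q <;> by_cases hd : d = q <;>
    simp [vec, pl, Matrix.single, hb, hd, eq_comm (a := q)]

theorem evx_pr_right (s : II) (p : Fin 2) (q : Fin 3) :
    evx (s, 1) (pr (p, q)) = j1 (p3 q (ang s)) * j0 (Matrix.single p p 1) := by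
  ext ⟨a, b⟩ ⟨c, d⟩
  show vec _ _ (ang 1) _ * vec _ _ (ang 1) _ =
    (((1 : Matrix (Fin 2) (Fin 2) ℂ) ⊗ₖ p3 q (ang s)) * (Matrix.single p p 1 ⊗ₖ
      (1 : Matrix (Fin 3) (Fin 3) ℂ)) : M6) (a, b) (c, d)
  rw [← Matrix.mul_kronecker_mul, mul_one, one_mul, ang_one]
  by_cases hb : a = p <;> by_cases hd : c = p <;>
    simp [vec, p3, Matrix.single, hb, hd, eq_comm (a := p)]

theorem evx_ec (x : II × II) (p : Fin 2) (q : Fin 3) :
    evx x (ec (p, q)) = j0 (Matrix.single p p 1) * j1 (Matrix.single q q 1) := by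
  show Matrix.single (p, q) (p, q) 1 = (Matrix.single p p 1 ⊗ₖ (1 : Matrix (Fin 3) (Fin 3) ℂ)) *
    ((1 : Matrix (Fin 2) (Fin 2) ℂ) ⊗ₖ Matrix.single q q 1)
  rw [← Matrix.mul_kronecker_mul, mul_one, one_mul, Matrix.single_kronecker_single, one_mul]

theorem single_sum_two : ∑ p : Fin 2, Matrix.single p p (1 : ℂ) = 1 := by
  ext i j; fin_cases i <;> fin_cases j <;> simp [Fin.sum_univ_two, Matrix.single]

theorem single_sum_three : ∑ p : Fin 3, Matrix.single p p (1 : ℂ) = 1 := by
  ext i j; fin_cases i <;> fin_cases j <;> simp [Fin.sum_univ_three, Matrix.single]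

/-- Along `t = 0` the path has the form `X ⊗ 1`. -/
theorem path_left (s : II) : ∃ X : MonoidAlgebra (Matrix (Fin 2) (Fin 2) ℂ) G2,
    mapRingHom G2 (evx (s, 0)) path = mapRingHom G2 j0 X := by
  refine ⟨cmt (pl 0 (ang s)) (Matrix.single 0 0 1) * cmt (pl 1 (ang s)) (Matrix.single 1 1 1), ?_⟩
  have key : ∀ p : Fin 2, cmt (evx (s, 0) (pr (p, 0))) (evx (s, 0) (ec (p, 0))) *
      cmt (evx (s, 0) (pr (p, 1))) (evx (s, 0) (ec (p, 1))) *
      cmt (evx (s, 0) (pr (p, 2))) (evx (s, 0) (ec (p, 2))) =
      cmt (j0 (pl p (ang s))) (j0 (Matrix.single p p 1)) := fun p => by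
    have hc : ∀ B, Commute (cmt (j0 (pl p (ang s))) (j0 (Matrix.single p p (1 : ℂ))))
        (single 1 (j1 B)) := fun B => cmt_commute_single (j0_comm_j1 _ _) (j0_comm_j1 _ _)
    have hi : ∀ q : Fin 3, j1 (Matrix.single q q 1) * j1 (Matrix.single q q 1) =
        j1 (Matrix.single q q 1) := fun q => by rw [← map_mul]; simp
    simp only [evx_pr_left, evx_ec]
    rw [← cut_cmt (hi 0) (j0_comm_j1 _ _) (j0_comm_j1 _ _),
      ← cut_cmt (hi 1) (j0_comm_j1 _ _) (j0_comm_j1 _ _),
      ← cut_cmt (hi 2) (j0_comm_j1 _ _) (j0_comm_j1 _ _),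
      cut_mul_orth (by rw [← map_mul]; simp) (hc _), ← map_add,
      cut_mul_orth (by rw [← map_mul]; simp [add_mul]) (hc _), ← map_add]
    have := single_sum_three
    rw [Fin.sum_univ_three] at this
    rw [this, map_one, cut, ← one_def, mul_one, sub_self, add_zero]
  rw [path, map_mul, map_mul, map_mul, map_mul, map_mul, map_mul]
  simp only [map_cmt]
  rw [key 0, key 1]

/-- Along `t = 1` the path has the form `1 ⊗ X`. -/
theorem path_right (s : II) : ∃ X : MonoidAlgebra (Matrix (Fin 3) (Fin 3) ℂ) G2,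
    mapRingHom G2 (evx (s, 1)) path = mapRingHom G2 j1 X := by
  let W := cmt (p3 0 (ang s)) (Matrix.single 0 0 1) * cmt (p3 1 (ang s)) (Matrix.single 1 1 1) *
    cmt (p3 2 (ang s)) (Matrix.single 2 2 1)
  refine ⟨W, ?_⟩
  have hi : ∀ p : Fin 2, j0 (Matrix.single p p (1 : ℂ)) * j0 (Matrix.single p p 1) =
      j0 (Matrix.single p p 1) := fun p => by rw [← map_mul]; simp
  have hc : ∀ (q : Fin 3) A, Commute
      (cmt (j1 (p3 q (ang s))) (j1 (Matrix.single q q (1 : ℂ)))) (single 1 (j0 A)) :=
    fun q A => cmt_commute_single (j0_comm_j1 _ _).symm (j0_comm_j1 _ _).symm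
  have key : ∀ p : Fin 2, cmt (evx (s, 1) (pr (p, 0))) (evx (s, 1) (ec (p, 0))) *
      cmt (evx (s, 1) (pr (p, 1))) (evx (s, 1) (ec (p, 1))) *
      cmt (evx (s, 1) (pr (p, 2))) (evx (s, 1) (ec (p, 2))) =
      cut (j0 (Matrix.single p p 1)) (mapRingHom G2 j1 W) := fun p => by
    simp only [evx_pr_right, evx_ec, j0_comm_j1, W, map_mul, map_cmt]
    rw [← cut_cmt (hi p) (j0_comm_j1 _ _).symm (j0_comm_j1 _ _).symm,
      ← cut_cmt (hi p) (j0_comm_j1 _ _).symm (j0_comm_j1 _ _).symm,
      ← cut_cmt (hi p) (j0_comm_j1 _ _).symm (j0_comm_j1 _ _).symm,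
      cut_mul (hi p) (hc 1 _), cut_mul (hi p) (hc 2 _)]
  rw [path, map_mul, map_mul, map_mul, map_mul, map_mul, map_mul]
  simp only [map_cmt]
  rw [key 0, key 1, cut_mul_orth (by rw [← map_mul]; simp) (by
    simp only [W, map_mul, map_cmt]
    exact ((hc 0 _).mul_left (hc 1 _)).mul_left (hc 2 _)), ← map_add]
  have := single_sum_two
  rw [Fin.sum_univ_two] at this
  rw [this, map_one, cut, ← one_def, mul_one, sub_self, add_zero]
  simp only [W, map_mul, map_cmt]

/-- The slice at `s`. -/
def slice (s : II) : R2 →+* C(II, M6) where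
  toFun f := f.comp ⟨fun t => (s, t), by fun_prop⟩
  map_one' := rfl
  map_mul' _ _ := rfl
  map_zero' := rfl
  map_add' _ _ := rfl

theorem slice_mem (s : II) (g : G2) : slice s (path.coeff g) ∈ DD 2 3 := by
  obtain ⟨X, hX⟩ := path_left s
  obtain ⟨Y, hY⟩ := path_right s
  refine ⟨⟨X.coeff g, ?_⟩, Y.coeff g, ?_⟩
  · have := congrArg (fun z : MonoidAlgebra M6 G2 => z.coeff g) hX
    simp only [coeff_mapRingHom] at this
    exact this
  · have := congrArg (fun z : MonoidAlgebra M6 G2 => z.coeff g) hY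
    simp only [coeff_mapRingHom] at this
    exact this

theorem path_start : mapRingHom G2 (slice 0) path = single (gA * gB * gA⁻¹ * gB⁻¹) 1 := by
  have h : ∀ i : Fin 2 × Fin 3, slice 0 (pr i) = slice 0 (ec i) := fun i =>
    ContinuousMap.ext fun t => Matrix.ext fun k l => by
      show vec i (ang 0) _ k * vec i (ang 0) _ l = Matrix.single i i (1 : ℂ) k l
      simp [vec, ang_zero, Matrix.single, eq_comm (a := i)]
      split_ifs <;> simp_all
  have hi : ∀ i, slice 0 (ec i) * slice 0 (ec i) = slice 0 (ec i) := fun i => by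
    rw [← map_mul, ec_mul]
  have ho : ∀ i j : Fin 2 × Fin 3, i ≠ j → slice 0 (ec i) * slice 0 (ec j) = 0 := fun i j hij =>
    ContinuousMap.ext fun t => by
      show Matrix.single i i (1 : ℂ) * Matrix.single j j 1 = 0
      rw [Matrix.single_mul_single_of_ne _ _ _ _ hij]
  simp only [path, map_mul, map_cmt, h, cmt_self (hi _)]
  rw [uSl_mul_orth (ho _ _ (by decide)), uSl_mul_orth (by simp [add_mul, ho]),
    uSl_mul_orth (ho _ _ (by decide)), uSl_mul_orth (by simp [add_mul, ho]),
    uSl_mul_orth (by simp [add_mul, mul_add, ho])]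
  have hsum : slice 0 (ec (0, 0)) + slice 0 (ec (0, 1)) + slice 0 (ec (0, 2)) +
      (slice 0 (ec (1, 0)) + slice 0 (ec (1, 1)) + slice 0 (ec (1, 2))) = 1 :=
    ContinuousMap.ext fun t => by
      show Matrix.single _ _ (1 : ℂ) + Matrix.single _ _ 1 + Matrix.single _ _ 1 +
        (Matrix.single _ _ 1 + Matrix.single _ _ 1 + Matrix.single _ _ 1) = (1 : M6)
      ext ⟨a, b⟩ ⟨c, d⟩
      fin_cases a <;> fin_cases b <;> fin_cases c <;> fin_cases d <;> simp [Matrix.single]
  rw [hsum, uSl, sub_self, single_zero, zero_add]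

theorem path_end : mapRingHom G2 (slice 1) path = 1 := by
  have ho : ∀ i, slice 1 (pr i) * slice 1 (ec i) = 0 ∧ slice 1 (ec i) * slice 1 (pr i) = 0 := by
    intro i
    have hv : ∀ b, vec i (Real.pi / 2) b i = 0 := fun b => by
      obtain ⟨p, q⟩ := i
      fin_cases p <;> fin_cases q <;> simp [vec]
    refine ⟨ContinuousMap.ext fun t => Matrix.ext fun k l => ?_,
      ContinuousMap.ext fun t => Matrix.ext fun k l => ?_⟩
    · show (pr i (1, t) * Matrix.single i i (1 : ℂ)) k l = 0
      by_cases hl : l = i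
      · subst hl; simp [pr_apply, ang_one, hv]
      · simp [Matrix.mul_single_apply_of_ne, hl]
    · show (Matrix.single i i (1 : ℂ) * pr i (1, t)) k l = 0
      by_cases hk : k = i
      · subst hk; simp [pr_apply, ang_one, hv]
      · simp [Matrix.single_mul_apply_of_ne, hk]
  have h : ∀ i, cmt (slice 1 (pr i)) (slice 1 (ec i)) = 1 := fun i =>
    cmt_orth (by rw [← map_mul, pr_mul]) (by rw [← map_mul, ec_mul]) (ho i).1 (ho i).2
  simp [path, map_cmt, h]

end Slots

section Main

variable {E : Type*} [CStarAlgebra E]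

/-- The commutator of two unitaries commuting with a unital copy of `Z(2,3)` is connected to `1`
by a path of unitaries. -/
theorem exists_path (ψ : DD 2 3 →⋆ₐ[ℂ] E) (a b : unitary E)
    (ha : ∀ f, Commute (ψ f) (a : E)) (hb : ∀ f, Commute (ψ f) (b : E)) :
    ∃ γ : C(II, E), (∀ s, γ s ∈ unitary E) ∧ γ 0 = (a : E) * b * star (a : E) * star (b : E) ∧
      γ 1 = 1 := by
  let χ₀ : G2 →* unitary E := FreeGroup.lift ![a, b]
  let χ : G2 →* E := (unitary E).subtype.comp χ₀
  have hχ : ∀ f g, Commute ((ψ : DD 2 3 →+* E) f) (χ g) := fun f g => by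
    have hst : ∀ u : unitary E, (∀ f, Commute (ψ f) (u : E)) →
        Commute (ψ f) ((u⁻¹ : unitary E) : E) := fun u hu => by
      have := (hu (star f)).star_star
      rw [map_star, star_star] at this
      simpa [← Unitary.star_eq_inv] using this
    induction g using FreeGroup.induction_on with
    | C1 => simp [χ]
    | of i => fin_cases i <;> simp [χ, χ₀, ha f, hb f]
    | inv_of i _ =>
      fin_cases i <;> simp [χ, χ₀] <;> [simpa using hst a ha; simpa using hst b hb]
    | mul x y hx hy => rw [map_mul]; exact hx.mul_right hy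
  let ev : MonoidAlgebra (DD 2 3) G2 →+* E := liftNCRingHom (ψ : DD 2 3 →+* E) χ hχ
  have hev : ∀ x, ev (st x) = star (ev x) := fun x => by
    induction x using MonoidAlgebra.induction_linear with
    | zero => simp [st_zero]
    | add x y hx hy => rw [st_add, map_add, map_add, hx, hy, star_add]
    | single g c =>
      have hinv : χ g⁻¹ = star (χ g) := by simp [χ, ← Unitary.star_eq_inv]
      rw [st_single, liftNCRingHom_single, liftNCRingHom_single, star_mul, hinv]
      show ψ (star c) * _ = _ * star (ψ c)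
      rw [← map_star ψ c]
      have := hχ (star c) g⁻¹
      rw [hinv] at this
      exact this.eq
  -- the slices, inside the coefficient algebra
  let F : II → MonoidAlgebra (DD 2 3) G2 := fun s =>
    ∑ g ∈ path.coeff.support, single g ⟨slice s (path.coeff g), slice_mem s g⟩
  let incl : DD 2 3 →+* C(II, M6) := (DD 2 3).subtype.toAlgHom.toRingHom
  have hincl : Function.Injective (mapRingHom G2 incl) := fun x y hxy => by
    ext g : 2
    have := congrArg (fun z : MonoidAlgebra C(II, M6) G2 => z.coeff g) hxy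
    simp only [coeff_mapRingHom] at this
    exact Subtype.ext this
  have hF : ∀ s, mapRingHom G2 incl (F s) = mapRingHom G2 (slice s) path := fun s => by
    conv_rhs => rw [← sum_coeff_single path, Finsupp.sum, map_sum]
    simp only [F, map_sum, mapRingHom_single]
    rfl
  have hU : ∀ s, st (F s) * F s = 1 ∧ F s * st (F s) = 1 := fun s => by
    have e : mapRingHom G2 incl (st (F s)) = mapRingHom G2 (slice s) (st path) := by
      rw [map_st incl fun _ => rfl, hF, map_st (slice s) fun _ => rfl]
    constructor <;> refine hincl ?_ <;> rw [map_mul, e, hF, ← map_mul, map_one]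
    · rw [isU_path.1, map_one]
    · rw [isU_path.2, map_one]
  have hψ : Continuous ψ :=
    AddMonoidHomClass.continuous_of_bound ψ 1 fun x => by
      rw [one_mul]; exact NonUnitalStarAlgHom.norm_apply_le ψ x
  have hcont : Continuous fun s => ev (F s) := by
    simp only [F, map_sum, ev, liftNCRingHom_single]
    refine continuous_finsetSum _ fun g _ => (hψ.comp ?_).mul continuous_const
    exact Continuous.subtype_mk (ContinuousMap.curry (path.coeff g)).continuous _
  refine ⟨⟨fun s => ev (F s), hcont⟩, fun s => ?_, ?_, ?_⟩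
  · refine Unitary.mem_iff.2 ⟨?_, ?_⟩
    · show star (ev (F s)) * ev (F s) = 1
      rw [← hev, ← map_mul, (hU s).1, map_one]
    · show ev (F s) * star (ev (F s)) = 1
      rw [← hev, ← map_mul, (hU s).2, map_one]
  · show ev (F 0) = _
    have : F 0 = single (gA * gB * gA⁻¹ * gB⁻¹) 1 := hincl (by
      rw [hF, path_start, mapRingHom_single, map_one])
    rw [this, liftNCRingHom_single, map_one, one_mul]
    simp [χ, χ₀, ← Unitary.star_eq_inv]
  · show ev (F 1) = 1
    have : F 1 = 1 := hincl (by rw [hF, path_end, map_one])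
    rw [this, map_one]

end Main

end

end Vale.P095.NU.Cmt
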