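import Vale.Agent.P095.NU.Pins
import Vale.Agent.P095.NU.Commutator

/-!
# P095: commutators commuting with a copy of `Z(2,3)` are products of exponentials
-/

open scoped Kronecker Matrix.Norms.L2Operator

namespace Vale.P095.NU

open Vale.P101 Vale.P101.ZS

noncomputable section

/-- `Z(2,3)` in the vocabulary of the stages. -/
def dd23 : DD 2 3 →⋆ₐ[ℂ] DD.dimDrop23 where
  toFun f := ⟨f.1, f.2⟩
  map_one' := rfl
  map_mul' _ _ := rfl
  map_zero' := rfl
  map_add' _ _ := rfl
  commutes' _ := rfl
  map_star' _ := rfl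

/-- The statement `CommExpStmt`. -/
theorem commExp : CommExpStmt := by
  intro E _ ψ u v hu hv h
  obtain ⟨γ, hγ, h0, h1⟩ := Cmt.exists_path (ψ.comp dd23) ⟨u, hu⟩ ⟨v, hv⟩
    (fun f => (h (dd23 f)).1) fun f => (h (dd23 f)).2
  let c : unitary E := ⟨u * v * star u * star v,
    mul_mem (mul_mem (mul_mem hu hv) (Unitary.star_mem hu)) (Unitary.star_mem hv)⟩
  have hj : Joined c (1 : unitary E) :=
    ⟨{ toFun := fun s => ⟨γ s, hγ s⟩
       continuous_toFun := γ.continuous.subtype_mk _
       source' := Subtype.ext h0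
       target' := Subtype.ext h1 }⟩
  obtain ⟨l, hl⟩ := Unitary.mem_pathComponentOne_iff.1 hj.symm
  refine ⟨l, ?_⟩
  have h2 := congrArg (unitary E).subtype hl
  rw [map_list_prod, List.map_map] at h2
  exact h2

end

end Vale.P095.NU
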