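import Vale.Agent.P095.NU.Pins
import Vale.Agent.P095.Lossy.Main
import Vale.Agent.P101.ZStab.Tree

/-!
# P095: comparison from the weight modules

For pairs `(g, h)`, `(b, c)` take chains `H`, `C` of plateau functions of `g`, `b` with `H 0 * h = h`
and `C 0 * c = c`, and put `x = h e h`, `y = c q c`, `y₁ = (y - δ)₊`. Small weights put copies of
`(x - ε)₊` below `H 1 * H 1`, by simplicity this is below finitely many copies of `C 1 * C 1`, and
large weights put copies of that below `y₁`; almost unperforation applies.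
-/

open scoped NNReal ENNReal

namespace Vale.P095.NU

open Vale.P101 Vale.P101.ZS Vale.P095.Nonunital Vale.P095.SI Unitization

noncomputable section

set_option linter.unusedSectionVars false

attribute [local instance] CStarAlgebra.spectralOrder CStarAlgebra.spectralOrderedRing

namespace Cmp

variable {A : Type} [NonUnitalCStarAlgebra A]

/-! ### The ideal -/

theorem mem_iff {x : Unitization ℂ A} : x ∈ inrSet A ↔ x.fst = 0 :=
  ⟨fun ⟨a, ha⟩ => by rw [← ha]; simp, fun h => ⟨x.snd, Unitization.ext (by simp [h]) (by simp)⟩⟩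

theorem inr_snd_eq {x : Unitization ℂ A} (h : x ∈ inrSet A) :
    (inr x.snd : Unitization ℂ A) = x := by
  obtain ⟨a, rfl⟩ := h
  rw [snd_inr]

theorem mem_mul_left {x : Unitization ℂ A} (h : x ∈ inrSet A) (y : Unitization ℂ A) :
    y * x ∈ inrSet A := by
  rw [mem_iff] at *
  simp [h]

theorem mem_mul_right {x : Unitization ℂ A} (h : x ∈ inrSet A) (y : Unitization ℂ A) :
    x * y ∈ inrSet A := by
  rw [mem_iff] at *
  simp [h]

theorem mem_add {x y : Unitization ℂ A} (hx : x ∈ inrSet A) (hy : y ∈ inrSet A) :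
    x + y ∈ inrSet A := by
  rw [mem_iff] at *
  simp [hx, hy]

theorem mem_smul {x : Unitization ℂ A} (h : x ∈ inrSet A) (r : ℝ) : r • x ∈ inrSet A := by
  rw [mem_iff] at *
  simp [h]

theorem mem_star {x : Unitization ℂ A} (h : x ∈ inrSet A) : star x ∈ inrSet A := by
  rw [mem_iff] at *
  simp [h]

theorem mem_cfc {x : Unitization ℂ A} (hx : x ∈ inrSet A) {f : ℝ → ℝ} (hf : f 0 = 0) :
    cfc f x ∈ inrSet A := by
  obtain ⟨a, rfl⟩ := hx
  exact ⟨cfcₙ f a, Unitization.real_cfcₙ_eq_cfc_inr a f hf⟩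

/-! ### Plateau functions -/

/-- The plateau functions. -/
def plat (n : ℕ) (r : ℝ) : ℝ := max 0 (min 1 (2 ^ (n + 2) * r - 1))

theorem exists_chain {g h : Unitization ℂ A} (hg : g ∈ inrSet A) (hgh : IsPair g h) :
    ∃ G : ℕ → Unitization ℂ A, IsChain G ∧ G 0 * h = h := by
  have hg0 : 0 ≤ g := loc_nonneg hgh.pos_b
  have hgs : IsSelfAdjoint g := hg0.isSelfAdjoint
  have hc : ∀ n, Continuous (plat n) := fun n => by unfold plat; fun_prop
  have h0 : cfc (plat 0) g * h = h := by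
    let φ : ℝ → ℝ := fun r => (1 - plat 0 r) / (1 - min r (1 / 2))
    have hpos : ∀ r : ℝ, 0 < 1 - min r (1 / 2) := fun r => by linarith [min_le_right r (1 / 2)]
    have hφ : Continuous φ :=
      (continuous_const.sub (hc 0)).div (by fun_prop) fun r => (hpos r).ne'
    have e1 : cfc (plat 0) g - 1 = cfc φ g * (g - 1) := by
      conv_rhs => arg 2; rw [← cfc_id' ℝ g hgs]
      rw [← cfc_const_one ℝ g hgs,
        ← cfc_sub (plat 0) (fun _ => (1 : ℝ)) _ (hc 0).continuousOn continuousOn_const,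
        ← cfc_sub (fun r : ℝ => r) (fun _ => (1 : ℝ)) _ continuousOn_id continuousOn_const,
        ← cfc_mul φ (fun r => r - 1) _ hφ.continuousOn (by fun_prop)]
      refine cfc_congr fun r _ => ?_
      show plat 0 r - 1 = (1 - plat 0 r) / (1 - min r (1 / 2)) * (r - 1)
      rcases le_total r (1 / 2) with h | h
      · have : (1 : ℝ) - r ≠ 0 := by linarith
        rw [min_eq_left h]
        field_simp
        ring
      · have : plat 0 r = 1 := by
          rw [plat, min_eq_left (by norm_num; linarith), max_eq_right zero_le_one]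
        simp [this]
    rw [← sub_eq_zero, ← sub_one_mul, e1, mul_assoc, sub_one_mul, hgh.unit, sub_self, mul_zero]
  refine ⟨fun n => cfc (plat n) g, ⟨fun n => mem_cfc hg (by simp [plat]),
    fun n => loc_isPos (cfc_nonneg fun r _ => le_max_left _ _),
    fun n => norm_cfc_le zero_le_one fun r _ => ?_, fun n => ?_, fun hz => ?_⟩, h0⟩
  · rw [Real.norm_eq_abs, plat, abs_of_nonneg (le_max_left _ _)]
    exact max_le zero_le_one (min_le_left _ _)
  · rw [← cfc_mul _ _ g (hc _).continuousOn (hc _).continuousOn]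
    refine cfc_congr fun r _ => ?_
    rcases le_total (2 ^ (n + 2) * r - 1) 0 with h | h
    · rw [show plat n r = 0 from max_eq_left ((min_le_right _ _).trans h), mul_zero]
    · have : plat (n + 1) r = 1 := by
        rw [plat, min_eq_left (by rw [pow_succ']; linarith), max_eq_right zero_le_one]
      rw [this, one_mul]
  · have hn := hgh.norm_c
    rw [← h0, show cfc (plat 0) g = 0 from hz, zero_mul, norm_zero] at hn
    exact zero_ne_one hn

/-- A unit for a positive element is a unit for its square root. -/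
theorem mul_sqrt {E x : Unitization ℂ A} (hx : 0 ≤ x) (h : E * x = x) :
    E * CFC.sqrt x = CFC.sqrt x := by
  rw [← sub_eq_zero, ← CStarRing.mul_star_self_eq_zero_iff, ← sub_one_mul, star_mul,
    (CFC.sqrt_nonneg x).isSelfAdjoint.star_eq, mul_assoc, ← mul_assoc (CFC.sqrt x),
    CFC.sqrt_mul_sqrt_self x hx, ← mul_assoc, sub_one_mul, h, sub_self, zero_mul]

theorem mem_sqrt {x : Unitization ℂ A} (hx : 0 ≤ x) (hxI : x ∈ inrSet A) :
    CFC.sqrt x ∈ inrSet A := by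
  rw [CFC.sqrt_eq_real_sqrt x hx, cfcₙ_eq_cfc]
  exact mem_cfc hxI Real.sqrt_zero

section Chain

variable {G : ℕ → Unitization ℂ A}

theorem sa (hG : IsChain G) (n : ℕ) : IsSelfAdjoint (G n) := (loc_nonneg (hG.pos n)).isSelfAdjoint

theorem fix' (hG : IsChain G) (n : ℕ) : G n * G (n + 1) = G n := by
  have h := congrArg star (hG.fix n)
  rwa [star_mul, (sa hG n).star_eq, (sa hG (n + 1)).star_eq] at h

theorem ne_zero' (hG : IsChain G) : ∀ n, G n ≠ 0
  | 0 => hG.ne_zero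
  | n + 1 => fun h => ne_zero' hG n (by rw [← hG.fix n, h, zero_mul])

end Chain

/-! ### Weights on the ideal -/

variable {τ : TraceWeight A}

theorem exists_factor {u : Unitization ℂ A} (hu : u ∈ inrSet A) (h0 : 0 ≤ u) :
    ∃ s : A, u = inr (star s * s) := by
  obtain ⟨v, hv⟩ := CStarAlgebra.nonneg_iff_eq_star_mul_self.mp h0
  have hf : v.fst = 0 := by
    refine (CStarRing.star_mul_self_eq_zero_iff v.fst).1 ?_
    have := congrArg (fun x : Unitization ℂ A => x.fst) hv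
    rw [mem_iff.1 hu] at this
    simpa using this.symm
  exact ⟨v.snd, by rw [inr_mul, inr_star, inr_snd_eq (mem_iff.2 hf), hv]⟩

/-- The weight on the ideal of the unitization. -/
def tw (τ : TraceWeight A) (u : Unitization ℂ A) : ℝ≥0∞ := τ.toFun u.snd

theorem tw_zero : tw τ 0 = 0 := by simpa [tw] using τ.smul 0 0

theorem tw_add {u v : Unitization ℂ A} (hu : u ∈ inrSet A) (h0 : 0 ≤ u) (hv : v ∈ inrSet A)
    (h1 : 0 ≤ v) : tw τ (u + v) = tw τ u + tw τ v := by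
  obtain ⟨s, rfl⟩ := exists_factor hu h0
  obtain ⟨t, rfl⟩ := exists_factor hv h1
  simp only [tw, ← inr_add, snd_inr, τ.add]

theorem tw_mono {u v : Unitization ℂ A} (hu : u ∈ inrSet A) (hv : v ∈ inrSet A) (h0 : 0 ≤ u)
    (h : u ≤ v) : tw τ u ≤ tw τ v := by
  have hd : v - u ∈ inrSet A := by
    obtain ⟨a, rfl⟩ := hu
    obtain ⟨b, rfl⟩ := hv
    exact ⟨b - a, inr_sub ℂ b a⟩
  have e := tw_add (τ := τ) hu h0 hd (sub_nonneg.2 h)
  rw [add_sub_cancel] at e
  exact e ▸ le_self_add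

theorem tw_smul {u : Unitization ℂ A} (hu : u ∈ inrSet A) (h0 : 0 ≤ u) {r : ℝ} (hr : 0 ≤ r) :
    tw τ (r • u) = ENNReal.ofReal r * tw τ u := by
  obtain ⟨s, rfl⟩ := exists_factor hu h0
  lift r to ℝ≥0 using hr
  rw [tw, tw, snd_smul, snd_inr, ENNReal.ofReal_coe_nnreal, ← τ.smul, Complex.coe_smul]

theorem tw_tracial {x : Unitization ℂ A} (hx : x ∈ inrSet A) :
    tw τ (star x * x) = tw τ (x * star x) := by
  obtain ⟨a, rfl⟩ := hx
  simp only [tw, ← inr_star, ← inr_mul, snd_inr, τ.tracial]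

theorem tw_mul_right {x : Unitization ℂ A} (hx : x ∈ inrSet A) (w : Unitization ℂ A) :
    tw τ (star (x * w) * (x * w)) ≤ ENNReal.ofReal (‖w‖ ^ 2) * tw τ (star x * x) := by
  rw [tw_tracial (mem_mul_right hx w), tw_tracial hx,
    ← tw_smul (mem_mul_right hx _) (mul_star_self_nonneg x) (sq_nonneg _)]
  refine tw_mono (mem_mul_right (mem_mul_right hx w) _) (mem_smul (mem_mul_right hx _) _)
    (mul_star_self_nonneg _) ?_
  have h : w * star w ≤ algebraMap ℝ (Unitization ℂ A) (‖w‖ ^ 2) := by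
    simpa using CStarAlgebra.star_mul_le_algebraMap_norm_sq (a := star w)
  have h2 := star_left_conjugate_le_conjugate h (star x)
  rw [star_star, Algebra.algebraMap_eq_smul_one, mul_smul_comm, mul_one, smul_mul_assoc] at h2
  rw [star_mul]
  simpa only [mul_assoc] using h2

theorem star_sum_mul_le {n : ℕ} (z : Fin n → Unitization ℂ A) :
    star (∑ i, z i) * ∑ i, z i ≤ (n : ℝ) • ∑ i, star (z i) * z i := by
  have h2 : 0 ≤ ∑ i, ∑ j, star (z i - z j) * (z i - z j) :=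
    Finset.sum_nonneg fun i _ => Finset.sum_nonneg fun j _ => star_mul_self_nonneg _
  have e : ∑ i, ∑ j, star (z i - z j) * (z i - z j) =
      (2 : ℝ) • ((n : ℝ) • ∑ i, star (z i) * z i - star (∑ i, z i) * ∑ i, z i) := by
    simp only [star_sub, sub_mul, mul_sub, Finset.sum_sub_distrib, Finset.sum_const,
      Finset.card_univ, Fintype.card_fin, ← Finset.mul_sum, ← Finset.sum_mul, ← star_sum,
      ← Finset.smul_sum]
    rw [← Nat.cast_smul_eq_nsmul ℝ]
    module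
  rw [e] at h2
  have h3 := smul_nonneg (show (0 : ℝ) ≤ 1 / 2 by norm_num) h2
  rwa [smul_smul, show (1 / 2 : ℝ) * 2 = 1 by norm_num, one_smul, sub_nonneg] at h3

/-- In a simple algebra every element with a unit is dominated by conjugates of every nonzero
one. -/
theorem exists_dom (hs : Vale.P095.SI.NU.IsTopSimple A) {x u e : Unitization ℂ A}
    (hx : x ∈ inrSet A) (hx0 : x ≠ 0) (hu : u ∈ inrSet A) (hue : u * e = e) :
    ∃ (n : ℕ) (w : Fin n → Unitization ℂ A),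
      star e * e ≤ ∑ l, star (x * w l) * (x * w l) := by
  obtain ⟨n, a, c, -, hn⟩ :=
    (Vale.P095.SI.NU.isSimpleIdeal_inrSet hs).simple x hx hx0 u hu (1 / 2) (by norm_num)
  refine ⟨n, fun l => √(4 * n * ‖a l‖ ^ 2) • (c l * e), ?_⟩
  set X := ∑ i, a i * x * c i with hX
  set y := X * e
  have hd : star (y - e) * (y - e) ≤ (1 / 4 : ℝ) • (star e * e) := by
    have e1 : y - e = (X - u) * e := by rw [sub_mul, hue]
    rw [e1, star_mul, mul_assoc, ← mul_assoc (star (X - u)), ← mul_assoc]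
    refine (star_left_conjugate_le_conjugate CStarAlgebra.star_mul_le_algebraMap_norm_sq _).trans ?_
    rw [Algebra.algebraMap_eq_smul_one, mul_smul_comm, mul_one, smul_mul_assoc]
    refine smul_le_smul_of_nonneg_right ?_ (star_mul_self_nonneg _)
    nlinarith [norm_nonneg (X - u)]
  have h0 : 0 ≤ (1 / 2 : ℝ) • (star ((2 : ℝ) • y - e) * ((2 : ℝ) • y - e)) :=
    smul_nonneg (by norm_num) (star_mul_self_nonneg _)
  have e2 : (1 / 2 : ℝ) • (star ((2 : ℝ) • y - e) * ((2 : ℝ) • y - e)) =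
      star y * y + star (y - e) * (y - e) - (1 / 2 : ℝ) • (star e * e) := by
    simp only [star_sub, star_smul, star_trivial, sub_mul, mul_sub, smul_mul_assoc,
      mul_smul_comm]
    module
  rw [e2, sub_nonneg] at h0
  have h2 : (1 / 2 : ℝ) • (star e * e) ≤ star y * y + (1 / 4 : ℝ) • (star e * e) :=
    h0.trans (add_le_add le_rfl hd)
  rw [show (1 / 2 : ℝ) • (star e * e) = (1 / 4 : ℝ) • (star e * e) + (1 / 4 : ℝ) • (star e * e) by
    rw [← add_smul]; norm_num] at h2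
  have h3 : star e * e ≤ (4 : ℝ) • (star y * y) := by
    have := smul_le_smul_of_nonneg_left (le_of_add_le_add_right h2) (show (0 : ℝ) ≤ 4 by norm_num)
    rwa [smul_smul, show (4 : ℝ) * (1 / 4) = 1 by norm_num, one_smul] at this
  refine h3.trans ?_
  have h4 : y = ∑ i, a i * (x * (c i * e)) := by
    simp only [y, hX, Finset.sum_mul, mul_assoc]
  rw [h4]
  refine (smul_le_smul_of_nonneg_left (star_sum_mul_le _) (show (0 : ℝ) ≤ 4 by norm_num)).trans ?_
  rw [smul_smul, Finset.smul_sum]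
  refine Finset.sum_le_sum fun i _ => ?_
  have h5 := star_left_conjugate_le_conjugate
    (CStarAlgebra.star_mul_le_algebraMap_norm_sq (a := a i)) (x * (c i * e))
  rw [Algebra.algebraMap_eq_smul_one, mul_smul_comm, mul_one, smul_mul_assoc] at h5
  refine le_trans (smul_le_smul_of_nonneg_left (a := (4 : ℝ) * n)
    (show star (a i * (x * (c i * e))) * (a i * (x * (c i * e))) ≤ _ from
      le_of_eq_of_le (by rw [star_mul]; simp only [mul_assoc]) h5) (by positivity)) (le_of_eq ?_)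
  rw [mul_smul_comm, star_smul, star_trivial (√(4 * (n : ℝ) * ‖a i‖ ^ 2)), smul_mul_smul_comm,
    Real.mul_self_sqrt (by positivity), smul_smul]

theorem tw_sum {n : ℕ} {f : Fin n → Unitization ℂ A} (hf : ∀ i, f i ∈ inrSet A ∧ 0 ≤ f i) :
    (∑ i, f i) ∈ inrSet A ∧ tw τ (∑ i, f i) = ∑ i, tw τ (f i) := by
  induction n with
  | zero => exact ⟨by simp [mem_iff], by simp [tw_zero]⟩
  | succ n ih =>
    obtain ⟨h1, h2⟩ := ih (f := fun i => f i.succ) fun i => hf _
    rw [Fin.sum_univ_succ, Fin.sum_univ_succ]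
    exact ⟨mem_add (hf 0).1 h1, by
      rw [tw_add (hf 0).1 (hf 0).2 h1 (Finset.sum_nonneg fun i _ => (hf _).2), h2]⟩

theorem exists_bound (hs : Vale.P095.SI.NU.IsTopSimple A) {x u e : Unitization ℂ A}
    (hx : x ∈ inrSet A) (hx0 : x ≠ 0) (hu : u ∈ inrSet A) (hue : u * e = e) :
    ∃ M : ℝ, 0 < M ∧ ∀ τ : TraceWeight A,
      tw τ (star e * e) ≤ ENNReal.ofReal M * tw τ (star x * x) := by
  obtain ⟨n, w, hw⟩ := exists_dom hs hx hx0 hu hue
  have heI : e ∈ inrSet A := hue ▸ mem_mul_right hu e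
  refine ⟨(∑ l, ‖w l‖ ^ 2) + 1, by positivity, fun τ => ?_⟩
  have hm : ∀ l, star (x * w l) * (x * w l) ∈ inrSet A ∧ 0 ≤ star (x * w l) * (x * w l) :=
    fun l => ⟨mem_mul_left (mem_mul_right hx _) _, star_mul_self_nonneg _⟩
  obtain ⟨hsI, hse⟩ := tw_sum (τ := τ) hm
  refine (tw_mono (mem_mul_left heI _) hsI (star_mul_self_nonneg e) hw).trans ?_
  rw [hse]
  refine (Finset.sum_le_sum fun l _ => tw_mul_right hx (w l)).trans ?_
  rw [← Finset.sum_mul, ← ENNReal.ofReal_sum_of_nonneg fun l _ => sq_nonneg _]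
  gcongr
  linarith

/-- A multiple of a weight. -/
def scale (τ : TraceWeight A) (r : ℝ≥0) : TraceWeight A where
  toFun x := r * τ.toFun x
  add x y := by rw [τ.add, mul_add]
  smul s x := by rw [τ.smul, mul_left_comm]
  tracial x := by rw [τ.tracial]

theorem tw_scale (τ : TraceWeight A) (r : ℝ≥0) (u : Unitization ℂ A) :
    tw (scale τ r) u = r * tw τ u := rfl

theorem exists_pair {E S : Unitization ℂ A} (hE : E ∈ inrSet A) (hS : S ∈ inrSet A)
    (hEs : IsSelfAdjoint E) (hSs : IsSelfAdjoint S) (h : E * S = S) :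
    ∃ p : UnitPair A, (inr p.e : Unitization ℂ A) = E ∧ (inr p.c : Unitization ℂ A) = S := by
  obtain ⟨e, rfl⟩ := hE
  obtain ⟨s, rfl⟩ := hS
  refine ⟨⟨e, s, ?_, ?_, inr_injective (R := ℂ) (by rw [inr_mul, h])⟩, rfl, rfl⟩
  · exact inr_injective (R := ℂ) (by rw [inr_star]; exact hEs.star_eq)
  · exact inr_injective (R := ℂ) (by rw [inr_star]; exact hSs.star_eq)

theorem normed_iff (p : UnitPair A) (τ : TraceWeight A) :
    p.Normed τ ↔ tw τ (inr p.e * inr p.e) ≤ 1 := by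
  rw [tw, ← inr_mul, snd_inr]

/-- The functional of a pair is the weight on `b q b`. -/
theorem tw_eq_val {p : UnitPair A} {τ : TraceWeight A} (hτ : p.Normed τ) {q : Unitization ℂ A}
    (hq : 0 ≤ q) : tw τ (p.bi * q * p.bi) = ENNReal.ofReal (p.val τ hτ q) := by
  have h0 : 0 ≤ p.bi * q * p.bi := p.bi_sa.conjugate_nonneg hq
  have he : inr p.e * (p.bi * q * p.bi) * inr p.e = p.bi * q * p.bi := by
    have a1 : inr p.e * p.bi = p.bi := by rw [UnitPair.bi, ← mul_assoc, p.e_ci]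
    have a2 : p.bi * inr p.e = p.bi := by rw [UnitPair.bi, mul_assoc, p.ci_e]
    rw [← mul_assoc, ← mul_assoc, a1, mul_assoc (p.bi * q), a2]
  have hne := toFun_ne_top p.e_sa hτ h0
  rw [he] at hne
  rw [UnitPair.val, cutFun_apply, cutVal_of_nonneg p.e_sa hτ h0, cutPos, he]
  exact (ENNReal.ofReal_toReal hne).symm

/-- Without weights the inner elements of pairs are null. -/
theorem pair_null (hn : ¬ HasWeight A) (p : UnitPair A) (τ : TraceWeight A) (hτ : p.Normed τ) :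
    tw τ (p.bi * p.bi) = 0 := by
  by_contra h
  refine hn ⟨p, τ, hτ, ?_⟩
  rw [p.bi_eq, ← inr_mul] at h
  rw [star_mul, p.c_sa.star_eq]
  exact h

/-! ### Copies -/

theorem copies_trans {B : Type} [CStarAlgebra B] {K₁ j₁ K₂ j₂ : ℕ} {e b a : B}
    (h₁ : Lossy.CopiesLE K₁ e j₁ b) (h₂ : Lossy.CopiesLE K₂ b j₂ a) :
    Lossy.CopiesLE (K₁ * K₂) e (j₁ * j₂) a := by
  intro ε hε
  obtain ⟨R₁, hR₁⟩ := h₁ (ε / 2) (half_pos hε)
  obtain ⟨C, hC, hC0⟩ : ∃ C : ℝ, (∀ s t, ∑ l, ‖star (R₁ l s)‖ * ‖R₁ l t‖ ≤ C) ∧ 0 ≤ C :=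
    ⟨∑ s, ∑ t, ∑ l, ‖star (R₁ l s)‖ * ‖R₁ l t‖, fun s t =>
      le_trans (Finset.single_le_sum (f := fun t => ∑ l, ‖star (R₁ l s)‖ * ‖R₁ l t‖)
        (fun _ _ => Finset.sum_nonneg fun _ _ => by positivity) (Finset.mem_univ t))
        (Finset.single_le_sum (f := fun s => ∑ t, ∑ l, ‖star (R₁ l s)‖ * ‖R₁ l t‖)
          (fun _ _ => Finset.sum_nonneg fun _ _ => Finset.sum_nonneg fun _ _ => by positivity)
          (Finset.mem_univ s)),
      Finset.sum_nonneg fun _ _ => Finset.sum_nonneg fun _ _ => Finset.sum_nonneg fun _ _ => by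
        positivity⟩
  obtain ⟨R₂, hR₂⟩ := h₂ (ε / (2 * (C + 1))) (by positivity)
  refine ⟨fun L S => R₂ (finProdFinEquiv.symm L).2 (finProdFinEquiv.symm S).2 *
    R₁ (finProdFinEquiv.symm L).1 (finProdFinEquiv.symm S).1, fun S T => ?_⟩
  obtain ⟨⟨s₁, s₂⟩, rfl⟩ := finProdFinEquiv.surjective S
  obtain ⟨⟨t₁, t₂⟩, rfl⟩ := finProdFinEquiv.surjective T
  rw [← finProdFinEquiv.sum_comp, Fintype.sum_prod_type]
  simp only [Equiv.symm_apply_apply, star_mul, finProdFinEquiv.injective.eq_iff, Prod.ext_iff]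
  have e1 : ∀ l₁, ∑ l₂, star (R₁ l₁ s₁) * star (R₂ l₂ s₂) * a * (R₂ l₂ t₂ * R₁ l₁ t₁) =
      star (R₁ l₁ s₁) * (if s₂ = t₂ then b else 0) * R₁ l₁ t₁ + star (R₁ l₁ s₁) *
        ((∑ l₂, star (R₂ l₂ s₂) * a * R₂ l₂ t₂) - if s₂ = t₂ then b else 0) * R₁ l₁ t₁ := by
    intro l₁
    rw [← add_mul, ← mul_add, add_sub_cancel, Finset.mul_sum, Finset.sum_mul]
    simp only [mul_assoc]
  simp only [e1, Finset.sum_add_distrib]
  have e2 : ‖(∑ l₁, star (R₁ l₁ s₁) * (if s₂ = t₂ then b else 0) * R₁ l₁ t₁) -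
      (if s₁ = t₁ ∧ s₂ = t₂ then e else 0)‖ ≤ ε / 2 := by
    by_cases h : s₂ = t₂
    · simpa [h] using hR₁ s₁ t₁
    · simpa [h] using (half_pos hε).le
  have e3 : ‖∑ l₁, star (R₁ l₁ s₁) *
      ((∑ l₂, star (R₂ l₂ s₂) * a * R₂ l₂ t₂) - if s₂ = t₂ then b else 0) * R₁ l₁ t₁‖ ≤ ε / 2 := by
    refine (norm_sum_le _ _).trans ((Finset.sum_le_sum fun l _ =>
      (norm_mul₃_le).trans (le_of_eq (mul_right_comm _ _ _))).trans ?_)
    refine (Finset.sum_le_sum fun l _ =>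
      mul_le_mul_of_nonneg_left (hR₂ s₂ t₂) (by positivity)).trans ?_
    rw [← Finset.sum_mul, ← mul_div_assoc, div_le_div_iff₀ (by positivity) two_pos]
    nlinarith [hC s₁ t₁]
  calc _ ≤ _ := le_of_eq (by congr 1; abel)
    _ ≤ ε / 2 + ε / 2 := (norm_add_le _ _).trans (add_le_add e2 e3)
    _ = ε := add_halves ε

theorem exists_copies (hs : Vale.P095.SI.NU.IsTopSimple A) {x u e : Unitization ℂ A}
    (hx : x ∈ inrSet A) (hxs : IsSelfAdjoint x) (hx0 : x ≠ 0) (hu : u ∈ inrSet A)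
    (hes : IsSelfAdjoint e) (he0 : e ≠ 0) (hue : u * e = e) :
    ∃ n : ℕ, 0 < n ∧ Lossy.CopiesLE 1 (e * e) n (x * x) := by
  obtain ⟨n, w, hw⟩ := exists_dom hs hx hx0 hu hue
  refine ⟨n, Nat.pos_of_ne_zero fun h => ?_, fun η hη => ?_⟩
  · subst h
    rw [Fin.sum_univ_zero] at hw
    exact he0 ((CStarRing.star_mul_self_eq_zero_iff e).1 (le_antisymm hw (star_mul_self_nonneg e)))
  · obtain ⟨r, hr⟩ := Lossy.below_conj (star_mul_self_nonneg e) hw hη
    refine ⟨fun l _ => w l * r, fun s t => ?_⟩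
    rw [if_pos (Subsingleton.elim s t)]
    rw [hes.star_eq] at hr
    refine le_of_eq_of_le ?_ hr
    congr 2
    simp only [Finset.mul_sum, Finset.sum_mul, star_mul, hxs.star_eq, mul_assoc]

/-- The relations in `F(A)`. -/
theorem exists_relations [TopologicalSpace.SeparableSpace A] {ω : Ultrafilter ℕ}
    (hω : (ω : Filter ℕ) ≤ Filter.cofinite) (hfull : CommutatorsFull A ω) (k : ℕ) (hk : 1 ≤ k) :
    ∃ (s : Fin (2 ^ k) → FA A ω) (v : FA A ω), RWRel (2 ^ k) (Nat.two_pow_pos k) s v :=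
  treeStmt _ (sysFA (G := PUnit.{1}) hω (1 : PUnit.{1} →* (A ≃⋆ₐ[ℂ] A))).copyProp
    (full_of_commutatorsFull hfull) k hk

/-- The common core. -/
theorem core (hUp : UpperNUStmt) (hLo : LowerNUStmt) (hUn : UnperfNUStmt)
    [TopologicalSpace.SeparableSpace A] {ω : Ultrafilter ℕ}
    (hω : (ω : Filter ℕ) ≤ Filter.cofinite) (hs : Vale.P095.SI.NU.IsTopSimple A)
    (hA : Vale.P095.SI.NU.HasCPAP A) (hfull : CommutatorsFull A ω)
    {H C : ℕ → Unitization ℂ A} (hH : IsChain H) (hC : IsChain C) {ε δ₀ : ℝ} (hε : 0 < ε)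
    (hδ₀ : 0 < δ₀) :
    ∃ θ : ℝ, 0 < θ ∧ ∀ x y : Unitization ℂ A,
      x ∈ inrSet A → 0 ≤ x → ‖x‖ ≤ 1 → H 0 * x = x →
      (∀ τ : TraceWeight A, tw τ (H 0 * H 0) ≤ 1 → tw τ x < ENNReal.ofReal θ) →
      y ∈ inrSet A → 0 ≤ y → ‖y‖ ≤ 1 → y ≠ 0 → C 0 * y = y →
      (∀ τ : TraceWeight A, tw τ (C 2 * C 2) ≤ 1 →
        ENNReal.ofReal δ₀ * tw τ (C 2 * C 2) ≤ tw τ y) →
      CuntzLE (cfc (fun r : ℝ => max (r - ε) 0) x) y := by
  obtain ⟨q, hq, hlow⟩ := hLo A hs hA C hC δ₀ hδ₀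
  obtain ⟨n, hn, hmid⟩ := exists_copies hs (hC.mem 1) (sa hC 1) (ne_zero' hC 1) (hH.mem 2)
    (sa hH 1) (ne_zero' hH 1) (hH.fix 1)
  obtain ⟨θ, hθ, hup⟩ := hUp A hA H hH (16 * n * q) (by positivity) ε hε
  refine ⟨θ, hθ, fun x y hxI hx0 hx1 hxH hxτ hyI hy0 hy1 hyne hyC hyτ => ?_⟩
  obtain ⟨D₁, d₁, hD₁, hd₁, h₁⟩ := hup x hxI (loc_isPos hx0) hx1 hxH hxτ
  obtain ⟨D₂, d₂, hD₂, hd₂, h₂⟩ := hlow y hyI (loc_isPos hy0) hy1 hyne hyC hyτ
  have h := Nat.mul_le_mul hd₁ hd₂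
  have hpos : 0 < d₁ * 1 * d₂ := by
    have h1 : 0 < 16 * n * q * D₁ * D₂ := by positivity
    nlinarith
  refine hUn A ω hω (exists_relations hω hfull) _ y
    (mem_cfc hxI (max_eq_right (by linarith))) hyI
    (loc_isPos (cfc_nonneg fun r _ => le_max_right _ _)) (loc_isPos hy0) (d₁ * 1 * d₂)
    (D₁ * n * (q * D₂)) hpos ?_ (copies_trans (copies_trans h₁ hmid) h₂)
  nlinarith

/-- Data of the second pair. -/
theorem cut_facts {C0 c q : Unitization ℂ A} (hC0 : IsSelfAdjoint C0) (hc : c ∈ inrSet A)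
    (hcs : IsSelfAdjoint c) (hCc : C0 * c = c) (hc1 : ‖c‖ = 1) (hq : 0 ≤ q) (hq1 : ‖q‖ ≤ 1)
    {δ : ℝ} (hδ : 0 < δ) :
    cfc (fun r : ℝ => max (r - δ) 0) (c * q * c) ∈ inrSet A ∧
      0 ≤ cfc (fun r : ℝ => max (r - δ) 0) (c * q * c) ∧
      ‖cfc (fun r : ℝ => max (r - δ) 0) (c * q * c)‖ ≤ 1 ∧
      C0 * cfc (fun r : ℝ => max (r - δ) 0) (c * q * c) =
        cfc (fun r : ℝ => max (r - δ) 0) (c * q * c) ∧
      c * q * c ∈ inrSet A ∧ 0 ≤ c * q * c ∧
      c * q * c ≤ cfc (fun r : ℝ => max (r - δ) 0) (c * q * c) + δ • (C0 * C0) := by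
  set y := c * q * c with hy
  set y₁ := cfc (fun r : ℝ => max (r - δ) 0) y with hy₁
  have hyI : y ∈ inrSet A := mem_mul_right (mem_mul_right hc q) c
  have hy0 : 0 ≤ y := hcs.conjugate_nonneg hq
  have hyn : ‖y‖ ≤ 1 := by
    refine norm_mul₃_le.trans ?_
    rw [hc1, one_mul, mul_one]
    exact hq1
  have h0 : 0 ≤ y₁ := cfc_nonneg fun r _ => le_max_right _ _
  have hCy : C0 * y = y := by rw [hy, mul_assoc c, ← mul_assoc, hCc]
  have hψ : Continuous fun r : ℝ => max (r - δ) 0 / max r δ :=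
    Continuous.div (by fun_prop) (by fun_prop) fun r => (lt_max_of_lt_right hδ).ne'
  have hfac : y₁ = y * cfc (fun r : ℝ => max (r - δ) 0 / max r δ) y := by
    conv_rhs => arg 1; rw [← cfc_id' ℝ y hy0.isSelfAdjoint]
    rw [hy₁, ← cfc_mul (fun r : ℝ => r) _ y (by fun_prop) hψ.continuousOn]
    refine cfc_congr fun r _ => ?_
    rcases le_total r δ with h | h
    · simp [max_eq_right (sub_nonpos.2 h)]
    · rw [max_eq_left (a := r) h, mul_div_cancel₀ _ (hδ.trans_le h).ne']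
  have hC1 : C0 * y₁ = y₁ := by rw [hfac, ← mul_assoc, hCy]
  have hC2 : y₁ * C0 = y₁ := by
    have := congrArg star hC1
    rwa [star_mul, h0.isSelfAdjoint.star_eq, hC0.star_eq] at this
  have hC3 : y * C0 = y := by
    have := congrArg star hCy
    rwa [star_mul, hy0.isSelfAdjoint.star_eq, hC0.star_eq] at this
  refine ⟨mem_cfc hyI (max_eq_right (by linarith)), h0, norm_cfc_le zero_le_one fun r hr => ?_,
    hC1, hyI, hy0, ?_⟩
  · have h1 := (Real.le_norm_self r).trans ((spectrum.norm_le_norm_of_mem hr).trans hyn)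
    rw [Real.norm_eq_abs, abs_of_nonneg (le_max_right _ _)]
    exact max_le (by linarith) zero_le_one
  · have h1 : y ≤ y₁ + δ • 1 := by
      conv_lhs => rw [← cfc_id' ℝ y hy0.isSelfAdjoint]
      rw [hy₁, ← cfc_const_one ℝ y hy0.isSelfAdjoint,
        ← cfc_smul δ (fun _ : ℝ => (1 : ℝ)) _ continuousOn_const,
        ← cfc_add _ _ _ (by fun_prop) (by fun_prop)]
      refine cfc_mono (fun r _ => ?_) (by fun_prop) (by fun_prop)
      simp only [smul_eq_mul, mul_one]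
      linarith [le_max_left (r - δ) 0]
    have h2 := hC0.conjugate_le_conjugate h1
    rwa [hCy, hC3, mul_add, add_mul, hC1, hC2, mul_smul_comm, mul_one, smul_mul_assoc] at h2

/-- Both conditions on `h e h`. -/
theorem cut_small {H0 h e : Unitization ℂ A} (hh : h ∈ inrSet A) (hhs : IsSelfAdjoint h)
    (hHh : H0 * h = h) (hh1 : ‖h‖ = 1) (he : 0 ≤ e) (he1 : ‖e‖ ≤ 1) :
    h * e * h ∈ inrSet A ∧ 0 ≤ h * e * h ∧ ‖h * e * h‖ ≤ 1 ∧ H0 * (h * e * h) = h * e * h := by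
  refine ⟨mem_mul_right (mem_mul_right hh e) h, hhs.conjugate_nonneg he, ?_, ?_⟩
  · refine norm_mul₃_le.trans ?_
    rw [hh1, one_mul, mul_one]
    exact he1
  · rw [mul_assoc h, ← mul_assoc, hHh]

theorem mem_of_pair {g h : Unitization ℂ A} (hg : g ∈ inrSet A) (hgh : IsPair g h) :
    h ∈ inrSet A :=
  hgh.unit ▸ mem_mul_right hg h

theorem sq_le_sq {G : ℕ → Unitization ℂ A} (hG : IsChain G) : G 0 * G 0 ≤ G 2 * G 2 := by
  have hsa := (sa hG 0).star_eq
  have e1 : G 2 * G 0 = G 0 := by rw [← hG.fix 0, ← mul_assoc, hG.fix 1]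
  have e2 : G 0 * G 2 = G 0 := by
    have := congrArg star e1
    rwa [star_mul, hsa, (sa hG 2).star_eq] at this
  have h : G 0 * G 0 ≤ 1 := by
    refine (CStarAlgebra.norm_le_one_iff_of_nonneg _ ?_).1 ?_
    · simpa [hsa] using star_mul_self_nonneg (G 0)
    · exact (norm_mul_le _ _).trans (mul_le_one₀ (hG.norm_le 0) (norm_nonneg _) (hG.norm_le 0))
  have h2 := (sa hG 2).conjugate_le_conjugate h
  rwa [mul_one, ← mul_assoc, e1, mul_assoc, e2] at h2

theorem two_fix {G : ℕ → Unitization ℂ A} (hG : IsChain G) {c : Unitization ℂ A}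
    (h : G 0 * c = c) : G 2 * c = c := by
  calc G 2 * c = G 2 * (G 1 * G 0) * c := by rw [hG.fix 0, mul_assoc, h]
    _ = c := by rw [← mul_assoc (G 2), hG.fix 1, hG.fix 0, h]

end Cmp

open Cmp

/-- Comparison with weights. -/
theorem weightCompare : WeightCompareStmt := by
  classical
  intro hUp hLo hUn A _ _ _ ω hω hs hA hfull hW g h b c hg hgh hb hbc κ ε hκ hε
  obtain ⟨H, hH, hHh⟩ := exists_chain hg hgh
  obtain ⟨C, hC, hCc⟩ := exists_chain hb hbc
  have hhI := mem_of_pair hg hgh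
  have hcI := mem_of_pair hb hbc
  have hh0 : 0 ≤ h := loc_nonneg hgh.pos_c
  have hc0 : 0 ≤ c := loc_nonneg hbc.pos_c
  have hCc2 := two_fix hC hCc
  obtain ⟨p₁, hp₁e, hp₁c⟩ := exists_pair (hH.mem 0) (mem_sqrt hh0 hhI) (sa hH 0)
    (CFC.sqrt_nonneg h).isSelfAdjoint (mul_sqrt hh0 hHh)
  obtain ⟨p₂, hp₂e, hp₂c⟩ := exists_pair (hC.mem 2) (mem_sqrt hc0 hcI) (sa hC 2)
    (CFC.sqrt_nonneg c).isSelfAdjoint (mul_sqrt hc0 hCc2)
  have hb₁ : p₁.bi = h := by
    rw [UnitPair.bi, UnitPair.ci, hp₁c, CFC.sqrt_mul_sqrt_self h hh0]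
  have hb₂ : p₂.bi = c := by
    rw [UnitPair.bi, UnitPair.ci, hp₂c, CFC.sqrt_mul_sqrt_self c hc0]
  have hcne : c ≠ 0 := fun h0 => by
    have := hbc.norm_c
    rw [h0, norm_zero] at this
    exact zero_ne_one this
  obtain ⟨M, hM, hMb⟩ := exists_bound hs hcI hcne (hC.mem 3) (hC.fix 2)
  set δ : ℝ := κ / (4 * M) with hδ
  have hδpos : 0 < δ := by positivity
  obtain ⟨θ, hθ, hcore⟩ := core hUp hLo hUn hω hs hA hfull hH hC hε
    (show 0 < 2 * δ by positivity)
  set η : ℝ := min (θ / 4) (δ / 4) with hη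
  have hη0 : 0 < η := lt_min (by positivity) (by positivity)
  refine ⟨{(inr p₁.e : Unitization ℂ A), inr p₁.c, inr p₂.e, inr p₂.c}, δ, η, ?_, hδpos, hη0,
    fun e q he hen hq hqn _ hsmall hlarge => ?_⟩
  · intro d hd
    simp only [Finset.mem_insert, Finset.mem_singleton] at hd
    rcases hd with rfl | rfl | rfl | rfl <;> exact ⟨_, rfl⟩
  have he0 := loc_nonneg he
  have hq0 := loc_nonneg hq
  obtain ⟨hxI, hx0, hx1, hxH⟩ := cut_small hhI hh0.isSelfAdjoint hHh hgh.norm_c he0 hen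
  obtain ⟨hy₁I, hy₁0, hy₁1, hy₁C, hyI, hy0, hyle⟩ :=
    cut_facts (sa hC 0) hcI hc0.isSelfAdjoint hCc hbc.norm_c hq0 hqn hδpos
  set y₁ := cfc (fun r : ℝ => max (r - δ) 0) (c * q * c)
  have hC00 : (0 : Unitization ℂ A) ≤ C 0 * C 0 := by
    have := star_mul_self_nonneg (C 0)
    rwa [(sa hC 0).star_eq] at this
  have hC22 : C 2 * C 2 ∈ inrSet A := mem_mul_right (hC.mem 2) _
  have hC00I : C 0 * C 0 ∈ inrSet A := mem_mul_right (hC.mem 0) _
  -- the lower bound
  have hlow : ∀ τ : TraceWeight A, tw τ (C 2 * C 2) ≤ 1 →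
      ENNReal.ofReal (2 * δ) * tw τ (C 2 * C 2) ≤ tw τ y₁ := by
    intro τ hτ
    rcases eq_or_ne (tw τ (C 2 * C 2)) 0 with h0 | h0
    · simp [h0]
    set t := tw τ (C 2 * C 2)
    have htop : t ≠ ⊤ := ne_top_of_le_ne_top ENNReal.one_ne_top hτ
    set τ' := scale τ t.toNNReal⁻¹ with hτ'
    have hone : tw τ' (C 2 * C 2) = 1 := by
      rw [hτ', tw_scale, ENNReal.coe_inv (ENNReal.toNNReal_pos h0 htop).ne',
        ENNReal.coe_toNNReal htop, ENNReal.inv_mul_cancel h0 htop]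
    have hn : p₂.Normed τ' := by rw [normed_iff, hp₂e, hone]
    have hl := hlarge p₂ (by simp) (by simp) τ' hn
    rw [hb₂, hbc.norm_c] at hl
    have hY := tw_eq_val hn hq0
    have hW := tw_eq_val hn (zero_le_one (α := Unitization ℂ A))
    rw [hb₂] at hY hW
    rw [mul_one] at hW
    have h1 : 1 ≤ M * p₂.val τ' hn 1 := by
      have h2 := hMb τ'
      rw [(sa hC 2).star_eq, hone, hc0.isSelfAdjoint.star_eq, hW,
        ← ENNReal.ofReal_mul hM.le] at h2
      exact ENNReal.one_le_ofReal.1 h2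
    have h3 : 4 * δ ≤ κ * p₂.val τ' hn 1 := by
      calc 4 * δ ≤ 4 * δ * (M * p₂.val τ' hn 1) := le_mul_of_one_le_right (by positivity) h1
        _ = κ * p₂.val τ' hn 1 := by rw [hδ]; field_simp
    have h4 : ENNReal.ofReal (2 * δ) + ENNReal.ofReal δ ≤ tw τ' y₁ + ENNReal.ofReal δ := by
      rw [← ENNReal.ofReal_add (by positivity) hδpos.le]
      have hη2 : η ≤ δ / 4 := min_le_right _ _
      refine (ENNReal.ofReal_le_ofReal (show 2 * δ + δ ≤ p₂.val τ' hn q by linarith)).trans ?_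
      rw [← hY]
      refine (tw_mono hyI (mem_add hy₁I (mem_smul hC00I _)) hy0 hyle).trans ?_
      rw [tw_add hy₁I hy₁0 (mem_smul hC00I _) (smul_nonneg hδpos.le hC00),
        tw_smul hC00I hC00 hδpos.le]
      refine add_le_add le_rfl ((mul_le_mul' le_rfl ?_).trans_eq (mul_one _))
      exact (tw_mono hC00I hC22 hC00 (sq_le_sq hC)).trans_eq hone
    have h5 := ENNReal.le_of_add_le_add_right ENNReal.ofReal_ne_top h4
    rw [hτ', tw_scale, ENNReal.coe_inv (ENNReal.toNNReal_pos h0 htop).ne',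
      ENNReal.coe_toNNReal htop] at h5
    calc ENNReal.ofReal (2 * δ) * t ≤ t⁻¹ * tw τ y₁ * t := mul_le_mul' h5 le_rfl
      _ = t⁻¹ * t * tw τ y₁ := by ring
      _ = tw τ y₁ := by rw [ENNReal.inv_mul_cancel h0 htop, one_mul]
  -- the second element is nonzero
  have hy₁ne : y₁ ≠ 0 := by
    intro hz
    obtain ⟨p, τ, hτ, hne⟩ := hW
    have hne' : tw τ (p.bi * p.bi) ≠ 0 := by
      rw [p.bi_eq, tw, ← inr_mul, snd_inr]
      rw [star_mul, p.c_sa.star_eq] at hne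
      exact hne
    have hpe : (inr p.e : Unitization ℂ A) ≠ 0 := fun h0 => hne' (by
      have : p.bi = 0 := by rw [UnitPair.bi, ← p.e_ci, h0, zero_mul, zero_mul]
      rw [this, mul_zero, tw_zero])
    have hbs : star p.bi = p.bi := p.bi_sa.star_eq
    obtain ⟨M₁, -, hM₁⟩ := exists_bound hs (hC.mem 2) (ne_zero' hC 2) ⟨p.e, rfl⟩
      (show (inr p.e : Unitization ℂ A) * p.bi = p.bi by rw [UnitPair.bi, ← mul_assoc, p.e_ci])
    obtain ⟨M₂, -, hM₂⟩ := exists_bound hs ⟨p.e, rfl⟩ hpe (hC.mem 3) (hC.fix 2)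
    set t := tw τ (C 2 * C 2) with ht
    have h0 : t ≠ 0 := fun h0 => hne' (by
      have := hM₁ τ
      rw [hbs, (sa hC 2).star_eq, ← ht, h0, mul_zero] at this
      exact nonpos_iff_eq_zero.1 this)
    have htop : t ≠ ⊤ := by
      have h2 := hM₂ τ
      rw [(sa hC 2).star_eq, ← inr_star, p.e_sa.star_eq] at h2
      exact ne_top_of_le_ne_top ENNReal.ofReal_ne_top
        (h2.trans ((mul_le_mul' le_rfl ((normed_iff p τ).1 hτ)).trans_eq (mul_one _)))
    have h1 : tw (scale τ t.toNNReal⁻¹) (C 2 * C 2) = 1 := by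
      rw [tw_scale, ENNReal.coe_inv (ENNReal.toNNReal_pos h0 htop).ne',
        ENNReal.coe_toNNReal htop, ← ht, ENNReal.inv_mul_cancel h0 htop]
    have h2 := hlow _ h1.le
    rw [h1, mul_one, hz, tw_zero, nonpos_iff_eq_zero, ENNReal.ofReal_eq_zero] at h2
    linarith
  refine hcore (h * e * h) y₁ hxI hx0 hx1 hxH (fun τ hτ => ?_) hy₁I hy₁0 hy₁1 hy₁ne hy₁C hlow
  have hn : p₁.Normed τ := by rw [normed_iff, hp₁e]; exact hτ
  have hsm := hsmall p₁ (by simp) (by simp) τ hn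
  rw [hb₁, hgh.norm_c] at hsm
  have hX := tw_eq_val hn he0
  rw [hb₁] at hX
  rw [hX, ENNReal.ofReal_lt_ofReal_iff hθ]
  have hη1 : η ≤ θ / 4 := min_le_left _ _
  linarith

/-- Comparison without weights. -/
theorem normCompare : NormCompareStmt := by
  classical
  intro hUp hLo hUn A _ _ _ ω hω hs hA hfull hW g h b c hg hgh hb hbc κ ε hκ hε
  obtain ⟨H, hH, hHh⟩ := exists_chain hg hgh
  obtain ⟨C, hC, hCc⟩ := exists_chain hb hbc
  have hhI := mem_of_pair hg hgh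
  have hcI := mem_of_pair hb hbc
  have hh0 : 0 ≤ h := loc_nonneg hgh.pos_c
  have hc0 : 0 ≤ c := loc_nonneg hbc.pos_c
  have hC20 : (0 : Unitization ℂ A) ≤ C 2 := loc_nonneg (hC.pos 2)
  obtain ⟨p₁, hp₁e, hp₁c⟩ := exists_pair (hH.mem 0) (mem_sqrt hh0 hhI) (sa hH 0)
    (CFC.sqrt_nonneg h).isSelfAdjoint (mul_sqrt hh0 hHh)
  have hb₁ : p₁.bi = h := by
    rw [UnitPair.bi, UnitPair.ci, hp₁c, CFC.sqrt_mul_sqrt_self h hh0]
  obtain ⟨p₃, hp₃e, hp₃c⟩ := exists_pair (hC.mem 3) (mem_sqrt hC20 (hC.mem 2)) (sa hC 3)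
    (CFC.sqrt_nonneg _).isSelfAdjoint (mul_sqrt hC20 (hC.fix 2))
  have hb₃ : p₃.bi = C 2 := by
    rw [UnitPair.bi, UnitPair.ci, hp₃c, CFC.sqrt_mul_sqrt_self _ hC20]
  obtain ⟨M, hM, hMb⟩ := exists_bound hs (hC.mem 2) (ne_zero' hC 2) (hC.mem 4) (hC.fix 3)
  obtain ⟨θ, hθ, hcore⟩ := core hUp hLo hUn hω hs hA hfull hH hC hε one_pos
  set δ : ℝ := κ ^ 2 / 8 with hδ
  have hδpos : 0 < δ := by positivity
  refine ⟨{c}, δ, κ / 2, ?_, hδpos, half_pos hκ, fun e q he hen hq hqn _ _ hlarge => ?_⟩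
  · intro d hd
    rw [Finset.mem_singleton] at hd
    subst hd
    exact hcI
  have he0 := loc_nonneg he
  have hq0 := loc_nonneg hq
  obtain ⟨hxI, hx0, hx1, hxH⟩ := cut_small hhI hh0.isSelfAdjoint hHh hgh.norm_c he0 hen
  obtain ⟨hy₁I, hy₁0, hy₁1, hy₁C, -, hy0, hyle⟩ :=
    cut_facts (sa hC 0) hcI hc0.isSelfAdjoint hCc hbc.norm_c hq0 hqn hδpos
  set y₁ := cfc (fun r : ℝ => max (r - δ) 0) (c * q * c)
  have hzero : ∀ τ : TraceWeight A, tw τ (C 2 * C 2) ≤ 1 → tw τ (C 2 * C 2) = 0 := by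
    intro τ hτ
    have hn : p₃.Normed (scale τ M.toNNReal⁻¹) := by
      rw [normed_iff, hp₃e, tw_scale]
      have h3 := hMb τ
      rw [(sa hC 3).star_eq, (sa hC 2).star_eq] at h3
      refine (mul_le_mul' le_rfl (h3.trans ((mul_le_mul' le_rfl hτ).trans_eq (mul_one _)))).trans ?_
      rw [ENNReal.coe_inv (Real.toNNReal_pos.2 hM).ne', ← ENNReal.ofReal,
        ENNReal.inv_mul_cancel (ENNReal.ofReal_pos.2 hM).ne' ENNReal.ofReal_ne_top]
    have := pair_null hW p₃ _ hn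
    rw [hb₃, tw_scale, mul_eq_zero] at this
    exact this.resolve_left (ENNReal.coe_ne_zero.2 (inv_ne_zero (Real.toNNReal_pos.2 hM).ne'))
  have hy₁ne : y₁ ≠ 0 := by
    intro hz
    rw [hz, zero_add] at hyle
    have h1 : ‖c * q * c‖ ≤ δ := by
      refine (CStarAlgebra.norm_le_norm_of_nonneg_of_le hy0 hyle).trans ?_
      rw [norm_smul, Real.norm_of_nonneg hδpos.le]
      refine mul_le_of_le_one_right hδpos.le ?_
      exact (norm_mul_le _ _).trans (mul_le_one₀ (hC.norm_le 0) (norm_nonneg _) (hC.norm_le 0))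
    have h2 : ‖q * c‖ * ‖q * c‖ ≤ ‖c * q * c‖ := by
      rw [← CStarRing.norm_star_mul_self, star_mul, hc0.isSelfAdjoint.star_eq,
        hq0.isSelfAdjoint.star_eq]
      have hqq : q * q ≤ q := by
        have h3 := (CFC.sqrt_nonneg q).isSelfAdjoint.conjugate_le_conjugate
          ((CStarAlgebra.norm_le_one_iff_of_nonneg q hq0).1 hqn)
        rw [mul_one, CFC.sqrt_mul_sqrt_self q hq0] at h3
        calc q * q = CFC.sqrt q * q * CFC.sqrt q := by
              conv_rhs => arg 1; arg 2; rw [← CFC.sqrt_mul_sqrt_self q hq0]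
              rw [← mul_assoc, CFC.sqrt_mul_sqrt_self q hq0, mul_assoc,
                CFC.sqrt_mul_sqrt_self q hq0]
          _ ≤ q := h3
      refine CStarAlgebra.norm_le_norm_of_nonneg_of_le ?_ ?_
      · have := star_mul_self_nonneg (q * c)
        rwa [star_mul, hc0.isSelfAdjoint.star_eq, hq0.isSelfAdjoint.star_eq] at this
      · have := hc0.isSelfAdjoint.conjugate_le_conjugate hqq
        simpa only [mul_assoc] using this
    have h3 := hlarge c (Finset.mem_singleton_self c)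
    rw [hbc.norm_c] at h3
    nlinarith [norm_nonneg (q * c)]
  refine hcore (h * e * h) y₁ hxI hx0 hx1 hxH (fun τ hτ => ?_) hy₁I hy₁0 hy₁1 hy₁ne hy₁C
    (fun τ hτ => by simp [hzero τ hτ])
  have hn : p₁.Normed τ := by rw [normed_iff, hp₁e]; exact hτ
  have h0 := pair_null hW p₁ τ hn
  rw [hb₁] at h0
  have hle : h * e * h ≤ h * h := by
    have := hh0.isSelfAdjoint.conjugate_le_conjugate
      ((CStarAlgebra.norm_le_one_iff_of_nonneg e he0).1 hen)
    rwa [mul_one] at this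
  refine lt_of_le_of_lt (tw_mono hxI (mem_mul_right hhI h) hx0 hle) ?_
  rw [h0]
  exact ENNReal.ofReal_pos.2 hθ

end

end Vale.P095.NU
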