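import Vale.Agent.P095.NU.Pins
import Vale.Agent.P101.ZStab.Absorb.Core
import Vale.Agent.P095.Nonunital.QuotStar

/-!
# P095: flips by commutators of unitaries

* `exists_flip`: with three commuting copies of a stage and one of `Z(2,3)` a product of
  exponentials carries the second copy almost to the first.
* `cutC`, `annC`: the elements commuting with a set `S` and fixed by the maps `act g` on `S`, and
  their ideal annihilating `S`.
-/

open scoped Kronecker Matrix.Norms.L2Operator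
open Filter Topology

namespace Vale.P095.NU

open Vale.P101 Vale.P101.ZS Vale.P095.Nonunital

noncomputable section

section Alg

variable {E : Type*} [CStarAlgebra E]

/-- A commutator of two intertwiners intertwines. -/
theorem comm_conj_le {a b r₁ r₂ r₃ : E} {δ : ℝ} (ha : a ∈ unitary E) (hb : b ∈ unitary E)
    (hb1 : Commute r₁ b) (ha2 : Commute r₂ a) (h31 : ‖a * r₃ * star a - r₁‖ ≤ δ)
    (h32 : ‖b * r₃ * star b - r₂‖ ≤ δ) :
    ‖star (a * b * star a * star b) * r₂ * (a * b * star a * star b) - r₁‖ ≤ 2 * δ := by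
  obtain ⟨ha', ha''⟩ := Unitary.mem_iff.1 ha
  obtain ⟨hb', hb''⟩ := Unitary.mem_iff.1 hb
  have hw : a * b * star a * star b ∈ unitary E :=
    mul_mem (mul_mem (mul_mem ha hb) (Unitary.star_mem ha)) (Unitary.star_mem hb)
  set w := a * b * star a * star b
  obtain ⟨hw', hw''⟩ := Unitary.mem_iff.1 hw
  have e1 : star b * r₁ * b = r₁ := by rw [mul_assoc, hb1.eq, ← mul_assoc, hb', one_mul]
  have e2 : a * r₂ * star a = r₂ := by rw [← ha2.eq, mul_assoc, ha'', mul_one]
  have ew : w * r₁ * star w - r₂ = a * ((b * (star a * r₁ * a - r₃) * star b) +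
      (b * r₃ * star b - r₂)) * star a := by
    have : b * (star a * r₁ * a - r₃) * star b + (b * r₃ * star b - r₂) =
        b * (star a * (star b * r₁ * b) * a) * star b - r₂ := by
      rw [e1]; simp only [mul_sub, sub_mul]; abel
    rw [this, mul_sub, sub_mul, e2]
    congr 1
    simp only [w, star_mul, star_star, mul_assoc]
  have h31' : ‖star a * r₁ * a - r₃‖ ≤ δ := by
    have : star a * r₁ * a - r₃ = -(star a * (a * r₃ * star a - r₁) * a) := by
      simp only [mul_sub, sub_mul, neg_sub]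
      rw [← mul_assoc, ← mul_assoc, ha', one_mul, mul_assoc r₃, ha', mul_one]
    rwa [this, norm_neg, CStarRing.norm_mul_mem_unitary _ ha,
      CStarRing.norm_mem_unitary_mul _ (Unitary.star_mem ha)]
  have hle : ‖w * r₁ * star w - r₂‖ ≤ 2 * δ := by
    rw [ew, CStarRing.norm_mul_mem_unitary _ (Unitary.star_mem ha),
      CStarRing.norm_mem_unitary_mul _ ha]
    refine (norm_add_le _ _).trans ?_
    rw [CStarRing.norm_mul_mem_unitary _ (Unitary.star_mem hb),
      CStarRing.norm_mem_unitary_mul _ hb]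
    linarith
  clear_value w
  have : star w * r₂ * w - r₁ = -(star w * (w * r₁ * star w - r₂) * w) := by
    simp only [mul_sub, sub_mul, neg_sub]
    rw [← mul_assoc, ← mul_assoc, hw', one_mul, mul_assoc r₁, hw', mul_one]
  rwa [this, norm_neg, CStarRing.norm_mul_mem_unitary _ hw,
    CStarRing.norm_mem_unitary_mul _ (Unitary.star_mem hw)]

end Alg

/-- A product of exponentials flips commuting copies of a stage. -/
theorem exists_flip (hU : UnivStmt) (hC : CommExpStmt) {B : Type} [CStarAlgebra B] (T : Tower B)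
    (n : ℕ) (F : Finset (DD (T.P n) (T.P n + 1))) {δ : ℝ} (hδ : 0 < δ) :
    ∃ m, n ≤ m ∧ ∀ (E : Type) [CStarAlgebra E] (ρ₁ ρ₂ ρ₃ : DD (T.P m) (T.P m + 1) →⋆ₐ[ℂ] E)
      (σ : DD.dimDrop23 →⋆ₐ[ℂ] E), (∀ a b, Commute (ρ₁ a) (ρ₂ b)) →
      (∀ a b, Commute (ρ₁ a) (ρ₃ b)) → (∀ a b, Commute (ρ₃ a) (ρ₂ b)) →
      (∀ a f, Commute (ρ₁ a) (σ f)) → (∀ a f, Commute (ρ₂ a) (σ f)) →
      (∀ a f, Commute (ρ₃ a) (σ f)) →
      ∃ l : List (selfAdjoint E), ∀ f ∈ F, ∃ g, T.emb m g = T.emb n f ∧
        ‖star (l.map fun h => (selfAdjoint.expUnitary h : E)).prod * ρ₂ g *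
          (l.map fun h => (selfAdjoint.expUnitary h : E)).prod - ρ₁ g‖ ≤ 2 * δ := by
  obtain ⟨m, hm, u, hu, hflip⟩ := T.flip n F δ hδ
  refine ⟨m, hm, fun E _ ρ₁ ρ₂ ρ₃ σ c12 c13 c32 c1 c2 c3 => ?_⟩
  obtain ⟨k, -, hPm⟩ := T.pow m
  have hP : 0 < T.P m := by rw [hPm]; positivity
  have := ZS.Absorb.isClosed_DD2 (T.P m) (T.P m + 1)
  let _ : CStarAlgebra (DD2 (T.P m) (T.P m + 1)) := StarSubalgebra.cstarAlgebra _
  have huu : u ∈ unitary (DD2 (T.P m) (T.P m + 1)) :=
    Unitary.mem_iff.2 ⟨Subtype.ext (Unitary.mem_iff.1 hu).1, Subtype.ext (Unitary.mem_iff.1 hu).2⟩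
  have key : ∀ (r : DD (T.P m) (T.P m + 1) →⋆ₐ[ℂ] E) (S : Set E),
      (∀ a b, Commute (ρ₃ a) (r b)) → (∀ a, ∀ s ∈ S, Commute (ρ₃ a) s ∧ Commute (r a) s) →
      ∃ w ∈ unitary E, (∀ s ∈ S, Commute s w) ∧
        ∀ g, ∀ f ∈ F, T.emb m g = T.emb n f → ‖u.1 * inc1 g * star u.1 - inc2 g‖ ≤ δ →
          ‖w * ρ₃ g * star w - r g‖ ≤ δ := by
    intro r S hr hS
    have hstar : ∀ (q : DD (T.P m) (T.P m + 1) →⋆ₐ[ℂ] E) (a), (∀ b, ∀ s ∈ S, Commute (q b) s) →
        q a ∈ StarSubalgebra.centralizer ℂ S := fun q a hq => by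
      refine (StarSubalgebra.mem_centralizer_iff ℂ).2 fun s hs => ⟨(hq a s hs).symm, ?_⟩
      have h := (hq (star a) s hs).star_star
      rw [map_star, star_star] at h
      exact h.symm
    let W : StarSubalgebra ℂ E := StarSubalgebra.centralizer ℂ S
    have : IsClosed (W : Set E) := by
      rw [StarSubalgebra.coe_centralizer]
      exact Set.isClosed_centralizer _
    let _ : CStarAlgebra W := StarSubalgebra.cstarAlgebra _
    let q₁ := ρ₃.codRestrict W fun a => hstar ρ₃ a fun b s hs => (hS b s hs).1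
    let q₂ := r.codRestrict W fun a => hstar r a fun b s hs => (hS b s hs).2
    obtain ⟨π, hπ⟩ := hU (T.P m) (T.P m + 1) hP (Nat.succ_pos _) W q₁ q₂
      fun a b => Subtype.ext (hr a b).eq
    let π' : DD2 (T.P m) (T.P m + 1) →⋆ₐ[ℂ] E := W.subtype.comp π
    refine ⟨π' u, Unitary.map_mem π' huu,
      fun s hs => ((StarSubalgebra.mem_centralizer_iff ℂ).1 (π u).2 s hs).1, fun g f _ _ hg => ?_⟩
    exact Absorb.rot_est π' u ⟨inc1 g, Absorb.inc1_mem g⟩ ⟨inc2 g, Absorb.inc2_mem g⟩ _ _ δ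
      (congrArg Subtype.val ((hπ g _).1 rfl)) (congrArg Subtype.val ((hπ g _).2 rfl)) hg
  obtain ⟨a, ha, haS, hae⟩ := key ρ₁ (Set.range ρ₂ ∪ Set.range σ)
    (fun x y => (c13 y x).symm) (by
      rintro x _ (⟨y, rfl⟩ | ⟨y, rfl⟩)
      exacts [⟨c32 x y, c12 x y⟩, ⟨c3 x y, c1 x y⟩])
  obtain ⟨b, hb, hbS, hbe⟩ := key ρ₂ (Set.range ρ₁ ∪ Set.range σ) c32 (by
      rintro x _ (⟨y, rfl⟩ | ⟨y, rfl⟩)
      exacts [⟨(c13 y x).symm, (c12 y x).symm⟩, ⟨c3 x y, c2 x y⟩])
  obtain ⟨l, hl⟩ := hC E σ a b ha hb fun f => ⟨haS _ (Or.inr ⟨f, rfl⟩), hbS _ (Or.inr ⟨f, rfl⟩)⟩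
  refine ⟨l, fun f hf => ?_⟩
  obtain ⟨g, hg, hg'⟩ := hflip f hf
  refine ⟨g, hg, ?_⟩
  rw [hl]
  exact comm_conj_le ha hb (hbS _ (Or.inl ⟨g, rfl⟩)) (haS _ (Or.inl ⟨g, rfl⟩))
    (hae g f hf hg hg') (hbe g f hf hg hg')

section Cut

variable {U : Type*} [CStarAlgebra U] {G : Type*} (S : Set U) (act : G → U →⋆ₐ[ℂ] U)

/-- Elements commuting with `S` and fixed by every `act g` on `S`. -/
def cutC : StarSubalgebra ℂ U where
  carrier := {z | z ∈ StarSubalgebra.centralizer ℂ S ∧
    ∀ g, ∀ s ∈ S ∪ star S, (act g z - z) * s = 0 ∧ s * (act g z - z) = 0}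
  mul_mem' {y z} hy hz := by
    refine ⟨mul_mem hy.1 hz.1, fun g s hs => ?_⟩
    have hys : s * y = y * s ∧ s * z = z * s := by
      rcases hs with hs | hs
      · exact ⟨((StarSubalgebra.mem_centralizer_iff ℂ).1 hy.1 s hs).1,
          ((StarSubalgebra.mem_centralizer_iff ℂ).1 hz.1 s hs).1⟩
      · have h1 := ((StarSubalgebra.mem_centralizer_iff ℂ).1 hy.1 _ hs).2
        have h2 := ((StarSubalgebra.mem_centralizer_iff ℂ).1 hz.1 _ hs).2
        rw [star_star] at h1 h2
        exact ⟨h1, h2⟩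
    have e : act g (y * z) - y * z = act g y * (act g z - z) + (act g y - y) * z := by
      rw [map_mul]; simp only [mul_sub, sub_mul]; abel
    have e' : act g (y * z) - y * z = (act g y - y) * act g z + y * (act g z - z) := by
      rw [map_mul]; simp only [mul_sub, sub_mul]; abel
    constructor
    · rw [e, add_mul, mul_assoc, (hz.2 g s hs).1, mul_zero, zero_add, mul_assoc, ← hys.2,
        ← mul_assoc, (hy.2 g s hs).1, zero_mul]
    · rw [e', mul_add, ← mul_assoc, (hy.2 g s hs).2, zero_mul, zero_add, ← mul_assoc, hys.1,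
        mul_assoc, (hz.2 g s hs).2, mul_zero]
  add_mem' {y z} hy hz := by
    refine ⟨add_mem hy.1 hz.1, fun g s hs => ?_⟩
    rw [map_add, add_sub_add_comm, add_mul, mul_add, (hy.2 g s hs).1, (hy.2 g s hs).2,
      (hz.2 g s hs).1, (hz.2 g s hs).2, add_zero]
    exact ⟨rfl, rfl⟩
  algebraMap_mem' c := ⟨algebraMap_mem _ c, fun g s _ => by
    rw [AlgHomClass.commutes, sub_self, zero_mul, mul_zero]; exact ⟨rfl, rfl⟩⟩
  star_mem' {z} hz := by
    refine ⟨star_mem hz.1, fun g s hs => ?_⟩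
    have hs' : star s ∈ S ∪ star S := by
      rcases hs with hs | hs
      exacts [Or.inr (by simpa using hs), Or.inl hs]
    have h := hz.2 g (star s) hs'
    rw [map_star, ← star_sub]
    exact ⟨by simpa using congrArg star h.2, by simpa using congrArg star h.1⟩

theorem mem_cutC {z : U} : z ∈ cutC S act ↔ z ∈ StarSubalgebra.centralizer ℂ S ∧
    ∀ g, ∀ s ∈ S ∪ star S, (act g z - z) * s = 0 ∧ s * (act g z - z) = 0 := Iff.rfl

theorem cutC_comm {z s : U} (hz : z ∈ cutC S act) (hs : s ∈ S ∪ star S) : Commute s z := by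
  rcases hs with hs | hs
  · exact ((StarSubalgebra.mem_centralizer_iff ℂ).1 hz.1 s hs).1
  · have h := ((StarSubalgebra.mem_centralizer_iff ℂ).1 hz.1 _ hs).2
    rwa [star_star] at h

instance : IsClosed (cutC S act : Set U) := by
  have hact : ∀ g, Continuous (act g) := fun g =>
    AddMonoidHomClass.continuous_of_bound (act g) 1 fun x => by
      rw [one_mul]; exact NonUnitalStarAlgHom.norm_apply_le (act g) x
  have e : (cutC S act : Set U) = (StarSubalgebra.centralizer ℂ S : Set U) ∩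
      ⋂ g, ⋂ s ∈ S ∪ star S, {z | (act g z - z) * s = 0 ∧ s * (act g z - z) = 0} := by
    ext z
    simp only [SetLike.mem_coe, mem_cutC, Set.mem_inter_iff, Set.mem_iInter]
    rfl
  rw [e]
  refine IsClosed.inter ?_ (isClosed_iInter fun g => isClosed_biInter fun s _ => ?_)
  · rw [StarSubalgebra.coe_centralizer]
    exact Set.isClosed_centralizer _
  · exact (isClosed_eq (((hact g).sub continuous_id).mul continuous_const) continuous_const).inter
      (isClosed_eq (continuous_const.mul ((hact g).sub continuous_id)) continuous_const)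

instance : CStarAlgebra (cutC S act) := StarSubalgebra.cstarAlgebra _

/-- The ideal annihilating `S`. -/
def annC : CIdeal (cutC S act) where
  toIdeal :=
    { carrier := {z | ∀ s ∈ S ∪ star S, (z : U) * s = 0}
      add_mem' := fun {x y} hx hy s hs => by
        show ((x : U) + y) * s = 0
        rw [add_mul, hx s hs, hy s hs, add_zero]
      zero_mem' := fun s _ => zero_mul s
      smul_mem' := fun c x hx s hs => by
        show ((c : U) * x) * s = 0
        rw [mul_assoc, hx s hs, mul_zero] }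
  right_mem x y hx s hs := by
    show ((x : U) * y) * s = 0
    rw [mul_assoc, ← (cutC_comm S act y.2 hs).eq, ← mul_assoc, hx s hs, zero_mul]
  star_mem x hx s hs := by
    have hs' : star s ∈ S ∪ star S := by
      rcases hs with hs | hs
      exacts [Or.inr (by simpa using hs), Or.inl hs]
    show star (x : U) * s = 0
    have h := hx (star s) hs'
    rw [← (cutC_comm S act x.2 hs').eq] at h
    simpa using congrArg star h
  closed := by
    have e : {z : cutC S act | ∀ s ∈ S ∪ star S, (z : U) * s = 0} =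
        ⋂ s ∈ S ∪ star S, {z : cutC S act | (z : U) * s = 0} := by
      ext z
      simp only [Set.mem_iInter]
      rfl
    show IsClosed {z : cutC S act | ∀ s ∈ S ∪ star S, (z : U) * s = 0}
    rw [e]
    exact isClosed_biInter fun s _ =>
      isClosed_eq (continuous_subtype_val.mul continuous_const) continuous_const

/-- Products with elements of `S` only see the class. -/
theorem norm_mul_le_proj {s : U} (hs : s ∈ S) (z : cutC S act) :
    ‖s * (z : U)‖ ≤ ‖s‖ * ‖(annC S act).proj z‖ := by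
  refine le_of_forall_pos_le_add fun ε hε => ?_
  obtain ⟨y, hy, hn⟩ := quot_exists_norm_lt (annC S act).toIdeal ((annC S act).proj z)
    (show 0 < ε / (‖s‖ + 1) by positivity)
  have hzy : (z : U) * s = (y : U) * s := by
    have h : y - z ∈ (annC S act).toIdeal := Ideal.Quotient.eq.1 hy
    have h1 : ((y : U) - z) * s = 0 := h s (Or.inl hs)
    rw [sub_mul, sub_eq_zero] at h1
    exact h1.symm
  rw [(cutC_comm S act z.2 (Or.inl hs)).eq, hzy]
  refine (norm_mul_le _ _).trans ?_
  have h1 : ‖(y : U)‖ ≤ ‖(annC S act).proj z‖ + ε / (‖s‖ + 1) := hn.le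
  have h2 : ε / (‖s‖ + 1) * ‖s‖ ≤ ε := by
    rw [div_mul_eq_mul_div, div_le_iff₀ (by positivity)]
    nlinarith [norm_nonneg s]
  nlinarith [mul_le_mul_of_nonneg_right h1 (norm_nonneg s), norm_nonneg ((annC S act).proj z)]

end Cut

end

end Vale.P095.NU
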