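import Vale.Agent.P095.NU.Defs

/-!
# P095: approximate unit sequences and density in tensor products
-/

open Filter Topology

namespace Vale.P095.NU

noncomputable section

/-- A separable algebra has an approximate unit sequence of self-adjoint contractions. -/
theorem exists_unitSeq (A : Type*) [NonUnitalCStarAlgebra A] [TopologicalSpace.SeparableSpace A] :
    ∃ k : ℕ → A, (∀ n, IsSelfAdjoint (k n) ∧ ‖k n‖ ≤ 1) ∧
      ∀ a, Tendsto (fun n => ‖k n * a - a‖) atTop (𝓝 0) ∧
        Tendsto (fun n => ‖a * k n - a‖) atTop (𝓝 0) := by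
  classical
  let _ : PartialOrder A := CStarAlgebra.spectralOrder A
  have _ : StarOrderedRing A := CStarAlgebra.spectralOrderedRing A
  have hl := CStarAlgebra.increasingApproximateUnit A
  have := hl.neBot
  obtain ⟨s, hs⟩ := TopologicalSpace.exists_dense_seq A
  have key : ∀ n : ℕ, ∃ k : A, (IsSelfAdjoint k ∧ ‖k‖ ≤ 1) ∧
      ∀ j ∈ Finset.range (n + 1),
        ‖k * s j - s j‖ ≤ 1 / ((n : ℝ) + 1) ∧ ‖s j * k - s j‖ ≤ 1 / ((n : ℝ) + 1) := by
    intro n
    have hp : (0 : ℝ) < 1 / ((n : ℝ) + 1) := by positivity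
    refine ((hl.eventually_isSelfAdjoint.and hl.eventually_norm).and
      ((Filter.eventually_all_finset _).2 fun j _ => ?_)).exists
    have h1 := (tendsto_iff_norm_sub_tendsto_zero.1 (hl.tendsto_mul_right (s j))).eventually
      (eventually_le_nhds hp)
    have h2 := (tendsto_iff_norm_sub_tendsto_zero.1 (hl.tendsto_mul_left (s j))).eventually
      (eventually_le_nhds hp)
    filter_upwards [h1, h2] with k e1 e2
    exact ⟨e1, e2⟩
  choose k hk hks using key
  refine ⟨k, hk, fun a => ?_⟩
  have main : ∀ ε : ℝ, 0 < ε → ∃ N, ∀ n, N ≤ n → ‖k n * a - a‖ < ε ∧ ‖a * k n - a‖ < ε := by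
    intro ε hε
    obtain ⟨j, hj⟩ := hs.exists_dist_lt a (show 0 < ε / 4 by linarith)
    rw [dist_eq_norm] at hj
    obtain ⟨M, hM⟩ := exists_nat_gt (4 / ε)
    refine ⟨max j M, fun n hn => ?_⟩
    have hb := hks n j (Finset.mem_range.2 (by omega))
    have hp : 1 / ((n : ℝ) + 1) ≤ ε / 4 := by
      have hMn : (M : ℝ) ≤ n := Nat.cast_le.2 ((le_max_right j M).trans hn)
      rw [div_lt_iff₀ hε] at hM
      rw [div_le_iff₀ (by positivity)]
      nlinarith
    have hkn := (hk n).2
    constructor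
    · rw [show k n * a - a = (k n * s j - s j) + (k n * (a - s j) - (a - s j)) by
        rw [mul_sub]; abel]
      refine (norm_add_le _ _).trans_lt ?_
      have h1 := (norm_sub_le (k n * (a - s j)) (a - s j)).trans
        (add_le_add ((norm_mul_le _ _).trans (mul_le_of_le_one_left (norm_nonneg _) hkn)) le_rfl)
      linarith [hb.1]
    · rw [show a * k n - a = (s j * k n - s j) + ((a - s j) * k n - (a - s j)) by
        rw [sub_mul]; abel]
      refine (norm_add_le _ _).trans_lt ?_
      have h1 := (norm_sub_le ((a - s j) * k n) (a - s j)).trans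
        (add_le_add ((norm_mul_le _ _).trans (mul_le_of_le_one_right (norm_nonneg _) hkn)) le_rfl)
      linarith [hb.2]
  constructor <;> rw [Metric.tendsto_atTop] <;> intro ε hε <;> obtain ⟨N, hN⟩ := main ε hε <;>
    refine ⟨N, fun n hn => ?_⟩ <;> rw [Real.dist_eq, sub_zero, abs_of_nonneg (norm_nonneg _)]
  exacts [(hN n hn).1, (hN n hn).2]

/-- Uniformly bounded additive maps which tend to zero on elementary tensors tend to zero. -/
theorem tendsto_of_tensors {A B R S ι : Type*} [NonUnitalCStarAlgebra A] [CStarAlgebra B]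
    [NonUnitalCStarAlgebra R] [NormedAddCommGroup S] [NormedSpace ℂ S] (T : TensorData A B R)
    {l : Filter ι} (f : ι → R →ₗ[ℂ] S) {C : ℝ} (hC : ∀ n x, ‖f n x‖ ≤ C * ‖x‖)
    (h : ∀ a b, Tendsto (fun n => ‖f n (T.m a b)‖) l (𝓝 0)) (x : R) :
    Tendsto (fun n => ‖f n x‖) l (𝓝 0) := by
  have hspan : ∀ y ∈ Submodule.span ℂ (Set.range fun p : A × B => T.m p.1 p.2),
      Tendsto (fun n => ‖f n y‖) l (𝓝 0) := by
    intro y hy
    induction hy using Submodule.span_induction with
    | mem y hy => obtain ⟨p, rfl⟩ := hy; exact h _ _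
    | zero => simpa using tendsto_const_nhds
    | add y z _ _ hy hz =>
      refine squeeze_zero (fun n => norm_nonneg _) (fun n => ?_) (by simpa using hy.add hz)
      rw [map_add]
      exact norm_add_le _ _
    | smul c y _ hy => simpa [norm_smul] using hy.const_mul ‖c‖
  rw [Metric.tendsto_nhds]
  intro ε hε
  obtain ⟨y, hy, hd⟩ := Metric.mem_closure_iff.1 (T.dense x) (ε / (2 * (|C| + 1))) (by positivity)
  rw [dist_eq_norm] at hd
  have hd' : |C| * ‖x - y‖ ≤ ε / 2 := by
    have h1 : ‖x - y‖ * (2 * (|C| + 1)) < ε := by rwa [← lt_div_iff₀ (by positivity)]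
    nlinarith [norm_nonneg (x - y)]
  filter_upwards [Metric.tendsto_nhds.1 (hspan y hy) (ε / 2) (half_pos hε)] with n hn
  rw [Real.dist_eq, sub_zero, abs_of_nonneg (norm_nonneg _)] at hn ⊢
  rw [show f n x = f n (x - y) + f n y by rw [← map_add, sub_add_cancel]]
  refine (norm_add_le _ _).trans_lt ?_
  have h2 : ‖f n (x - y)‖ ≤ |C| * ‖x - y‖ :=
    (hC n _).trans (mul_le_mul_of_nonneg_right (le_abs_self C) (norm_nonneg _))
  linarith

end

end Vale.P095.NU
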