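import Vale.Agent.P095.NU.FlipCore
import Vale.Agent.P095.NU.UnitSeq
import Vale.Agent.P101.ZStab.Absorb.Lift

/-!
# P095: flips in the unitization of a tensor product

In the ultrapower of the unitization of `R` the elements commuting with `j A` and fixed by the
action on `j A`, modulo the annihilator of `j A`, receive the fixed points of `F(A)` and the
sequences `k ⊗ b`; a product of exponentials flips them and lifts to unitaries.
-/

open scoped Kronecker Matrix.Norms.L2Operator BoundedContinuousFunction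
open Filter Topology Unitization

namespace Vale.P095.NU

open Vale.P101 Vale.P101.ZS Vale.P095.Nonunital

noncomputable section

/-- Classes of asymptotically equal sequences agree. -/
theorem cls_eq_of_tendsto {U : Type*} [CStarAlgebra U] {ω : Ultrafilter ℕ} {f g : ℕ →ᵇ U}
    (h : Tendsto (fun n => ‖f n - g n‖) ω (𝓝 0)) : cls ω f = cls ω g := by
  rw [cls_eq_cls, mem_nullSeq]
  simpa using h

/-- Star homomorphisms commute with `expUnitary`. -/
theorem hom_expUnitary {X Y : Type*} [CStarAlgebra X] [CStarAlgebra Y] (π : X →⋆ₐ[ℂ] Y)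
    (f : selfAdjoint X) (h : selfAdjoint Y) (e : π (f : X) = h) :
    π (selfAdjoint.expUnitary f : X) = (selfAdjoint.expUnitary h : Y) := by
  let _ : NormedAlgebra ℚ X := NormedAlgebra.restrictScalars ℚ ℂ X
  let _ : NormedAlgebra ℚ Y := NormedAlgebra.restrictScalars ℚ ℂ Y
  rw [selfAdjoint.expUnitary_coe, selfAdjoint.expUnitary_coe, NormedSpace.map_exp π
    (AddMonoidHomClass.continuous_of_bound π 1 fun x => by
      rw [one_mul]; exact NonUnitalStarAlgHom.norm_apply_le π x), map_smul, e]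

section

variable {A B R : Type} [NonUnitalCStarAlgebra A] [CStarAlgebra B] [NonUnitalCStarAlgebra R]
  {G : Type} [Group G] (ω : Ultrafilter ℕ) (T : TensorData A B R) (β : G →* (R ≃⋆ₐ[ℂ] R))

/-- The constant sequence of `j a`. -/
def cJ (a : A) : Ultrapower (Unitization ℂ R) ω := constSeq ω (inr (T.left a))

/-- The action on the ultrapower. -/
def actR (g : G) : Ultrapower (Unitization ℂ R) ω →⋆ₐ[ℂ] Ultrapower (Unitization ℂ R) ω :=
  actU ω (extAction β) g

/-- The cut algebra. -/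
abbrev CutR : StarSubalgebra ℂ (Ultrapower (Unitization ℂ R) ω) :=
  cutC (Set.range (cJ ω T)) (actR ω β)

/-- The quotient by the annihilator. -/
abbrev QuoR : Type := (annC (Set.range (cJ ω T)) (actR ω β)).Quo

/-- The quotient map. -/
abbrev projR : CutR ω T β →⋆ₐ[ℂ] QuoR ω T β := (annC (Set.range (cJ ω T)) (actR ω β)).proj

theorem star_cJ (a : A) : star (cJ ω T a) = cJ ω T (star a) := by
  rw [cJ, cJ, map_star T.left, Unitization.inr_star, star_cls]
  rfl

theorem exists_cJ {s : Ultrapower (Unitization ℂ R) ω}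
    (hs : s ∈ Set.range (cJ ω T) ∪ star (Set.range (cJ ω T))) : ∃ a, s = cJ ω T a := by
  rcases hs with ⟨a, rfl⟩ | ⟨a, ha⟩
  · exact ⟨a, rfl⟩
  · exact ⟨star a, by rw [← star_cJ, ha, star_star]⟩

variable {ω T β}

/-- Membership in the cut algebra. -/
theorem mem_cutR {z : Ultrapower (Unitization ℂ R) ω} (h1 : ∀ a, Commute (cJ ω T a) z)
    (h2 : ∀ g a, (actR ω β g z - z) * cJ ω T a = 0 ∧ cJ ω T a * (actR ω β g z - z) = 0) :
    z ∈ CutR ω T β := by
  refine ⟨(StarSubalgebra.mem_centralizer_iff ℂ).2 ?_, fun g s hs => ?_⟩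
  · rintro _ ⟨a, rfl⟩
    exact ⟨(h1 a).eq, by rw [star_cJ]; exact (h1 (star a)).eq⟩
  · obtain ⟨a, rfl⟩ := exists_cJ ω T hs
    exact h2 g a

/-- Two elements of the cut algebra have the same class when they agree on `j A`. -/
theorem projR_eq {y z : CutR ω T β}
    (h : ∀ a, ((y : Ultrapower (Unitization ℂ R) ω) - z) * cJ ω T a = 0) :
    projR ω T β y = projR ω T β z := by
  rw [← sub_eq_zero, ← map_sub, CIdeal.proj_eq_zero]
  intro s hs
  obtain ⟨a, rfl⟩ := exists_cJ ω T hs
  exact h a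

variable (ω T)

/-- The map of the unitizations induced by `j`. -/
def jt : Unitization ℂ A →⋆ₐ[ℂ] Unitization ℂ R := Unitization.starMap T.left

theorem jt_inr (a : A) : jt T (inr a) = inr (T.left a) := Unitization.starMap_inr _ a

theorem jt_mul_inr (y : Unitization ℂ A) (a : A) (b : B) :
    jt T y * (inr (T.m a b) : Unitization ℂ R) = inr (T.m (y * inr a).snd b) := by
  have hy : y = Unitization.inl y.fst + inr y.snd := (Unitization.inl_fst_add_inr_snd_eq y).symm
  conv_lhs => rw [hy, map_add, jt_inr, add_mul, ← inr_mul]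
  rw [show jt T (Unitization.inl y.fst) = algebraMap ℂ _ y.fst from AlgHomClass.commutes (jt T) _,
    ← Algebra.smul_def, ← inr_smul, ← inr_add]
  congr 1
  rw [Unitization.snd_mul, Unitization.snd_inr, Unitization.fst_inr, zero_smul, add_zero,
    map_add, LinearMap.add_apply, map_smul, LinearMap.smul_apply]
  show _ + T.m y.snd 1 * T.m a b = _
  rw [T.map_mul, one_mul]

theorem inr_mul_jt (y : Unitization ℂ A) (a : A) (b : B) :
    (inr (T.m a b) : Unitization ℂ R) * jt T y = inr (T.m (inr a * y).snd b) := by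
  have hy : y = Unitization.inl y.fst + inr y.snd := (Unitization.inl_fst_add_inr_snd_eq y).symm
  conv_lhs => rw [hy, map_add, jt_inr, mul_add, ← inr_mul]
  rw [show jt T (Unitization.inl y.fst) = algebraMap ℂ _ y.fst from AlgHomClass.commutes (jt T) _,
    ← Algebra.commutes, ← Algebra.smul_def, ← inr_smul, ← inr_add]
  congr 1
  rw [Unitization.snd_mul, Unitization.snd_inr, Unitization.fst_inr, zero_smul, zero_add,
    map_add, LinearMap.add_apply, map_smul, LinearMap.smul_apply]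
  show _ + T.m a b * T.m y.snd 1 = _
  rw [T.map_mul, mul_one]

theorem mapU_jt_const (a : A) :
    mapU ω (jt T) (constSeq ω (inr a)) = cJ ω T a := by
  rw [mapU_constSeq, jt_inr]
  rfl

section Fixed

variable [TopologicalSpace.SeparableSpace A] [Countable G] (hω : (ω : Filter ℕ) ≤ cofinite)
  (α : G →* (A ≃⋆ₐ[ℂ] A))

omit [TopologicalSpace.SeparableSpace A] [Countable G] in
theorem actR_mapU (hβ : ∀ g a b, β g (T.m a b) = T.m (α g a) b) (g : G)
    (x : Ultrapower (Unitization ℂ A) ω) :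
    actR ω β g (mapU ω (jt T) x) = mapU ω (jt T) (actU ω (extAction α) g x) := by
  rw [actR, actU, actU, mapU_comp, mapU_comp]
  congr 2
  refine StarAlgHom.ext fun y => ?_
  show extAction β g (jt T y) = jt T (extAction α g y)
  have hy : y = Unitization.inl y.fst + inr y.snd := (Unitization.inl_fst_add_inr_snd_eq y).symm
  rw [hy, map_add, map_add, map_add, map_add, jt_inr, extAction_inr, extAction_inr, jt_inr]
  congr 1
  · rw [show (Unitization.inl y.fst : Unitization ℂ A) = algebraMap ℂ _ y.fst from rfl,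
      AlgHomClass.commutes, AlgHomClass.commutes, AlgHomClass.commutes, AlgHomClass.commutes]
  · exact congrArg _ (hβ g y.snd 1)

variable (β) in
/-- The fixed points of `F(A)` map to the quotient. -/
theorem exists_embed (hβ : ∀ g a b, β g (T.m a b) = T.m (α g a) b) :
    ∃ Φ : fixedAlg (sysFA hω α).act →⋆ₐ[ℂ] QuoR ω T β,
      ∀ y : fixedAlg (sysFA hω α).act, ∃ (x : Central (Unitization ℂ A) ω) (z : CutR ω T β),
        relProj (Unitization ℂ A) ω (inrSet A) x = (y : FA A ω) ∧
          (z : Ultrapower (Unitization ℂ R) ω) = mapU ω (jt T) x ∧ Φ y = projR ω T β z := by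
  let P := relProj (Unitization ℂ A) ω (inrSet A)
  let C₀ : StarSubalgebra ℂ (Central (Unitization ℂ A) ω) := (fixedAlg (sysFA hω α).act).comap P
  have hmem : ∀ x : C₀, mapU ω (jt T) ((x : Central (Unitization ℂ A) ω) :
      Ultrapower (Unitization ℂ A) ω) ∈ CutR ω T β := by
    rintro ⟨x, hx⟩
    have hc := (mem_central ω).1 x.2
    refine mem_cutR (fun a => ?_) fun g a => ?_
    · rw [← mapU_jt_const]
      exact (hc (inr a)).map (mapU ω (jt T))
    · have hfix : P (actC ω (extAction α) g x) = P x := by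
        have h : relAct (extAction α) (inv_inrSet α) g (P x) = P x := hx g
        rwa [relAct_proj] at h
      have hd : (actC ω (extAction α) g x - x) ∈
          (annIdeal (Unitization ℂ A) ω (inrSet A)).toIdeal := by
        rw [← relProj_eq_zero, map_sub, sub_eq_zero]
        exact hfix
      have hd1 := (hd (inr a) ⟨a, rfl⟩).1
      rw [actR_mapU ω T α hβ, ← map_sub, ← mapU_jt_const, ← map_mul, ← map_mul]
      refine ⟨(congrArg (mapU ω (jt T)) hd1).trans (map_zero _), ?_⟩
      exact (congrArg (mapU ω (jt T))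
        (((mem_central ω).1 (actC ω (extAction α) g x - x).2 (inr a)).eq.trans hd1)).trans
          (map_zero _)
  let θ : C₀ →⋆ₐ[ℂ] QuoR ω T β := (projR ω T β).comp
    (((mapU ω (jt T)).comp ((Central (Unitization ℂ A) ω).subtype.comp C₀.subtype)).codRestrict
      (CutR ω T β) hmem)
  let π : C₀ →⋆ₐ[ℂ] fixedAlg (sysFA hω α).act :=
    (P.comp C₀.subtype).codRestrict _ fun x => x.2
  have hπ : Function.Surjective π := fun y => by
    obtain ⟨x, hx⟩ := relProj_surjective (Unitization ℂ A) ω (inrSet A) (y : FA A ω)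
    exact ⟨⟨x, show P x ∈ fixedAlg (sysFA hω α).act from hx ▸ y.2⟩, Subtype.ext hx⟩
  obtain ⟨Φ, hΦ⟩ := exists_desc π hπ θ fun x hx => by
    have hx0 : P (x : Central (Unitization ℂ A) ω) = 0 := congrArg Subtype.val hx
    rw [← map_zero (projR ω T β)]
    refine projR_eq fun a => ?_
    rw [ZeroMemClass.coe_zero, sub_zero]
    show mapU ω (jt T) _ * cJ ω T a = 0
    rw [← mapU_jt_const, ← map_mul]
    exact (congrArg (mapU ω (jt T))
      (((relProj_eq_zero _ _ _).1 hx0) (inr a) ⟨a, rfl⟩).1).trans (map_zero _)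
  refine ⟨Φ, fun y => ?_⟩
  obtain ⟨x, rfl⟩ := hπ y
  exact ⟨x.1, ⟨_, hmem x⟩, rfl, rfl, hΦ x⟩

end Fixed

/-- The sequence `k ⊗ b`. -/
def kSeq (k : ℕ → A) (hk : ∀ n, ‖k n‖ ≤ 1) (b : B) : ℕ →ᵇ Unitization ℂ R :=
  BoundedContinuousFunction.ofNormedAddCommGroup (fun n => inr (T.m (k n) b))
    continuous_of_discreteTopology ‖b‖ fun n => by
      rw [norm_inr]
      exact (T.norm_le _ _).trans (mul_le_of_le_one_left (norm_nonneg _) (hk n))

theorem kSeq_apply (k : ℕ → A) (hk : ∀ n, ‖k n‖ ≤ 1) (b : B) (n : ℕ) :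
    kSeq T k hk b n = inr (T.m (k n) b) := rfl

variable {T}

/-- `k ⊗ b` times `j a` is `a ⊗ b`. -/
theorem cls_kSeq_mul (hω : (ω : Filter ℕ) ≤ cofinite) {k : ℕ → A} (hk : ∀ n, ‖k n‖ ≤ 1)
    (hka : ∀ a, Tendsto (fun n => ‖k n * a - a‖) atTop (𝓝 0) ∧
      Tendsto (fun n => ‖a * k n - a‖) atTop (𝓝 0)) (b : B) (a : A) :
    cls ω (kSeq T k hk b) * cJ ω T a = constSeq ω (inr (T.m a b)) ∧
      cJ ω T a * cls ω (kSeq T k hk b) = constSeq ω (inr (T.m a b)) := by
  have hωt : (ω : Filter ℕ) ≤ atTop := hω.trans Nat.cofinite_eq_atTop.le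
  constructor <;> rw [cJ, constSeq, constSeq, ← map_mul] <;> refine cls_eq_of_tendsto ?_
  · refine squeeze_zero (fun n => norm_nonneg _) (fun n => ?_)
      (by simpa using ((hka a).1.mono_left hωt).mul_const ‖b‖)
    show ‖(inr (T.m (k n) b) : Unitization ℂ R) * inr (T.m a 1) - inr (T.m a b)‖ ≤ _
    rw [← inr_mul, T.map_mul, mul_one, ← inr_sub, norm_inr, ← LinearMap.sub_apply, ← map_sub]
    exact T.norm_le _ _
  · refine squeeze_zero (fun n => norm_nonneg _) (fun n => ?_)
      (by simpa using ((hka a).2.mono_left hωt).mul_const ‖b‖)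
    show ‖(inr (T.m a 1) : Unitization ℂ R) * inr (T.m (k n) b) - inr (T.m a b)‖ ≤ _
    rw [← inr_mul, T.map_mul, one_mul, ← inr_sub, norm_inr, ← LinearMap.sub_apply, ← map_sub]
    exact T.norm_le _ _

variable (β) in
/-- The sequences `k ⊗ b` give a copy of `B`. -/
theorem exists_right (hω : (ω : Filter ℕ) ≤ cofinite) (α : G →* (A ≃⋆ₐ[ℂ] A))
    (hβ : ∀ g a b, β g (T.m a b) = T.m (α g a) b) {k : ℕ → A} (hk : ∀ n, ‖k n‖ ≤ 1)
    (hks : ∀ n, IsSelfAdjoint (k n))
    (hka : ∀ a, Tendsto (fun n => ‖k n * a - a‖) atTop (𝓝 0) ∧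
      Tendsto (fun n => ‖a * k n - a‖) atTop (𝓝 0)) :
    ∃ Ψ : B →⋆ₐ[ℂ] QuoR ω T β, ∀ b, ∃ z : CutR ω T β,
      (z : Ultrapower (Unitization ℂ R) ω) = cls ω (kSeq T k hk b) ∧ Ψ b = projR ω T β z := by
  have hωt : (ω : Filter ℕ) ≤ atTop := hω.trans Nat.cofinite_eq_atTop.le
  have hK := cls_kSeq_mul (T := T) ω hω hk hka
  have hmem : ∀ b, cls ω (kSeq T k hk b) ∈ CutR ω T β := by
    intro b
    refine mem_cutR (fun a => ((hK b a).2.trans (hK b a).1.symm)) fun g a => ?_
    have hα : ∀ n (a : A), ‖α g (k n) * a - a‖ ≤ ‖k n * α g⁻¹ a - α g⁻¹ a‖ ∧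
        ‖a * α g (k n) - a‖ ≤ ‖α g⁻¹ a * k n - α g⁻¹ a‖ := fun n a => by
      have e : α g (α g⁻¹ a) = a := by
        rw [← StarAlgEquiv.mul_apply, ← map_mul, mul_inv_cancel, map_one]; rfl
      constructor
      · conv_lhs => rw [← e, ← map_mul, ← map_sub]
        exact NonUnitalStarAlgHom.norm_apply_le (autHom (α g)) _
      · conv_lhs => rw [← e, ← map_mul, ← map_sub]
        exact NonUnitalStarAlgHom.norm_apply_le (autHom (α g)) _
    constructor <;>
      rw [actR, actU_cls, ← map_sub, cJ, constSeq, ← map_mul, ← map_zero (cls ω)] <;>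
      refine cls_eq_of_tendsto ?_
    · refine squeeze_zero (fun n => norm_nonneg _) (fun n => ?_)
        (by simpa using ((((hka (α g⁻¹ a)).1.mono_left hωt).add
          ((hka a).1.mono_left hωt)).mul_const ‖b‖))
      show ‖(extAction β g (inr (T.m (k n) b)) - inr (T.m (k n) b)) *
        (inr (T.m a 1) : Unitization ℂ R) - 0‖ ≤ _
      rw [sub_zero, extAction_inr, hβ, sub_mul, ← inr_mul, ← inr_mul, T.map_mul, T.map_mul,
        mul_one, ← inr_sub, norm_inr, ← LinearMap.sub_apply, ← map_sub]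
      refine (T.norm_le _ _).trans (mul_le_mul_of_nonneg_right ?_ (norm_nonneg _))
      rw [show α g (k n) * a - k n * a = (α g (k n) * a - a) - (k n * a - a) by abel]
      exact (norm_sub_le _ _).trans (add_le_add ((hα n a).1.trans_eq (by rw [map_inv])) le_rfl)
    · refine squeeze_zero (fun n => norm_nonneg _) (fun n => ?_)
        (by simpa using ((((hka (α g⁻¹ a)).2.mono_left hωt).add
          ((hka a).2.mono_left hωt)).mul_const ‖b‖))
      show ‖(inr (T.m a 1) : Unitization ℂ R) *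
        (extAction β g (inr (T.m (k n) b)) - inr (T.m (k n) b)) - 0‖ ≤ _
      rw [sub_zero, extAction_inr, hβ, mul_sub, ← inr_mul, ← inr_mul, T.map_mul, T.map_mul,
        one_mul, ← inr_sub, norm_inr, ← LinearMap.sub_apply, ← map_sub]
      refine (T.norm_le _ _).trans (mul_le_mul_of_nonneg_right ?_ (norm_nonneg _))
      rw [show a * α g (k n) - a * k n = (a * α g (k n) - a) - (a * k n - a) by abel]
      exact (norm_sub_le _ _).trans (add_le_add ((hα n a).2.trans_eq (by rw [map_inv])) le_rfl)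
  let Z : B → CutR ω T β := fun b => ⟨cls ω (kSeq T k hk b), hmem b⟩
  have hZ : ∀ b a, (Z b : Ultrapower (Unitization ℂ R) ω) * cJ ω T a =
      constSeq ω (inr (T.m a b)) := fun b a => (hK b a).1
  have hlin : ∀ (c : ℂ) (b b' : B), projR ω T β (Z (c • b + b')) =
      c • projR ω T β (Z b) + projR ω T β (Z b') := by
    intro c b b'
    rw [← map_smul, ← map_add]
    refine projR_eq fun a => ?_
    rw [sub_mul, sub_eq_zero, hZ]
    show _ = (c • (Z b : Ultrapower (Unitization ℂ R) ω) + Z b') * cJ ω T a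
    rw [add_mul, smul_mul_assoc, hZ, hZ, map_add, map_smul, inr_add, inr_smul]
    rfl
  have hadd : ∀ b b', projR ω T β (Z (b + b')) = projR ω T β (Z b) + projR ω T β (Z b') :=
    fun b b' => by simpa using hlin 1 b b'
  have hzero : projR ω T β (Z 0) = 0 := by
    have := hadd 0 0
    rw [add_zero] at this
    exact left_eq_add.1 this
  refine ⟨{ toFun := fun b => projR ω T β (Z b), map_one' := ?_, map_mul' := fun b b' => ?_,
            map_zero' := hzero, map_add' := hadd, commutes' := fun c => ?_,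
            map_star' := fun b => ?_ }, fun b => ⟨Z b, rfl, rfl⟩⟩
  · rw [← map_one (projR ω T β)]
    refine projR_eq fun a => ?_
    rw [sub_mul, sub_eq_zero, hZ]
    show _ = (1 : Ultrapower (Unitization ℂ R) ω) * cJ ω T a
    rw [one_mul]; rfl
  · rw [← map_mul]
    refine projR_eq fun a => ?_
    rw [sub_mul, sub_eq_zero, hZ]
    show _ = (Z b : Ultrapower (Unitization ℂ R) ω) * Z b' * cJ ω T a
    rw [mul_assoc, hZ]
    show _ = cls ω (kSeq T k hk b) * constSeq ω (inr (T.m a b'))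
    rw [constSeq, constSeq, ← map_mul]
    refine cls_eq_of_tendsto (squeeze_zero (fun n => norm_nonneg _) (fun n => ?_)
      (by simpa using ((hka a).1.mono_left hωt).mul_const ‖b * b'‖))
    show ‖(inr (T.m a (b * b')) : Unitization ℂ R) - inr (T.m (k n) b) * inr (T.m a b')‖ ≤ _
    rw [← inr_mul, T.map_mul, ← inr_sub, norm_inr, ← LinearMap.sub_apply, ← map_sub]
    refine (T.norm_le _ _).trans (mul_le_mul_of_nonneg_right ?_ (norm_nonneg _))
    rw [norm_sub_rev]
  · show projR ω T β (Z (algebraMap ℂ B c)) = algebraMap ℂ _ c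
    rw [← AlgHomClass.commutes (projR ω T β)]
    refine projR_eq fun a => ?_
    rw [sub_mul, sub_eq_zero, hZ]
    show _ = algebraMap ℂ (Ultrapower (Unitization ℂ R) ω) c * cJ ω T a
    rw [← Algebra.smul_def, Algebra.algebraMap_eq_smul_one, map_smul, inr_smul]
    rfl
  · rw [← map_star]
    congr 1
    refine Subtype.ext ?_
    show cls ω (kSeq T k hk (star b)) = star (cls ω (kSeq T k hk b))
    rw [star_cls]
    refine congrArg (cls ω) (BoundedContinuousFunction.ext fun n => ?_)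
    show (inr (T.m (k n) (star b)) : Unitization ℂ R) = star (inr (T.m (k n) b))
    rw [← inr_star, T.map_star, (hks n).star_eq]

variable (T) in
/-- The two kinds of images commute. -/
theorem commute_embed (hω : (ω : Filter ℕ) ≤ cofinite) {k : ℕ → A} (hk : ∀ n, ‖k n‖ ≤ 1)
    (hka : ∀ a, Tendsto (fun n => ‖k n * a - a‖) atTop (𝓝 0) ∧
      Tendsto (fun n => ‖a * k n - a‖) atTop (𝓝 0))
    (x : Central (Unitization ℂ A) ω) (b : B) (z₁ z₂ : CutR ω T β)
    (h₁ : (z₁ : Ultrapower (Unitization ℂ R) ω) = mapU ω (jt T) x)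
    (h₂ : (z₂ : Ultrapower (Unitization ℂ R) ω) = cls ω (kSeq T k hk b)) :
    Commute (projR ω T β z₁) (projR ω T β z₂) := by
  have hωt : (ω : Filter ℕ) ≤ atTop := hω.trans Nat.cofinite_eq_atTop.le
  rw [Commute, SemiconjBy, ← map_mul, ← map_mul]
  refine projR_eq fun a => ?_
  rw [sub_mul, sub_eq_zero]
  show (z₁ : Ultrapower (Unitization ℂ R) ω) * z₂ * cJ ω T a = z₂ * z₁ * cJ ω T a
  rw [mul_assoc, mul_assoc, h₁, h₂]
  obtain ⟨f, hf⟩ := cls_surjective ω (x : Ultrapower (Unitization ℂ A) ω)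
  have hfc : ∀ a : A, Tendsto
      (fun n => ‖f n * (inr a : Unitization ℂ A) - inr a * f n‖) ω (𝓝 0) := fun a => by
    have h := tendsto_of_commute_cls ω (f := BoundedContinuousFunction.const ℕ (inr a : Unitization ℂ A))
      (g := f) (by rw [hf]; exact (mem_central ω).1 x.2 (inr a))
    refine h.congr fun n => ?_
    rw [norm_sub_rev]; rfl
  rw [← hf, mapU_cls, cJ, constSeq, ← map_mul, ← map_mul, ← map_mul, ← map_mul]
  refine cls_eq_of_tendsto ?_
  -- the difference is at most `3 ‖f‖ ‖k a - a‖ + ‖f a - a f‖` times `‖b‖`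
  refine squeeze_zero (fun n => norm_nonneg _) (fun n => ?_) (by
    simpa using (((((hka a).1.add (hka a).2).mono_left hωt).const_mul (3 * ‖f‖)).add
      ((hfc a).const_mul 3)).mul_const ‖b‖)
  show ‖jt T (f n) * ((inr (T.m (k n) b) : Unitization ℂ R) * inr (T.m a 1)) -
    inr (T.m (k n) b) * (jt T (f n) * inr (T.m a 1))‖ ≤ _
  rw [← inr_mul, T.map_mul, mul_one, jt_mul_inr, jt_mul_inr, ← inr_mul, T.map_mul, mul_one,
    ← inr_sub, norm_inr, ← LinearMap.sub_apply, ← map_sub]
  refine (T.norm_le _ _).trans (mul_le_mul_of_nonneg_right ?_ (norm_nonneg _))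
  set y := f n
  have hy : ‖y‖ ≤ ‖f‖ := f.norm_coe_le_norm n
  have e : ∀ z : A, (inr (y * inr z).snd : Unitization ℂ A) = y * inr z := fun z =>
    Unitization.ext (by simp) (by simp)
  rw [← norm_inr (𝕜 := ℂ), inr_sub, e, inr_mul, inr_mul, e]
  set P : Unitization ℂ A := inr (k n)
  set Q : Unitization ℂ A := inr a
  have hP : ‖P‖ ≤ 1 := (norm_inr _).trans_le (hk n)
  rw [show y * (P * Q) - P * (y * Q) = y * (P * Q - Q) - P * (y * Q - Q * y) -
    (P * Q - Q) * y + (y * Q - Q * y) by simp only [mul_sub, sub_mul, mul_assoc]; abel]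
  have n1 : ‖P * Q - Q‖ = ‖k n * a - a‖ := by
    rw [← norm_inr (𝕜 := ℂ) (k n * a - a), inr_sub, inr_mul]
  have h1 := (norm_mul_le y (P * Q - Q)).trans (mul_le_mul_of_nonneg_right hy (norm_nonneg _))
  have h2 := (norm_mul_le P (y * Q - Q * y)).trans (mul_le_of_le_one_left (norm_nonneg _) hP)
  have h3 := (norm_mul_le (P * Q - Q) y).trans (mul_le_mul_of_nonneg_left hy (norm_nonneg _))
  have h4 := norm_add_le (y * (P * Q - Q) - P * (y * Q - Q * y) - (P * Q - Q) * y) (y * Q - Q * y)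
  have h5 := norm_sub_le (y * (P * Q - Q) - P * (y * Q - Q * y)) ((P * Q - Q) * y)
  have h6 := norm_sub_le (y * (P * Q - Q)) (P * (y * Q - Q * y))
  rw [n1] at h1 h3
  nlinarith [norm_nonneg f, norm_nonneg (k n * a - a), norm_nonneg (a * k n - a),
    norm_nonneg (y * Q - Q * y), mul_nonneg (norm_nonneg f) (norm_nonneg (a * k n - a))]

variable (T β) in
/-- Products of exponentials lift to unitary sequences. -/
theorem exists_lift_exp (l : List (selfAdjoint (QuoR ω T β))) :
    ∃ (W : ℕ →ᵇ Unitization ℂ R) (h : cls ω W ∈ CutR ω T β),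
      (∀ n, W n ∈ unitary (Unitization ℂ R)) ∧
      projR ω T β ⟨cls ω W, h⟩ =
        (l.map fun h => (selfAdjoint.expUnitary h : QuoR ω T β)).prod := by
  induction l with
  | nil =>
    refine ⟨1, by rw [map_one]; exact one_mem _, fun n => one_mem _, ?_⟩
    rw [List.map_nil, List.prod_nil, ← map_one (projR ω T β)]
    exact congrArg _ (Subtype.ext (map_one _))
  | cons h t ih =>
    obtain ⟨W, hW, hWu, hWp⟩ := ih
    obtain ⟨z₀, hz₀⟩ := (annC (Set.range (cJ ω T)) (actR ω β)).proj_surjective (h : QuoR ω T β)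
    obtain ⟨f₀, hf₀⟩ := cls_surjective ω (z₀ : Ultrapower (Unitization ℂ R) ω)
    let f : selfAdjoint (ℕ →ᵇ Unitization ℂ R) :=
      ⟨(1 / 2 : ℂ) • (f₀ + star f₀), by
        rw [selfAdjoint.mem_iff, star_smul, star_add, star_star, add_comm]
        congr 1
        simp⟩
    let z : selfAdjoint (CutR ω T β) :=
      ⟨(1 / 2 : ℂ) • (z₀ + star z₀), by
        rw [selfAdjoint.mem_iff, star_smul, star_add, star_star, add_comm]
        congr 1
        simp⟩
    have hz : clsStar ω (f : ℕ →ᵇ Unitization ℂ R) =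
        (CutR ω T β).subtype (z : CutR ω T β) := by
      rw [map_smul, map_add, map_star]
      show cls ω ((1 / 2 : ℂ) • (f₀ + star f₀)) = _
      rw [map_smul, map_add, ← star_cls, hf₀]
      rfl
    have hzh : projR ω T β (z : CutR ω T β) = (h : QuoR ω T β) := by
      show projR ω T β ((1 / 2 : ℂ) • (z₀ + star z₀)) = _
      rw [map_smul, map_add, map_star, hz₀, h.2.star_eq, ← two_smul ℂ, smul_smul]
      norm_num
    let zU : selfAdjoint (Ultrapower (Unitization ℂ R) ω) :=
      ⟨(CutR ω T β).subtype (z : CutR ω T β), selfAdjoint.mem_iff.2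
        ((map_star (CutR ω T β).subtype _).symm.trans (congrArg _ z.2.star_eq))⟩
    set V : unitary (ℕ →ᵇ Unitization ℂ R) := selfAdjoint.expUnitary f with hV
    have hVz : cls ω (V : ℕ →ᵇ Unitization ℂ R) =
        (CutR ω T β).subtype (selfAdjoint.expUnitary z : CutR ω T β) :=
      (hom_expUnitary (clsStar ω) f zU hz).trans
        (hom_expUnitary (CutR ω T β).subtype z zU rfl).symm
    have hVW : cls ω ((V : ℕ →ᵇ Unitization ℂ R) * W) ∈ CutR ω T β := by
      rw [map_mul, hVz]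
      exact mul_mem (selfAdjoint.expUnitary z : CutR ω T β).2 hW
    refine ⟨(V : ℕ →ᵇ Unitization ℂ R) * W, hVW, fun n => ?_, ?_⟩
    · refine mul_mem ?_ (hWu n)
      have h1 := congrArg (fun g : ℕ →ᵇ Unitization ℂ R => g n) (Unitary.mem_iff.1 V.2).1
      have h2 := congrArg (fun g : ℕ →ᵇ Unitization ℂ R => g n) (Unitary.mem_iff.1 V.2).2
      exact Unitary.mem_iff.2 ⟨h1, h2⟩
    · rw [List.map_cons, List.prod_cons, ← hWp, ← hom_expUnitary (projR ω T β) z h hzh,
        ← map_mul]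
      congr 1
      refine Subtype.ext ?_
      show cls ω ((V : ℕ →ᵇ Unitization ℂ R) * W) = _
      rw [map_mul, hVz]
      rfl

end

/-- An estimate in the quotient gives one on representatives. -/
theorem rot_seq {A B R : Type} [NonUnitalCStarAlgebra A] [CStarAlgebra B]
    [NonUnitalCStarAlgebra R] {G : Type} [Group G] (ω : Ultrafilter ℕ) (T : TensorData A B R)
    {β : G →* (R ≃⋆ₐ[ℂ] R)} (hω : (ω : Filter ℕ) ≤ cofinite) {k : ℕ → A} (hk : ∀ n, ‖k n‖ ≤ 1)
    (hka : ∀ a, Tendsto (fun n => ‖k n * a - a‖) atTop (𝓝 0) ∧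
      Tendsto (fun n => ‖a * k n - a‖) atTop (𝓝 0))
    (a : A) (b : B) (W : ℕ →ᵇ Unitization ℂ R) (hW : cls ω W ∈ CutR ω T β)
    (q : ℕ →ᵇ Unitization ℂ A) (z₁ z₂ : CutR ω T β)
    (h₁ : (z₁ : Ultrapower (Unitization ℂ R) ω) = mapU ω (jt T) (cls ω q))
    (h₂ : (z₂ : Ultrapower (Unitization ℂ R) ω) = cls ω (kSeq T k hk b)) {c η : ℝ}
    (h : ‖projR ω T β (star (⟨cls ω W, hW⟩ : CutR ω T β) * z₂ * ⟨cls ω W, hW⟩ - z₁)‖ ≤ c)
    (hη : 0 < η) :
    ∀ᶠ n in (ω : Filter ℕ), ‖star (W n) * (inr (T.m a b) : Unitization ℂ R) * W n -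
      inr (T.left ((inr a : Unitization ℂ A) * q n).snd)‖ ≤ ‖a‖ * c + η := by
  set D : CutR ω T β := star (⟨cls ω W, hW⟩ : CutR ω T β) * z₂ * ⟨cls ω W, hW⟩ - z₁ with hD
  have hcn : ‖cJ ω T a‖ ≤ ‖a‖ := by
    refine ((NonUnitalStarAlgHom.norm_apply_le (constHom (A := Unitization ℂ R) ω) _)).trans ?_
    rw [norm_inr]
    exact NonUnitalStarAlgHom.norm_apply_le T.left a
  have h3 : ‖cJ ω T a * (D : Ultrapower (Unitization ℂ R) ω)‖ ≤ ‖a‖ * c :=
    (norm_mul_le_proj (Set.range (cJ ω T)) (actR ω β) (s := cJ ω T a) ⟨a, rfl⟩ D).trans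
      (mul_le_mul hcn h (norm_nonneg _) (norm_nonneg _))
  have hWc : Commute (cJ ω T a) (star (cls ω W)) :=
    cutC_comm _ _ (star_mem hW) (Or.inl ⟨a, rfl⟩)
  set pre : ℕ →ᵇ Unitization ℂ R :=
    star W * BoundedContinuousFunction.const ℕ (inr (T.m a b)) * W -
      BoundedContinuousFunction.const ℕ (inr (T.left a)) * bmap (jt T) q
  have hprec : cls ω pre = cJ ω T a * (D : Ultrapower (Unitization ℂ R) ω) := by
    have e1 : cls ω pre = star (cls ω W) * constSeq ω (inr (T.m a b)) * cls ω W -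
        cJ ω T a * mapU ω (jt T) (cls ω q) := by
      simp only [pre, map_sub, map_mul, star_cls, mapU_cls, cJ, constSeq]
    have e2 : (D : Ultrapower (Unitization ℂ R) ω) = star (cls ω W) *
        (z₂ : Ultrapower (Unitization ℂ R) ω) * cls ω W - z₁ := by
      rw [hD]; rfl
    rw [e1, e2, h₁, h₂, mul_sub, ← mul_assoc (cJ ω T a), ← mul_assoc (cJ ω T a), hWc.eq,
      mul_assoc (star (cls ω W)) (cJ ω T a), (cls_kSeq_mul (T := T) ω hω hk hka b a).2]
  have hlim : limNorm ω pre ≤ ‖a‖ * c := by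
    rw [← norm_cls, hprec]; exact h3
  filter_upwards [(tendsto_limNorm ω pre).eventually
    (eventually_le_nhds (show limNorm ω pre < ‖a‖ * c + η by linarith))] with n hn
  have e : (inr a : Unitization ℂ A) * q n = inr ((inr a : Unitization ℂ A) * q n).snd :=
    Unitization.ext (by simp) (by simp)
  have e' : (inr (T.left a) : Unitization ℂ R) * jt T (q n) =
      inr (T.left ((inr a : Unitization ℂ A) * q n).snd) :=
    calc _ = jt T ((inr a : Unitization ℂ A) * q n) := by rw [map_mul, jt_inr]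
      _ = _ := (congrArg (jt T) e).trans (jt_inr T _)
  rw [← e']
  exact hn

/-- Elementary tensors are moved almost into `j A`, stated for finitely many at once. -/
theorem exists_rot {A B R : Type} [NonUnitalCStarAlgebra A] [TopologicalSpace.SeparableSpace A]
    [CStarAlgebra B] [NonUnitalCStarAlgebra R] {G : Type} [Group G] [Countable G]
    (hU : UnivStmt) (hC : CommExpStmt) {ω : Ultrafilter ℕ} (hω : (ω : Filter ℕ) ≤ cofinite)
    (α : G →* (A ≃⋆ₐ[ℂ] A)) (hst : HasStages hω α) (Tw : Tower B) (T : TensorData A B R)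
    (β : G →* (R ≃⋆ₐ[ℂ] R)) (hβ : ∀ g a b, β g (T.m a b) = T.m (α g a) b)
    (P : Finset (A × B)) {δ : ℝ} (hδ : 0 < δ) :
    ∃ (W : ℕ →ᵇ Unitization ℂ R), cls ω W ∈ CutR ω T β ∧
      (∀ n, W n ∈ unitary (Unitization ℂ R)) ∧
      ∀ p ∈ P, ∃ r : ℕ → A, ∀ᶠ n in (ω : Filter ℕ),
        ‖star (W n) * (inr (T.m p.1 p.2) : Unitization ℂ R) * W n - inr (T.left (r n))‖ ≤
          δ * (‖p.1‖ + 1) := by
  classical
  set δ₀ : ℝ := δ / 4 with hδ₀
  have hδ₀' : 0 < δ₀ := by positivity
  have happ : ∀ b : B, ∃ n, ∃ f, ‖Tw.emb n f - b‖ ≤ δ₀ := fun b => by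
    obtain ⟨_, hx, hd⟩ := Metric.mem_closure_iff.1 (Tw.dense b) δ₀ hδ₀'
    obtain ⟨n, f, rfl⟩ := Set.mem_iUnion.1 hx
    exact ⟨n, f, by rw [← dist_eq_norm, dist_comm]; exact hd.le⟩
  choose N f hf using happ
  set n₀ := P.sup fun p => N p.2
  have hup : ∀ p ∈ P, ∃ f', Tw.emb n₀ f' = Tw.emb (N p.2) (f p.2) := fun p hp =>
    Tw.mono _ _ (Finset.le_sup (f := fun p : A × B => N p.2) hp) ⟨f p.2, rfl⟩
  choose! f' hf' using hup
  obtain ⟨m, -, hflip⟩ := exists_flip hU hC Tw n₀ (P.image f') hδ₀'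
  obtain ⟨k, hk, hka⟩ := exists_unitSeq A
  obtain ⟨Φ, hΦ⟩ := exists_embed (β := β) ω T hω α hβ
  obtain ⟨Ψ, hΨ⟩ := exists_right (T := T) (β := β) ω hω α hβ (fun n => (hk n).2)
    (fun n => (hk n).1) hka
  obtain ⟨k₀, hk₀, hPm⟩ := Tw.pow m
  obtain ⟨ρ₁, ρ₃, σ, c13, c1, c3⟩ : ∃ (ρ₁ ρ₃ : DD (Tw.P m) (Tw.P m + 1) →⋆ₐ[ℂ]
      fixedAlg (sysFA hω α).act) (σ : DD.dimDrop23 →⋆ₐ[ℂ] fixedAlg (sysFA hω α).act),
      (∀ a b, Commute (ρ₁ a) (ρ₃ b)) ∧ (∀ a g, Commute (ρ₁ a) (σ g)) ∧
        ∀ a g, Commute (ρ₃ a) (σ g) := by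
    rw [hPm]; exact hst k₀ hk₀
  have hcomm : ∀ (y : fixedAlg (sysFA hω α).act) (b : B), Commute (Φ y) (Ψ b) := fun y b => by
    obtain ⟨x, z₁, -, h₁, e₁⟩ := hΦ y
    obtain ⟨z₂, h₂, e₂⟩ := hΨ b
    rw [e₁, e₂]
    exact commute_embed ω T hω (fun n => (hk n).2) hka x b z₁ z₂ h₁ h₂
  obtain ⟨l, hl⟩ := hflip (QuoR ω T β) (Φ.comp ρ₁) (Ψ.comp (Tw.emb m)) (Φ.comp ρ₃) (Φ.comp σ)
    (fun a b => hcomm _ _) (fun a b => (c13 a b).map Φ) (fun a b => hcomm _ _)
    (fun a g => (c1 a g).map Φ) (fun a g => (hcomm _ _).symm) (fun a g => (c3 a g).map Φ)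
  obtain ⟨W, hW, hWu, hWp⟩ := exists_lift_exp ω T β l
  refine ⟨W, hW, hWu, fun p hp => ?_⟩
  obtain ⟨g, hg, hle⟩ := hl (f' p) (Finset.mem_image_of_mem _ hp)
  rw [← hWp] at hle
  obtain ⟨x, z₁, -, h₁, e₁⟩ := hΦ (ρ₁ g)
  obtain ⟨z₂, h₂, e₂⟩ := hΨ (Tw.emb m g)
  let w : CutR ω T β := ⟨cls ω W, hW⟩
  rw [StarAlgHom.comp_apply, StarAlgHom.comp_apply, e₁, e₂, ← map_star, ← map_mul, ← map_mul,
    ← map_sub] at hle
  obtain ⟨q, hq⟩ := cls_surjective ω (x : Ultrapower (Unitization ℂ A) ω)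
  rw [← hq] at h₁
  refine ⟨fun n => ((inr p.1 : Unitization ℂ A) * q n).snd, ?_⟩
  filter_upwards [rot_seq ω T hω (fun n => (hk n).2) hka p.1 (Tw.emb m g) W hW q z₁ z₂ h₁ h₂ hle
    hδ₀'] with n hn
  have happ' : ‖T.m p.1 p.2 - T.m p.1 (Tw.emb m g)‖ ≤ ‖p.1‖ * δ₀ := by
    rw [hg, hf' p hp, ← map_sub]
    refine (T.norm_le _ _).trans (mul_le_mul_of_nonneg_left ?_ (norm_nonneg _))
    rw [norm_sub_rev]
    exact hf p.2
  rw [show star (W n) * (inr (T.m p.1 p.2) : Unitization ℂ R) * W n -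
      inr (T.left ((inr p.1 : Unitization ℂ A) * q n).snd) =
    star (W n) * inr (T.m p.1 p.2 - T.m p.1 (Tw.emb m g)) * W n +
      (star (W n) * (inr (T.m p.1 (Tw.emb m g)) : Unitization ℂ R) * W n -
        inr (T.left ((inr p.1 : Unitization ℂ A) * q n).snd)) by
    rw [inr_sub, mul_sub, sub_mul]; abel]
  refine (norm_add_le _ _).trans ?_
  rw [CStarRing.norm_mul_mem_unitary _ (hWu n),
    CStarRing.norm_mem_unitary_mul _ (Unitary.star_mem (hWu n)), norm_inr]
  have h0 := norm_nonneg p.1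
  simp only [hδ₀] at hn happ' ⊢
  nlinarith

/-- Elements of the span of the tensors are finite sums of tensors. -/
theorem exists_sum_tensors {A B R : Type} [NonUnitalCStarAlgebra A] [CStarAlgebra B]
    [NonUnitalCStarAlgebra R] (T : TensorData A B R) {x : R}
    (hx : x ∈ Submodule.span ℂ (Set.range fun p : A × B => T.m p.1 p.2)) :
    ∃ L : List (A × B), (L.map fun p => T.m p.1 p.2).sum = x := by
  induction hx using Submodule.span_induction with
  | mem y hy => obtain ⟨p, rfl⟩ := hy; exact ⟨[p], by simp⟩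
  | zero => exact ⟨[], rfl⟩
  | add y z _ _ hy hz =>
    obtain ⟨L, rfl⟩ := hy
    obtain ⟨M, rfl⟩ := hz
    exact ⟨L ++ M, by simp⟩
  | smul c y _ hy =>
    obtain ⟨L, rfl⟩ := hy
    refine ⟨L.map fun p => (c • p.1, p.2), ?_⟩
    rw [List.map_map, List.smul_sum, List.map_map]
    congr 1
    exact List.map_congr_left fun p _ => by simp

/-- `FlipsStmt`. -/
theorem flips : FlipsStmt := by
  intro hU hC A B R _ _ _ _ _ ω hω G _ _ α hst Tw T β hβ F X S ε hε
  classical
  -- approximate `X` by sums of tensors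
  have happ : ∀ x : R, ∃ L : List (A × B), ‖x - (L.map fun p => T.m p.1 p.2).sum‖ ≤ ε / 4 := by
    intro x
    obtain ⟨y, hy, hd⟩ := Metric.mem_closure_iff.1 (T.dense x) (ε / 4) (by positivity)
    obtain ⟨L, rfl⟩ := exists_sum_tensors T hy
    exact ⟨L, by rw [← dist_eq_norm]; exact hd.le⟩
  choose L hL using happ
  set M : ℝ := 1 + ∑ x ∈ X, ((L x).map fun p => ‖p.1‖ + 1).sum with hM
  have hsum0 : ∀ x, 0 ≤ ((L x).map fun p => ‖p.1‖ + 1).sum := fun x =>
    List.sum_nonneg fun r hr => by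
      obtain ⟨p, -, rfl⟩ := List.mem_map.1 hr
      positivity
  have hMpos : 0 < M := by
    have := Finset.sum_nonneg fun x (_ : x ∈ X) => hsum0 x
    linarith
  obtain ⟨W, hW, hWu, hWp⟩ := exists_rot hU hC hω α hst Tw T β hβ
    (X.biUnion fun x => (L x).toFinset) (δ := ε / (4 * M)) (by positivity)
  obtain ⟨k, hk, hka⟩ := exists_unitSeq A
  -- almost commuting
  have hF : ∀ a ∈ F, ∀ᶠ n in (ω : Filter ℕ),
      ‖W n * (inr (T.left a) : Unitization ℂ R) - inr (T.left a) * W n‖ ≤ ε := fun a _ => by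
    have h := tendsto_of_commute_cls ω (f := W)
      (g := BoundedContinuousFunction.const ℕ (inr (T.left a) : Unitization ℂ R))
      (cutC_comm _ _ hW (Or.inl ⟨a, rfl⟩)).symm
    exact h.eventually (eventually_le_nhds hε)
  -- almost fixed
  have hS : ∀ g ∈ S, ∀ x ∈ X, ∀ᶠ n in (ω : Filter ℕ),
      ‖(extAction β g (W n) - W n) * (inr x : Unitization ℂ R)‖ ≤ ε ∧
        ‖(inr x : Unitization ℂ R) * (extAction β g (W n) - W n)‖ ≤ ε := by
    intro g _ x _
    set D := actR ω β g (cls ω W) - cls ω W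
    have hD : ∀ a, D * cJ ω T a = 0 ∧ cJ ω T a * D = 0 := fun a => hW.2 g _ (Or.inl ⟨a, rfl⟩)
    let cx : R → Ultrapower (Unitization ℂ R) ω := fun x => constSeq ω (inr x)
    have hcx : ∀ a x, cx (T.left a * x) = cJ ω T a * cx x ∧ cx (x * T.left a) = cx x * cJ ω T a :=
      fun a x => by
        simp only [cx, cJ, constSeq, ← map_mul]
        constructor <;> refine congrArg (cls ω) (BoundedContinuousFunction.ext fun n => ?_) <;>
          simp
    have hcn : ∀ x, ‖cx x‖ ≤ ‖x‖ := fun x =>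
      (NonUnitalStarAlgHom.norm_apply_le (constHom (A := Unitization ℂ R) ω) _).trans_eq
        (norm_inr _)
    have hsub : ∀ x y, cx (x - y) = cx x - cx y := fun x y => by
      simp only [cx, inr_sub]
      exact map_sub (constHom (A := Unitization ℂ R) ω) _ _
    have l1 : Tendsto (fun n => ‖x - T.left (k n) * x‖) atTop (𝓝 0) := by
      let fn : ℕ → R →ₗ[ℂ] R := fun n => LinearMap.id - LinearMap.mulLeft ℂ (T.left (k n))
      refine tendsto_of_tensors T fn (C := 2) (fun n z => ?_) (fun a b => ?_) x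
      · refine (norm_sub_le _ _).trans ?_
        have := (norm_mul_le (T.left (k n)) z).trans (mul_le_of_le_one_left (norm_nonneg z)
          ((NonUnitalStarAlgHom.norm_apply_le T.left _).trans (hk n).2))
        show ‖z‖ + ‖T.left (k n) * z‖ ≤ _
        linarith
      · refine squeeze_zero (fun n => norm_nonneg _) (fun n => ?_)
          (by simpa using (hka a).1.mul_const ‖b‖)
        show ‖T.m a b - T.m (k n) 1 * T.m a b‖ ≤ _
        rw [T.map_mul, one_mul, norm_sub_rev, ← LinearMap.sub_apply, ← map_sub]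
        exact T.norm_le _ _
    have l2 : Tendsto (fun n => ‖x - x * T.left (k n)‖) atTop (𝓝 0) := by
      let fn : ℕ → R →ₗ[ℂ] R := fun n => LinearMap.id - LinearMap.mulRight ℂ (T.left (k n))
      refine tendsto_of_tensors T fn (C := 2) (fun n z => ?_) (fun a b => ?_) x
      · refine (norm_sub_le _ _).trans ?_
        have := (norm_mul_le z (T.left (k n))).trans (mul_le_of_le_one_right (norm_nonneg z)
          ((NonUnitalStarAlgHom.norm_apply_le T.left _).trans (hk n).2))
        show ‖z‖ + ‖z * T.left (k n)‖ ≤ _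
        linarith
      · refine squeeze_zero (fun n => norm_nonneg _) (fun n => ?_)
          (by simpa using (hka a).2.mul_const ‖b‖)
        show ‖T.m a b - T.m a b * T.m (k n) 1‖ ≤ _
        rw [T.map_mul, mul_one, norm_sub_rev, ← LinearMap.sub_apply, ← map_sub]
        exact T.norm_le _ _
    have hz : D * cx x = 0 ∧ cx x * D = 0 := by
      constructor <;> rw [← norm_le_zero_iff]
      · refine ge_of_tendsto' (by simpa using l1.const_mul ‖D‖) fun n => ?_
        rw [show D * cx x = D * cx (x - T.left (k n) * x) by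
          rw [hsub, mul_sub, (hcx _ _).1, ← mul_assoc, (hD _).1, zero_mul, sub_zero]]
        exact (norm_mul_le _ _).trans (mul_le_mul_of_nonneg_left (hcn _) (norm_nonneg _))
      · refine ge_of_tendsto' (by simpa using l2.const_mul ‖D‖) fun n => ?_
        rw [show cx x * D = cx (x - x * T.left (k n)) * D by
          rw [hsub, sub_mul, (hcx _ _).2, mul_assoc, (hD _).2, mul_zero, sub_zero], mul_comm ‖D‖]
        exact (norm_mul_le _ _).trans (mul_le_mul_of_nonneg_right (hcn _) (norm_nonneg _))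
    set Wd : ℕ →ᵇ Unitization ℂ R :=
      bmap (StarAlgHomClass.toStarAlgHom (extAction β g)) W - W with hWd
    have hDd : D = cls ω Wd := by
      rw [hWd, map_sub, ← actU_cls]
      rfl
    have h1 : Tendsto (fun n => ‖Wd n * (inr x : Unitization ℂ R)‖) ω (𝓝 0) := by
      have := ZS.Absorb.tendsto_of_cls_eq (a := Wd * BoundedContinuousFunction.const ℕ (inr x)) (b := 0)
        (by rw [map_mul, ← hDd, map_zero]; exact hz.1)
      simpa using this
    have h2 : Tendsto (fun n => ‖(inr x : Unitization ℂ R) * Wd n‖) ω (𝓝 0) := by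
      have := ZS.Absorb.tendsto_of_cls_eq (a := BoundedContinuousFunction.const ℕ (inr x) * Wd) (b := 0)
        (by rw [map_mul, ← hDd, map_zero]; exact hz.2)
      simpa using this
    exact (h1.eventually (eventually_le_nhds hε)).and (h2.eventually (eventually_le_nhds hε))
  -- moved into `j A`
  have hX : ∀ x ∈ X, ∀ᶠ n in (ω : Filter ℕ), ∃ a,
      ‖star (W n) * (inr x : Unitization ℂ R) * W n - inr (T.left a)‖ ≤ ε := by
    intro x hx
    have key : ∀ l : List (A × B), (∀ p ∈ l, p ∈ (X.biUnion fun x => (L x).toFinset)) →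
        ∀ᶠ n in (ω : Filter ℕ), ∃ a, ‖star (W n) *
          (inr (l.map fun p => T.m p.1 p.2).sum : Unitization ℂ R) * W n - inr (T.left a)‖ ≤
            ε / (4 * M) * (l.map fun p => ‖p.1‖ + 1).sum := by
      intro l hl
      induction l with
      | nil => exact Eventually.of_forall fun n => ⟨0, by simp⟩
      | cons p t ih =>
        obtain ⟨r, hr⟩ := hWp p (hl p (List.mem_cons_self ..))
        filter_upwards [hr, ih fun q hq => hl q (List.mem_cons_of_mem _ hq)] with n h1 ⟨a, h2⟩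
        refine ⟨r n + a, ?_⟩
        rw [List.map_cons, List.sum_cons, List.map_cons, List.sum_cons, inr_add, map_add,
          inr_add, mul_add, add_mul, add_sub_add_comm, mul_add (ε / (4 * M))]
        exact (norm_add_le _ _).trans (add_le_add h1 h2)
    filter_upwards [key (L x) fun p hp => Finset.mem_biUnion.2 ⟨x, hx, List.mem_toFinset.2 hp⟩]
      with n ⟨a, ha⟩
    refine ⟨a, ?_⟩
    have hle : ε / (4 * M) * ((L x).map fun p => ‖p.1‖ + 1).sum ≤ ε / 4 := by
      have h1 := Finset.single_le_sum (fun x _ => hsum0 x) hx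
      rw [div_mul_eq_mul_div, div_le_iff₀ (by positivity)]
      nlinarith
    rw [show star (W n) * (inr x : Unitization ℂ R) * W n - inr (T.left a) =
        star (W n) * inr (x - ((L x).map fun p => T.m p.1 p.2).sum) * W n +
          (star (W n) * (inr ((L x).map fun p => T.m p.1 p.2).sum : Unitization ℂ R) * W n -
            inr (T.left a)) by rw [inr_sub, mul_sub, sub_mul]; abel]
    refine (norm_add_le _ _).trans ?_
    rw [CStarRing.norm_mul_mem_unitary _ (hWu n),
      CStarRing.norm_mem_unitary_mul _ (Unitary.star_mem (hWu n)), norm_inr]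
    linarith [hL x]
  obtain ⟨n, ⟨h1, h2⟩, h3⟩ := ((((eventually_all_finset F).2 hF).and
    ((eventually_all_finset S).2 fun g hg => (eventually_all_finset X).2 (hS g hg))).and
      ((eventually_all_finset X).2 hX)).exists
  exact ⟨W n, hWu n, h1, h2, h3⟩

end

end Vale.P095.NU
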