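import Vale.Agent.P095.NU.Defs

/-!
# P095: strict limits in the multiplier algebra

A bounded sequence in the unitization whose one-sided products with every element of `R` converge
has a limit in the multiplier algebra, multiplicatively, and compatibly with `star` and automorphisms.
-/

open Filter Topology

namespace Vale.P095.NU

open Vale.P095.Nonunital

noncomputable section

variable {R : Type*} [NonUnitalCStarAlgebra R]

theorem fst_mul_inr (z : Unitization ℂ R) (y : R) :
    (z * (y : Unitization ℂ R)).fst = 0 ∧ ((y : Unitization ℂ R) * z).fst = 0 := by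
  simp [Unitization.fst_mul]

omit [NonUnitalCStarAlgebra R] in
theorem inr_snd_of_fst {z : Unitization ℂ R} (h : z.fst = 0) :
    (z.snd : Unitization ℂ R) = z := Unitization.ext (by simp [h]) (by simp)

theorem continuous_fst' : Continuous (fun z : Unitization ℂ R => z.fst) :=
  continuous_fst.comp (Unitization.uniformEquivProd (𝕜 := ℂ) (A := R)).continuous

theorem isometry_inr' : Isometry (fun y : R => (y : Unitization ℂ R)) :=
  Isometry.of_dist_eq fun x y => by
    simp only [dist_eq_norm, ← Unitization.inr_sub, Unitization.norm_inr]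

/-- The one-sided products of `f` converge to those of the multiplier `m`. -/
structure StrictTends (f : ℕ → Unitization ℂ R) (m : DoubleCentralizer ℂ R) : Prop where
  bdd : ∃ C : ℝ, ∀ n, ‖f n‖ ≤ C
  left : ∀ y : R, Tendsto (fun n => f n * (y : Unitization ℂ R)) atTop
    (𝓝 ((m.fst y : R) : Unitization ℂ R))
  right : ∀ y : R, Tendsto (fun n => (y : Unitization ℂ R) * f n) atTop
    (𝓝 ((m.snd y : R) : Unitization ℂ R))

namespace StrictTends

variable {f h : ℕ → Unitization ℂ R} {m m' : DoubleCentralizer ℂ R}

theorem unique (hf : StrictTends f m) (hf' : StrictTends f m') : m = m' :=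
  DoubleCentralizer.ext _ _ _ _ (Prod.ext
    (ContinuousLinearMap.ext fun y =>
      Unitization.inr_injective (tendsto_nhds_unique (hf.left y) (hf'.left y)))
    (ContinuousLinearMap.ext fun y =>
      Unitization.inr_injective (tendsto_nhds_unique (hf.right y) (hf'.right y))))

theorem congr (hf : StrictTends f m) (e : ∀ n, f n = h n) : StrictTends h m := by
  rwa [← funext e]

theorem one : StrictTends (fun _ => (1 : Unitization ℂ R)) (1 : DoubleCentralizer ℂ R) where
  bdd := ⟨‖(1 : Unitization ℂ R)‖, fun _ => le_rfl⟩
  left y := by simp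
  right y := by simp

theorem of_tendsto {r : R} (hf : Tendsto f atTop (𝓝 (r : Unitization ℂ R))) :
    StrictTends f (DoubleCentralizer.coe ℂ r) where
  bdd := by
    obtain ⟨C, hC⟩ := hf.norm.bddAbove_range
    exact ⟨C, fun n => hC ⟨n, rfl⟩⟩
  left y := by
    have := hf.mul_const (y : Unitization ℂ R)
    rwa [← Unitization.inr_mul] at this
  right y := by
    have := hf.const_mul (y : Unitization ℂ R)
    rwa [← Unitization.inr_mul] at this

theorem mul (hf : StrictTends f m) (hh : StrictTends h m') :
    StrictTends (fun n => f n * h n) (m * m') where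
  bdd := by
    obtain ⟨C, hC⟩ := hf.bdd
    obtain ⟨D, hD⟩ := hh.bdd
    exact ⟨C * D, fun n => (norm_mul_le _ _).trans
      (mul_le_mul (hC n) (hD n) (norm_nonneg _) ((norm_nonneg _).trans (hC n)))⟩
  left y := by
    obtain ⟨C, hC⟩ := hf.bdd
    rw [DoubleCentralizer.mul_fst]
    refine (hf.left (m'.fst y)).congr_dist (squeeze_zero (fun n => dist_nonneg) (fun n => ?_)
      (by simpa using ((tendsto_iff_dist_tendsto_zero.1 (hh.left y)).const_mul C)))
    rw [dist_comm, dist_eq_norm, mul_assoc, ← mul_sub, dist_eq_norm]
    exact (norm_mul_le _ _).trans (mul_le_mul_of_nonneg_right (hC n) (norm_nonneg _))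
  right y := by
    obtain ⟨D, hD⟩ := hh.bdd
    rw [DoubleCentralizer.mul_snd]
    refine (hh.right (m.snd y)).congr_dist (squeeze_zero (fun n => dist_nonneg) (fun n => ?_)
      (by simpa using ((tendsto_iff_dist_tendsto_zero.1 (hf.right y)).const_mul D)))
    rw [dist_comm, dist_eq_norm, ← mul_assoc, ← sub_mul, dist_eq_norm, mul_comm D]
    exact (norm_mul_le _ _).trans (mul_le_mul_of_nonneg_left (hD n) (norm_nonneg _))

theorem star (hf : StrictTends f m) : StrictTends (fun n => star (f n)) (star m) where
  bdd := by
    obtain ⟨C, hC⟩ := hf.bdd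
    exact ⟨C, fun n => by rw [norm_star]; exact hC n⟩
  left y := by
    have := (hf.right (Star.star y)).star
    rw [← Unitization.inr_star] at this
    exact this.congr fun n => by rw [star_mul, ← Unitization.inr_star, star_star]
  right y := by
    have := (hf.left (Star.star y)).star
    rw [← Unitization.inr_star] at this
    exact this.congr fun n => by rw [star_mul, ← Unitization.inr_star, star_star]

theorem map {G : Type*} [Group G] (β : G →* (R ≃⋆ₐ[ℂ] R)) (g : G) (hf : StrictTends f m) :
    StrictTends (fun n => extAction β g (f n)) (mapMult (β g) m) := by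
  have hc : Continuous (extAction β g) := AddMonoidHomClass.continuous_of_bound (extAction β g) 1
    fun x => by rw [one_mul]; exact NonUnitalStarAlgHom.norm_apply_le (extAction β g) x
  refine ⟨?_, fun y => ?_, fun y => ?_⟩
  · obtain ⟨C, hC⟩ := hf.bdd
    exact ⟨C, fun n => (NonUnitalStarAlgHom.norm_apply_le (extAction β g) (f n)).trans (hC n)⟩
  · have := (hc.tendsto _).comp (hf.left ((β g).symm y))
    rw [extAction_inr] at this
    exact this.congr fun n => by
      simp only [Function.comp_apply, map_mul, extAction_inr, StarAlgEquiv.apply_symm_apply]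
  · have := (hc.tendsto _).comp (hf.right ((β g).symm y))
    rw [extAction_inr] at this
    exact this.congr fun n => by
      simp only [Function.comp_apply, map_mul, extAction_inr, StarAlgEquiv.apply_symm_apply]

/-- A sequence with Cauchy one-sided products has a strict limit. -/
theorem exists_of_cauchy (C : ℝ) (hC : ∀ n, ‖f n‖ ≤ C)
    (hl : ∀ y : R, CauchySeq fun n => f n * (y : Unitization ℂ R))
    (hr : ∀ y : R, CauchySeq fun n => (y : Unitization ℂ R) * f n) :
    ∃ m : DoubleCentralizer ℂ R, StrictTends f m := by
  have lim : ∀ (F : R → ℕ → Unitization ℂ R), (∀ y, CauchySeq (F y)) → (∀ y n, (F y n).fst = 0) →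
      ∀ y, ∃ r : R, Tendsto (F y) atTop (𝓝 (r : Unitization ℂ R)) := by
    intro F hF h0 y
    obtain ⟨l, hl'⟩ := cauchySeq_tendsto_of_complete (hF y)
    refine ⟨l.snd, ?_⟩
    rwa [inr_snd_of_fst (tendsto_nhds_unique ((continuous_fst'.tendsto _).comp hl')
      (tendsto_const_nhds.congr fun n => (h0 y n).symm))]
  choose L hL using lim (fun y n => f n * (y : Unitization ℂ R)) hl
    fun y n => (fst_mul_inr (f n) y).1
  choose Q hQ using lim (fun y n => (y : Unitization ℂ R) * f n) hr
    fun y n => (fst_mul_inr (f n) y).2
  have bound : ∀ (S : R → R) (F : R → ℕ → Unitization ℂ R),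
      (∀ y, Tendsto (F y) atTop (𝓝 (S y : Unitization ℂ R))) → (∀ y n, ‖F y n‖ ≤ C * ‖y‖) →
      ∀ y, ‖S y‖ ≤ C * ‖y‖ := fun S F hS hb y => by
    rw [← Unitization.norm_inr (𝕜 := ℂ) (S y)]
    exact le_of_tendsto (hS y).norm (Eventually.of_forall (hb y))
  let Lc : R →L[ℂ] R := LinearMap.mkContinuous
    { toFun := L
      map_add' := fun x y => Unitization.inr_injective (R := ℂ) (by
        rw [Unitization.inr_add]
        exact tendsto_nhds_unique (hL (x + y))
          (((hL x).add (hL y)).congr fun n => by rw [← mul_add, ← Unitization.inr_add]))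
      map_smul' := fun c x => Unitization.inr_injective (R := ℂ) (by
        rw [RingHom.id_apply, Unitization.inr_smul]
        exact tendsto_nhds_unique (hL (c • x))
          (((hL x).const_smul c).congr fun n => by rw [← mul_smul_comm, ← Unitization.inr_smul])) }
    C (bound L _ hL fun y n => (norm_mul_le _ _).trans (by
      rw [Unitization.norm_inr]; exact mul_le_mul_of_nonneg_right (hC n) (norm_nonneg _)))
  let Qc : R →L[ℂ] R := LinearMap.mkContinuous
    { toFun := Q
      map_add' := fun x y => Unitization.inr_injective (R := ℂ) (by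
        rw [Unitization.inr_add]
        exact tendsto_nhds_unique (hQ (x + y))
          (((hQ x).add (hQ y)).congr fun n => by rw [← add_mul, ← Unitization.inr_add]))
      map_smul' := fun c x => Unitization.inr_injective (R := ℂ) (by
        rw [RingHom.id_apply, Unitization.inr_smul]
        exact tendsto_nhds_unique (hQ (c • x))
          (((hQ x).const_smul c).congr fun n => by rw [← smul_mul_assoc, ← Unitization.inr_smul])) }
    C (bound Q _ hQ fun y n => (norm_mul_le _ _).trans (by
      rw [Unitization.norm_inr, mul_comm C]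
      exact mul_le_mul_of_nonneg_left (hC n) (norm_nonneg _)))
  refine ⟨⟨(Lc, Qc), fun x y => ?_⟩, ⟨C, hC⟩, hL, hQ⟩
  refine Unitization.inr_injective (R := ℂ) ?_
  rw [Unitization.inr_mul, Unitization.inr_mul]
  exact tendsto_nhds_unique ((hQ x).mul_const _)
    (((hL y).const_mul _).congr fun n => (mul_assoc _ _ _).symm)

end StrictTends

end

end Vale.P095.NU
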