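import Vale.Agent.P095.NU.Pins
import Vale.Agent.P095.NU.StrictLimit

/-!
# P095: equivariant one-sided intertwining without a unit

As `Equi/Intertwine`, with unitaries of the unitization; the products `W_n β g (W_n)*` converge
strictly, to a cocycle of unitaries in the multiplier algebra.
-/

open Filter Topology

namespace Vale.P095.NU

open Vale.P095.Nonunital

noncomputable section

variable {A R : Type*} [NonUnitalCStarAlgebra A] [NonUnitalCStarAlgebra R]

/-- Geometric steps on a dense set give Cauchy sequences everywhere for `C`-Lipschitz families. -/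
theorem cauchySeq_of_dense {X Y : Type*} [PseudoMetricSpace X] [PseudoMetricSpace Y]
    (φ : ℕ → X → Y) (C : ℝ) (hφ : ∀ n a b, dist (φ n a) (φ n b) ≤ C * dist a b) (d : ℕ → X)
    (hd : DenseRange d)
    (h : ∀ k, ∃ N, ∀ n, N ≤ n → dist (φ n (d k)) (φ (n + 1) (d k)) ≤ (1 / 2 : ℝ) ^ n) (a : X) :
    CauchySeq fun n => φ n a := by
  refine Metric.cauchySeq_iff.2 fun ε hε => ?_
  obtain ⟨η, hη, hCη⟩ : ∃ η, 0 < η ∧ C * η ≤ ε / 4 ∧ 0 ≤ η := by
    refine ⟨ε / (4 * (|C| + 1)), by positivity, ?_, by positivity⟩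
    rw [← mul_div_assoc, div_le_div_iff₀ (by positivity) (by norm_num)]
    nlinarith [le_abs_self C, abs_nonneg C]
  obtain ⟨_, ⟨k, rfl⟩, hk⟩ := Metric.mem_closure_iff.1 (hd a) η hη
  obtain ⟨N, hN⟩ := h k
  have hc : CauchySeq fun n => φ (n + N) (d k) :=
    cauchySeq_of_le_geometric (1 / 2 : ℝ) ((1 / 2 : ℝ) ^ N) (by norm_num) fun n => by
      rw [← pow_add, add_right_comm n 1 N, add_comm N n]
      exact hN (n + N) (Nat.le_add_left N n)
  rw [cauchySeq_shift (u := fun n => φ n (d k))] at hc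
  obtain ⟨M, hM⟩ := Metric.cauchySeq_iff.1 hc (ε / 3) (by linarith)
  refine ⟨M, fun p hp q hq => ?_⟩
  have h1 : ∀ n, dist (φ n a) (φ n (d k)) ≤ ε / 4 := fun n => by
    refine (hφ n a (d k)).trans ?_
    rcases le_or_gt 0 C with hC | hC
    · exact (mul_le_mul_of_nonneg_left hk.le hC).trans hCη.1
    · nlinarith [dist_nonneg (x := a) (y := d k)]
  calc dist (φ p a) (φ q a)
      ≤ dist (φ p a) (φ p (d k)) + dist (φ p (d k)) (φ q (d k)) + dist (φ q (d k)) (φ q a) :=
        dist_triangle4 _ _ _ _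
    _ < ε := by
        rw [dist_comm (φ q (d k))]
        linarith [h1 p, h1 q, hM p hp q hq]

/-- The stages of the intertwining: unitaries `W n` with steps `v n`, and finite sets of `A`. -/
structure Stages {G : Type*} [Group G] (β : G →* (R ≃⋆ₐ[ℂ] R)) (j : A →⋆ₙₐ[ℂ] R)
    (aseq : ℕ → A) (xseq : ℕ → R) (gseq : ℕ → G) where
  W : ℕ → Unitization ℂ R
  v : ℕ → Unitization ℂ R
  F : ℕ → Finset A
  hWu : ∀ n, W n ∈ unitary (Unitization ℂ R)
  hvu : ∀ n, v n ∈ unitary (Unitization ℂ R)
  hW : ∀ n, W (n + 1) = W n * v n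
  hmono : Monotone F
  ha : ∀ n k, k ≤ n → aseq k ∈ F n
  hV : ∀ n, ∀ a ∈ F n, ‖v n * (j a : Unitization ℂ R) - (j a : Unitization ℂ R) * v n‖ ≤ (1 / 2 : ℝ) ^ n
  hC : ∀ n k, k ≤ n → ∃ c ∈ F (n + 1),
    ‖star (v n) * (star (W n) * (xseq k : Unitization ℂ R) * W n) * v n -
      (j c : Unitization ℂ R)‖ ≤ (1 / 2 : ℝ) ^ n
  hL : ∀ n i k, i ≤ n → k ≤ n →
    ‖star (xseq k : Unitization ℂ R) * extAction β (gseq i) (W n) *
      (extAction β (gseq i) (v n) - v n)‖ ≤ (1 / 2 : ℝ) ^ n
  hR : ∀ n i k, i ≤ n → k ≤ n →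
    ‖(xseq k : Unitization ℂ R) * W n * (extAction β (gseq i) (v n) - v n)‖ ≤ (1 / 2 : ℝ) ^ n

theorem exists_stages {G : Type*} [Group G] (β : G →* (R ≃⋆ₐ[ℂ] R)) (j : A →⋆ₙₐ[ℂ] R)
    (aseq : ℕ → A) (xseq : ℕ → R) (gseq : ℕ → G) (hf : HasFlips j β) :
    Nonempty (Stages β j aseq xseq gseq) := by
  classical
  have h' : ∀ (n : ℕ) (F : Finset A) (X : Finset R), ∃ (v : unitary (Unitization ℂ R)) (c : R → A),
      (∀ a ∈ F, ‖(v : Unitization ℂ R) * (j a : Unitization ℂ R) -
        (j a : Unitization ℂ R) * v‖ ≤ (1 / 2 : ℝ) ^ n) ∧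
      (∀ g ∈ (Finset.range (n + 1)).image gseq, ∀ x ∈ X,
        ‖(x : Unitization ℂ R) * (extAction β g v - v)‖ ≤ (1 / 2 : ℝ) ^ n) ∧
      ∀ x ∈ X, ‖star (v : Unitization ℂ R) * (x : Unitization ℂ R) * v -
        (j (c x) : Unitization ℂ R)‖ ≤ (1 / 2 : ℝ) ^ n := by
    intro n F X
    obtain ⟨v, hv, hF, hS, hX⟩ := hf F X ((Finset.range (n + 1)).image gseq) ((1 / 2 : ℝ) ^ n)
      (by positivity)
    choose! c hc using hX
    exact ⟨⟨v, hv⟩, c, hF, fun g hg x hx => (hS g hg x hx).2, hc⟩
  choose V C hV hVS hC using h'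
  let ι : R → Unitization ℂ R := fun y => (y : Unitization ℂ R)
  let XX : ℕ → unitary (Unitization ℂ R) → Finset R := fun n W =>
    ((Finset.range (n + 1)).image fun k => (star (W : Unitization ℂ R) * ι (xseq k) * W).snd) ∪
    ((Finset.range (n + 1)).image fun k => (ι (xseq k) * W).snd) ∪
    (((Finset.range (n + 1)).image gseq ×ˢ Finset.range (n + 1)).image fun p =>
      (star (ι (xseq p.2)) * extAction β p.1 W).snd)
  let FF : ℕ → Finset A → Finset A := fun n S => S ∪ (Finset.range (n + 1)).image aseq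
  let st : ℕ → unitary (Unitization ℂ R) × Finset A := fun n => Nat.rec (1, ∅)
    (fun n p => (p.1 * V n (FF n p.2) (XX n p.1),
      FF n p.2 ∪ (XX n p.1).image (C n (FF n p.2) (XX n p.1)))) n
  let F : ℕ → Finset A := fun n => FF n (st n).2
  let X : ℕ → Finset R := fun n => XX n (st n).1
  have hFS : ∀ n, (st (n + 1)).2 = F n ∪ (X n).image (C n (F n) (X n)) := fun n => rfl
  refine ⟨⟨fun n => (st n).1, fun n => V n (F n) (X n), F, fun n => (st n).1.2,
    fun n => (V n (F n) (X n)).2, fun n => rfl, monotone_nat_of_le_succ fun n a ha =>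
      Finset.mem_union_left _ (by rw [hFS]; exact Finset.mem_union_left _ ha),
    fun n k hk => Finset.mem_union_right _ (Finset.mem_image.2 ⟨k, by simp; omega, rfl⟩),
    fun n a ha => hV n (F n) (X n) a ha, fun n k hk => ?_, fun n i k hi hk => ?_,
    fun n i k hi hk => ?_⟩⟩
  · have hy : (star ((st n).1 : Unitization ℂ R) * ι (xseq k) * (st n).1).snd ∈ X n :=
      Finset.mem_union_left _ (Finset.mem_union_left _
        (Finset.mem_image.2 ⟨k, by simp; omega, rfl⟩))
    refine ⟨_, Finset.mem_union_left _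
      (by rw [hFS]; exact Finset.mem_union_right _ (Finset.mem_image.2 ⟨_, hy, rfl⟩)), ?_⟩
    refine le_of_eq_of_le ?_ (hC n (F n) (X n) _ hy)
    rw [inr_snd_of_fst (by simp [ι, Unitization.fst_mul])]
  · have hx : (star (ι (xseq k)) * extAction β (gseq i) ((st n).1 : Unitization ℂ R)).snd ∈ X n :=
      Finset.mem_union_right _ (Finset.mem_image.2 ⟨(gseq i, k),
        Finset.mem_product.2 ⟨Finset.mem_image.2 ⟨i, by simp; omega, rfl⟩, by simp; omega⟩, rfl⟩)
    refine le_of_eq_of_le ?_ (hVS n (F n) (X n) _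
      (Finset.mem_image.2 ⟨i, by simp; omega, rfl⟩) _ hx)
    rw [inr_snd_of_fst (by simp [ι, Unitization.fst_mul])]
  · have hx : (ι (xseq k) * ((st n).1 : Unitization ℂ R)).snd ∈ X n :=
      Finset.mem_union_left _ (Finset.mem_union_right _
        (Finset.mem_image.2 ⟨k, by simp; omega, rfl⟩))
    refine le_of_eq_of_le ?_ (hVS n (F n) (X n) _
      (Finset.mem_image.2 ⟨i, by simp; omega, rfl⟩) _ hx)
    rw [inr_snd_of_fst (by simp [ι, Unitization.fst_mul])]

/-- The conjugates of `j` by the stages converge to an isomorphism. -/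
theorem exists_iso {G : Type*} [Group G] {β : G →* (R ≃⋆ₐ[ℂ] R)} {j : A →⋆ₙₐ[ℂ] R}
    (hj : Function.Injective j) {aseq : ℕ → A} {xseq : ℕ → R} {gseq : ℕ → G}
    (haseq : DenseRange aseq) (hxseq : DenseRange xseq) (T : Stages β j aseq xseq gseq) :
    ∃ Φ : A ≃⋆ₐ[ℂ] R, ∀ a, Tendsto
      (fun n => T.W n * (j a : Unitization ℂ R) * star (T.W n)) atTop
      (𝓝 ((Φ a : R) : Unitization ℂ R)) := by
  obtain ⟨W, v, F, hWu, hvu, hW, hmono, ha, hV, hC, -, -⟩ := T
  let ι : R → Unitization ℂ R := fun y => (y : Unitization ℂ R)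
  -- the isomorphism
  let φ : ℕ → A → Unitization ℂ R := fun n a => W n * ι (j a) * star (W n)
  have hnorm : ∀ n a b, dist (φ n a) (φ n b) = dist a b := fun n a b => by
    simp only [φ, dist_eq_norm, ← sub_mul, ← mul_sub, ι, ← Unitization.inr_sub, ← map_sub]
    rw [CStarRing.norm_mul_mem_unitary _ (Unitary.star_mem (hWu n)),
      CStarRing.norm_mem_unitary_mul _ (hWu n), Unitization.norm_inr,
      NonUnitalStarAlgHom.norm_map j hj]
  have hstep : ∀ n, ∀ a ∈ F n, dist (φ n a) (φ (n + 1) a) ≤ (1 / 2 : ℝ) ^ n := by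
    intro n a ha
    have e : φ (n + 1) a - φ n a =
        W n * ((v n * ι (j a) - ι (j a) * v n) * star (v n)) * star (W n) := by
      simp only [φ, hW, star_mul, sub_mul, mul_sub, mul_assoc]
      rw [← mul_assoc (v n) (star (v n)), Unitary.mul_star_self_of_mem (hvu n), one_mul]
    rw [dist_comm, dist_eq_norm, e,
      CStarRing.norm_mul_mem_unitary _ (Unitary.star_mem (hWu n)),
      CStarRing.norm_mem_unitary_mul _ (hWu n),
      CStarRing.norm_mul_mem_unitary _ (Unitary.star_mem (hvu n))]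
    exact hV n a ha
  have hcauchy : ∀ a, CauchySeq fun n => φ n a :=
    cauchySeq_of_dense φ 1 (fun n a b => by rw [one_mul, hnorm]) aseq haseq fun k => ⟨k, fun n hn =>
      hstep n _ (ha n k hn)⟩
  choose L hL using fun a => cauchySeq_tendsto_of_complete (hcauchy a)
  have hL0 : ∀ a, (L a).fst = 0 := fun a =>
    tendsto_nhds_unique ((continuous_fst'.tendsto _).comp (hL a))
      (tendsto_const_nhds.congr fun n => by simp [φ, ι, Unitization.fst_mul])
  have hLφ : ∀ a, Tendsto (fun n => φ n a) atTop (𝓝 (ι (L a).snd)) := fun a => by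
    rw [show ι (L a).snd = L a from inr_snd_of_fst (hL0 a)]; exact hL a
  have hww : ∀ n, star (W n) * W n = 1 := fun n => Unitary.star_mul_self_of_mem (hWu n)
  have hinj : Function.Injective ι := Unitization.inr_injective
  let Φ : A →⋆ₙₐ[ℂ] R :=
    { toFun := fun a => (L a).snd
      map_smul' := fun c a => hinj (tendsto_nhds_unique (hLφ (c • a)) (by
        simpa [φ, ι, mul_smul_comm, smul_mul_assoc] using (hLφ a).const_smul c))
      map_zero' := hinj (tendsto_nhds_unique (hLφ 0) (by simp [φ, ι]))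
      map_add' := fun a b => hinj (tendsto_nhds_unique (hLφ (a + b)) (by
        simpa [φ, ι, mul_add, add_mul] using (hLφ a).add (hLφ b)))
      map_mul' := fun a b => hinj (by
        show ι (L (a * b)).snd = ι ((L a).snd * (L b).snd)
        rw [show ι ((L a).snd * (L b).snd) = ι (L a).snd * ι (L b).snd from
          Unitization.inr_mul _ _ _]
        refine tendsto_nhds_unique (hLφ (a * b)) (((hLφ a).mul (hLφ b)).congr fun n => ?_)
        simp only [φ, ι, map_mul, Unitization.inr_mul, mul_assoc]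
        rw [← mul_assoc (star (W n)) (W n), hww, one_mul])
      map_star' := fun a => hinj (by
        show ι (L (star a)).snd = ι (star (L a).snd)
        rw [show ι (star (L a).snd) = star (ι (L a).snd) from Unitization.inr_star _]
        refine tendsto_nhds_unique (hLφ (star a)) ((hLφ a).star.congr fun n => ?_)
        simp [φ, ι, mul_assoc, map_star, Unitization.inr_star]) }
  have hiso : Isometry Φ := Isometry.of_dist_eq fun a b => by
    rw [← (isometry_inr' (R := R)).dist_eq]
    exact tendsto_nhds_unique ((hLφ a).dist (hLφ b)) (by simp [hnorm])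
  have hsurj : Function.Surjective Φ := by
    have hcl : IsClosed (Set.range Φ) := hiso.isClosedEmbedding.isClosed_range
    intro x
    refine hcl.closure_subset_iff.2 ?_ (hxseq x)
    rintro _ ⟨k, rfl⟩
    rw [← hcl.closure_eq, Metric.mem_closure_iff]
    intro ε hε
    obtain ⟨n, hn, hkn⟩ : ∃ n, 3 * (1 / 2 : ℝ) ^ n < ε ∧ k ≤ n := by
      obtain ⟨n, hn⟩ := exists_pow_lt_of_lt_one (by linarith : (0 : ℝ) < ε / 3)
        (by norm_num : (1 / 2 : ℝ) < 1)
      refine ⟨max n k, ?_, le_max_right _ _⟩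
      have := pow_le_pow_of_le_one (by norm_num : (0 : ℝ) ≤ 1 / 2) (by norm_num) (le_max_left n k)
      linarith
    obtain ⟨c, hcF, hcb⟩ := hC n k hkn
    refine ⟨Φ c, ⟨c, rfl⟩, ?_⟩
    have h1 : dist (ι (xseq k)) (φ (n + 1) c) ≤ (1 / 2 : ℝ) ^ n := by
      refine le_of_eq_of_le ?_ hcb
      have hu : W (n + 1) * star (W (n + 1)) = 1 := Unitary.mul_star_self_of_mem (hWu _)
      have e : ι (xseq k) - φ (n + 1) c =
          W (n + 1) * (star (v n) * (star (W n) * ι (xseq k) * W n) * v n - ι (j c)) *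
            star (W (n + 1)) := by
        rw [mul_sub, sub_mul]
        congr 1
        calc ι (xseq k) = (W (n + 1) * star (W (n + 1))) * ι (xseq k) *
              (W (n + 1) * star (W (n + 1))) := by rw [hu, one_mul, mul_one]
          _ = _ := by simp only [hW, star_mul, mul_assoc]
      rw [dist_eq_norm, e, CStarRing.norm_mul_mem_unitary _ (Unitary.star_mem (hWu _)),
        CStarRing.norm_mem_unitary_mul _ (hWu _)]
    have h2 : dist (φ (n + 1) c) (L c) ≤ 2 * (1 / 2 : ℝ) ^ (n + 1) := by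
      have hgeo : ∀ i, dist (φ (i + (n + 1)) c) (φ (i + 1 + (n + 1)) c) ≤
          (1 / 2 : ℝ) ^ (n + 1) * (1 / 2 : ℝ) ^ i := fun i => by
        rw [← pow_add, add_right_comm i 1 (n + 1), add_comm (n + 1) i]
        exact hstep _ _ (hmono (Nat.le_add_left _ _) hcF)
      have := dist_le_of_le_geometric_of_tendsto _ _ (by norm_num) hgeo
        ((tendsto_add_atTop_iff_nat (n + 1)).2 (hL c)) 0
      simp only [Nat.zero_add, pow_zero, mul_one] at this
      refine this.trans (le_of_eq ?_)
      ring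
    rw [← (isometry_inr' (R := R)).dist_eq]
    show dist (ι (xseq k)) (ι (L c).snd) < ε
    rw [show ι (L c).snd = L c from inr_snd_of_fst (hL0 c)]
    calc dist (ι (xseq k)) (L c) ≤ dist (ι (xseq k)) (φ (n + 1) c) + dist (φ (n + 1) c) (L c) :=
          dist_triangle _ _ _
      _ < ε := by rw [pow_succ] at h2; nlinarith [pow_pos (by norm_num : (0 : ℝ) < 1 / 2) n]
  exact ⟨StarAlgEquiv.ofBijective Φ ⟨hiso.injective, hsurj⟩, hLφ⟩

/-- The products `W n * β g (W n)*` converge strictly to a cocycle. -/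
theorem exists_cocycle {G : Type*} [Group G] {β : G →* (R ≃⋆ₐ[ℂ] R)} {j : A →⋆ₙₐ[ℂ] R}
    {aseq : ℕ → A} {xseq : ℕ → R} {gseq : ℕ → G} (hxseq : DenseRange xseq)
    (hgseq : Function.Surjective gseq) (T : Stages β j aseq xseq gseq) :
    ∃ u : G → DoubleCentralizer ℂ R,
      ∀ g, StrictTends (fun n => T.W n * extAction β g (star (T.W n))) (u g) := by
  obtain ⟨W, v, F, hWu, hvu, hW, -, -, -, -, hL, hR⟩ := T
  let ι : R → Unitization ℂ R := fun y => (y : Unitization ℂ R)
  let E : G → Unitization ℂ R → Unitization ℂ R := fun g z => extAction β g z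
  have hEu : ∀ g z, z ∈ unitary (Unitization ℂ R) → E g z ∈ unitary (Unitization ℂ R) :=
    fun g z hz => Unitary.map_mem (extAction β g) hz
  -- the cocycle
  let U : ℕ → G → Unitization ℂ R := fun n g => W n * E g (star (W n))
  have hUu : ∀ n g, U n g ∈ unitary (Unitization ℂ R) := fun n g =>
    mul_mem (hWu n) (hEu g _ (Unitary.star_mem (hWu n)))
  have hdiff : ∀ n g, U (n + 1) g - U n g =
      W n * v n * (E g (star (v n)) - star (v n)) * E g (star (W n)) := fun n g => by
    simp only [U, hW, E, star_mul, map_mul, mul_sub, sub_mul, mul_assoc]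
    rw [← mul_assoc (v n) (star (v n)), Unitary.mul_star_self_of_mem (hvu n), one_mul]
  have hleft : ∀ g (y : R), CauchySeq fun n => U n g * ι y := fun g =>
    cauchySeq_of_dense (fun n y => U n g * ι y) 1 (fun n a b => by
      rw [one_mul, dist_eq_norm, dist_eq_norm, ← mul_sub,
        CStarRing.norm_mem_unitary_mul _ (hUu n g)]
      simp only [ι, ← Unitization.inr_sub, Unitization.norm_inr, le_refl]) xseq hxseq fun k => by
    obtain ⟨i, hi⟩ := hgseq g
    refine ⟨max i k, fun n hn => ?_⟩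
    refine le_of_eq_of_le ?_ (hi ▸ hL n i k (le_trans (le_max_left _ _) hn)
      (le_trans (le_max_right _ _) hn))
    rw [dist_comm, dist_eq_norm, ← sub_mul, hdiff]
    simp only [mul_assoc (W n), mul_assoc (v n)]
    rw [CStarRing.norm_mem_unitary_mul _ (hWu n), CStarRing.norm_mem_unitary_mul _ (hvu n)]
    rw [← norm_star]
    simp [E, ι, map_star, mul_assoc]
  have hright : ∀ g (y : R), CauchySeq fun n => ι y * U n g := fun g =>
    cauchySeq_of_dense (fun n y => ι y * U n g) 1 (fun n a b => by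
      rw [one_mul, dist_eq_norm, dist_eq_norm, ← sub_mul,
        CStarRing.norm_mul_mem_unitary _ (hUu n g)]
      simp only [ι, ← Unitization.inr_sub, Unitization.norm_inr, le_refl]) xseq hxseq fun k => by
    obtain ⟨i, hi⟩ := hgseq g
    refine ⟨max i k, fun n hn => ?_⟩
    have e : v n * (E g (star (v n)) - star (v n)) =
        (v n - E g (v n)) * E g (star (v n)) := by
      rw [mul_sub, sub_mul, Unitary.mul_star_self_of_mem (hvu n)]
      congr 1
      show (1 : Unitization ℂ R) = extAction β g (v n) * extAction β g (star (v n))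
      rw [← map_mul, Unitary.mul_star_self_of_mem (hvu n), map_one]
    refine le_of_eq_of_le ?_ (hi ▸ hR n i k (le_trans (le_max_left _ _) hn)
      (le_trans (le_max_right _ _) hn))
    rw [dist_comm, dist_eq_norm, ← mul_sub, hdiff, mul_assoc (W n) (v n), e]
    simp only [← mul_assoc]
    rw [CStarRing.norm_mul_mem_unitary _ (hEu g _ (Unitary.star_mem (hWu n))),
      CStarRing.norm_mul_mem_unitary _ (hEu g _ (Unitary.star_mem (hvu n))),
      ← norm_neg, ← mul_neg, neg_sub]
  choose u hu using fun g => StrictTends.exists_of_cauchy (f := fun n => U n g) 1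
    (fun n => by
      simpa using le_of_eq (CStarRing.norm_coe_unitary ⟨U n g, hUu n g⟩)) (hleft g) (hright g)
  exact ⟨u, hu⟩

/-- Equivariant one-sided intertwining in the unitization. -/
theorem cocConj_of_flips [TopologicalSpace.SeparableSpace A] [TopologicalSpace.SeparableSpace R]
    {G : Type*} [Group G] [Countable G] (α : G →* (A ≃⋆ₐ[ℂ] A)) (β : G →* (R ≃⋆ₐ[ℂ] R))
    (j : A →⋆ₙₐ[ℂ] R) (hj : Function.Injective j) (hβ : ∀ g a, β g (j a) = j (α g a))
    (hf : HasFlips j β) : CocConj α β := by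
  obtain ⟨gseq, hgseq⟩ := exists_surjective_nat G
  obtain ⟨aseq, haseq⟩ := TopologicalSpace.exists_dense_seq A
  obtain ⟨xseq, hxseq⟩ := TopologicalSpace.exists_dense_seq R
  obtain ⟨T⟩ := exists_stages β j aseq xseq gseq hf
  obtain ⟨Φ, hLφ⟩ := exists_iso hj haseq hxseq T
  obtain ⟨u, hu⟩ := exists_cocycle hxseq hgseq T
  let W := T.W
  have hWu : ∀ n, W n ∈ unitary (Unitization ℂ R) := T.hWu
  let E : G → Unitization ℂ R → Unitization ℂ R := fun g z => extAction β g z
  let ι : R → Unitization ℂ R := fun y => (y : Unitization ℂ R)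
  let φ : ℕ → A → Unitization ℂ R := fun n a => W n * ι (j a) * star (W n)
  let U : ℕ → G → Unitization ℂ R := fun n g => W n * E g (star (W n))
  have hww : ∀ n, star (W n) * W n = 1 := fun n => Unitary.star_mul_self_of_mem (hWu n)
  have hUu : ∀ n g, U n g ∈ unitary (Unitization ℂ R) := fun n g =>
    mul_mem (hWu n) (Unitary.map_mem (extAction β g) (Unitary.star_mem (hWu n)))
  have hUmul : ∀ n g g', U n (g * g') = U n g * E g (U n g') := fun n g g' => by
    simp only [U, E, map_mul, StarAlgEquiv.mul_apply]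
    rw [mul_assoc, ← mul_assoc (extAction β g (star (W n))), ← map_mul, hww, map_one, one_mul]
  refine ⟨Φ, u, fun g => ⟨?_, ?_⟩,
    fun g g' => ?_, fun g a => ?_⟩
  · exact ((hu g).star.mul (hu g)).unique
      (StrictTends.one.congr fun n => (Unitary.star_mul_self_of_mem (hUu n g)).symm)
  · exact ((hu g).mul (hu g).star).unique
      (StrictTends.one.congr fun n => (Unitary.mul_star_self_of_mem (hUu n g)).symm)
  · exact (hu (g * g')).unique
      (((hu g).mul ((hu g').map β g)).congr fun n => (hUmul n g g').symm)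
  · have hc : Continuous (extAction β g) := AddMonoidHomClass.continuous_of_bound (extAction β g) 1
      fun x => by rw [one_mul]; exact NonUnitalStarAlgHom.norm_apply_le (extAction β g) x
    have h2 : Tendsto (fun n => E g (φ n a)) atTop (𝓝 (ι (β g (Φ a)))) := by
      have := (hc.tendsto _).comp (hLφ a)
      rwa [show extAction β g (ι (Φ a)) = ι (β g (Φ a)) from extAction_inr β g _] at this
    refine (StrictTends.of_tendsto (hLφ (α g a))).unique
      ((((hu g).mul (StrictTends.of_tendsto h2)).mul (hu g).star).congr fun n => ?_)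
    simp only [φ, E, ι, map_mul, star_mul, map_star, star_star, extAction_inr, hβ]
    have h1 : star (extAction β g (W n)) * extAction β g (W n) = 1 := by
      rw [← map_star, ← map_mul, hww, map_one]
    simp only [mul_assoc]
    rw [← mul_assoc (star (extAction β g (W n))) (extAction β g (W n)), h1, one_mul,
      ← mul_assoc (star (extAction β g (W n))) (extAction β g (W n)), h1, one_mul]

/-- The statement `IntertwineNUStmt`. -/
theorem intertwineNU : IntertwineNUStmt := fun _ _ _ _ _ _ _ _ _ α β j hj hβ hf =>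
  cocConj_of_flips α β j hj hβ hf

end

end Vale.P095.NU
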