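import Vale.Agent.P095.NU.Pins
import Vale.Agent.P095.Lossy.Pedersen
import Vale.Agent.P095.Lossy.Main
import Vale.Agent.P095.Lossy.Mat
import Vale.Agent.P095.Lossy.Pull
import Vale.Agent.P095.SI.NU.Instances

/-!
# P095: large weights put the plateau below copies

In the cut algebra of `G 4` large weights give a Cuntz–Pedersen decomposition of `δ G₂²` below
`y + η`. Simplicity turns `η` into a conjugate of `y`, so the decomposition moves into `√y A`, and
matrices turn it into copies of `G₁²` below copies of `y`.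
-/

open scoped Kronecker Matrix.Norms.L2Operator ENNReal

namespace Vale.P095.NU

open Vale.P101 Vale.P101.ZS Vale.P095.Nonunital Vale.P095.SI Vale.P095.Lossy Vale.P095.Tracial
open Unitization

noncomputable section

attribute [local instance] CStarAlgebra.spectralOrder CStarAlgebra.spectralOrderedRing

section Gram

variable {C : Type} [CStarAlgebra C]

/-- Copies from an almost exact decomposition of `δ g²` inside `s C`. -/
theorem copies_of_family (hM : Lossy.MatStmt) (hC : Vale.P095.SI.HasCPAP C) {δ : ℝ} (hδ : 0 < δ)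
    {q : ℕ} (hq0 : 0 < q) (hq : 16384 * (2 / δ) ≤ q) {f g s : C} (hf : IsSelfAdjoint f)
    (hg : IsSelfAdjoint g) (hfg : g * f = f) (hg1 : ‖g‖ ≤ 1) (hs : IsSelfAdjoint s) {m : ℕ}
    (z : Fin m → C) {η : ℝ} (hη : η * 48 ≤ δ)
    (h1 : ‖(∑ i, star (s * z i) * (s * z i)) - δ • (g * g)‖ ≤ η)
    (h2 : ‖∑ i, (s * z i) * star (s * z i)‖ ≤ 2) :
    ∃ D d : ℕ, 0 < D ∧ D ≤ 2 * d ∧ CopiesLE d (f * f) (q * D) (s * s) := by
  have hη0 : 0 ≤ η := (norm_nonneg _).trans h1
  set t : ℝ := (δ + η)⁻¹ with htdef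
  have ht : 0 < t := by positivity
  set lam : ℝ := √t
  have hl : lam * lam = t := Real.mul_self_sqrt ht.le
  set x : Fin m → C := fun i => s * (lam • z i) with hx
  have hxx : ∑ i, star (x i) * x i = t • ∑ i, star (s * z i) * (s * z i) := by
    simp only [hx, mul_smul_comm, star_smul, star_trivial, smul_mul_assoc, smul_smul, hl, ← Finset.smul_sum]
  have hxx' : ∑ i, x i * star (x i) = t • ∑ i, (s * z i) * star (s * z i) := by
    simp only [hx, mul_smul_comm, star_smul, star_trivial, smul_mul_assoc, smul_smul, hl, ← Finset.smul_sum]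
  set S := ∑ i, star (s * z i) * (s * z i) with hS
  have hgg : ‖g * g‖ ≤ 1 := (norm_mul_le _ _).trans (mul_le_one₀ hg1 (norm_nonneg _) hg1)
  have htη : t * η ≤ 1 / 48 := by
    rw [htdef, inv_mul_le_iff₀ (by positivity)]
    linarith
  have hx1 : ‖∑ i, star (x i) * x i‖ ≤ 1 := by
    rw [hxx, norm_smul, Real.norm_of_nonneg ht.le, htdef, inv_mul_le_iff₀ (by positivity)]
    have := norm_le_insert' S (δ • (g * g))
    rw [norm_smul, Real.norm_of_nonneg hδ.le] at this
    nlinarith
  have hx2 : ‖∑ i, x i * star (x i)‖ ≤ 2 / δ := by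
    rw [hxx', norm_smul, Real.norm_of_nonneg ht.le, htdef, inv_mul_le_iff₀ (by positivity)]
    refine h2.trans ?_
    rw [← mul_div_assoc, le_div_iff₀ hδ]
    nlinarith
  have hxg : ‖(∑ i, star (x i) * x i) - g * g‖ ≤ 1 / 24 := by
    have h3 : t * (δ + η) = 1 := inv_mul_cancel₀ (by positivity)
    rw [hxx, show t • S - g * g = t • (S - δ • (g * g)) - (t * η) • (g * g) by
      rw [smul_sub, smul_smul, show t * δ = 1 - t * η by linarith, sub_smul, one_smul]; abel]
    refine (norm_sub_le _ _).trans ?_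
    rw [norm_smul, norm_smul, Real.norm_of_nonneg ht.le, Real.norm_of_nonneg (by positivity)]
    have := mul_le_mul_of_nonneg_left h1 ht.le
    have := mul_le_mul_of_nonneg_left hgg (mul_nonneg ht.le hη0)
    linarith
  have hqR : (0 : ℝ) < q := by exact_mod_cast hq0
  obtain ⟨D, d, G, hD, hd, hG⟩ := pull hM C hC m x (2 / δ) 1 q one_pos hq0 (by positivity)
    (by push_cast; linarith [show (0 : ℝ) < 2 / δ by positivity]) hx1 hx2 (1 / 20) (by norm_num)
  refine ⟨D, d, hD, by simpa using hd, ?_⟩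
  refine copiesLE_of_gram (colMat G x) (a' := s) (p := 1)
    (fun r u => ⟨∑ i, G i r u • (lam • z i), by simp [colMat, hx, Finset.mul_sum]⟩)
    (by rw [star_one, one_mul, mul_one, hs.star_eq]) fun ε hε => ?_
  set T := gram (colMat G x) with hT
  have hsq : 8 * √((2 / δ) * (1 : ℕ) / q) ≤ 1 / 16 := by
    have h4 : (2 / δ) * ((1 : ℕ) : ℝ) / q ≤ (1 / 128) ^ 2 := by
      rw [Nat.cast_one, mul_one, div_le_iff₀ hqR]
      linarith
    linarith [(Real.sqrt_le_sqrt h4).trans_eq (Real.sqrt_sq (by norm_num : (0 : ℝ) ≤ 1 / 128))]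
  have hnear : ‖T - dgHom d (g * g)‖ ≤ 1 / 4 := by
    calc ‖T - dgHom d (g * g)‖ = ‖pulled G x + dgHom d ((∑ i, star (x i) * x i) - g * g)‖ := by
          rw [← gram_sub, map_sub, ← dgHom_apply, ← hT]; congr 1; abel
      _ ≤ _ := (norm_add_le _ _).trans (add_le_add hG
          ((NonUnitalStarAlgHom.norm_apply_le _ _).trans hxg))
      _ ≤ 1 / 4 := by linarith
  have hlow : dgHom d (g * g) - algebraMap ℝ (CStarMatrix (Fin d) (Fin d) C) (1 / 4) ≤ T := by
    have h5 := ((isSelfAdjoint_gram (colMat G x)).sub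
      ((hg.commute_iff hg).1 rfl |>.map (dgHom d))).neg_algebraMap_norm_le_self
    have h6 := algebraMap_mono (CStarMatrix (Fin d) (Fin d) C) hnear
    exact sub_le_iff_le_add'.2 (by
      have := (neg_le_neg h6).trans h5
      rwa [neg_le_sub_iff_le_add'] at this)
  have hff : (0 : C) ≤ f * f := hf.mul_self_nonneg
  refine exists_conj_le (u := dgHom d f) (c := 3 / 4) (by norm_num) ?_ ?_ hε
  · rw [← dgHom_apply]
    exact map_nonneg (dgHom d) hff
  · rw [← map_star, hf.star_eq, ← dgHom_apply]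
    refine le_trans (le_of_eq ?_) ((hf.map (dgHom d)).conjugate_le_conjugate hlow)
    have hgf : f * g = f := by
      have := congrArg star hfg
      rwa [star_mul, hf.star_eq, hg.star_eq] at this
    have e : f * (g * g) * f = f * f := by
      rw [← mul_assoc, hgf, mul_assoc, hfg]
    have e' : algebraMap ℝ (CStarMatrix (Fin d) (Fin d) C) (1 / 4) =
        algebraMap ℂ (CStarMatrix (Fin d) (Fin d) C) (((1 / 4 : ℝ)) : ℂ) := by
      ext i j
      rw [CStarMatrix.algebraMap_apply, CStarMatrix.algebraMap_apply]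
      simp only [Algebra.algebraMap_eq_smul_one, Complex.coe_smul]
    rw [mul_sub, sub_mul, ← map_mul, ← map_mul, e, e', ← Algebra.commutes, mul_assoc, ← map_mul,
      ← Algebra.smul_def, Complex.coe_smul]
    module

/-- A decomposition from traces, pushed forward by a homomorphism. -/
theorem cp_push {B : Type*} [CStarAlgebra B] (ι : C →⋆ₐ[ℂ] B) {a b : C} (ha : star a = a)
    (hb : star b = b) {δ : ℝ} (hδ : 0 < δ)
    (h : ∀ σ : TracialState C, δ * (σ.toLin (a * a)).re ≤ (σ.toLin (b * b)).re) {η : ℝ}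
    (hη : 0 < η) : ∃ (m : ℕ) (x : Fin m → C),
      ‖(∑ i, star (ι (x i)) * ι (x i)) - δ • (ι a * ι a)‖ ≤ η ∧
      ∑ i, ι (x i) * star (ι (x i)) ≤ ι b * ι b + η • (1 : B) := by
  have ha0 : 0 ≤ a * a := by have := star_mul_self_nonneg a; rwa [ha] at this
  have hb0 : 0 ≤ b * b := by have := star_mul_self_nonneg b; rwa [hb] at this
  obtain ⟨m, x, h1, h2⟩ := Pedersen.cp_of_traces (smul_nonneg hδ.le ha0) hb0 (fun σ => by
    rw [LinearMap.map_smul_of_tower, Complex.smul_re, smul_eq_mul]; exact h σ) η hη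
  have hsm : ∀ (r : ℝ) (c : C), ι (r • c) = r • ι c := fun r c => by
    rw [← Complex.coe_smul, map_smul, Complex.coe_smul]
  refine ⟨m, x, ?_, ?_⟩
  · refine le_trans (le_of_eq ?_) ((NonUnitalStarAlgHom.norm_apply_le ι _).trans h1)
    simp only [map_sub, map_sum, map_mul, map_star, hsm]
  · refine le_trans (le_of_eq ?_) ((OrderHomClass.mono ι h2).trans_eq ?_) <;>
      simp only [map_add, map_sum, map_mul, map_star, map_one, hsm]

end Gram

section Weights

variable {A : Type} [NonUnitalCStarAlgebra A]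

omit [NonUnitalCStarAlgebra A] in
private theorem inr_snd' {x : Unitization ℂ A} (h : x ∈ inrSet A) :
    (inr x.snd : Unitization ℂ A) = x := by
  obtain ⟨a, rfl⟩ := h
  rw [snd_inr]

private theorem mem_mul_left {x : Unitization ℂ A} (b : Unitization ℂ A) (h : x ∈ inrSet A) :
    b * x ∈ inrSet A := by
  obtain ⟨a, rfl⟩ := h
  exact ⟨(b * inr a).snd, Unitization.ext (by simp) (by simp)⟩

private theorem mem_mul_right {x : Unitization ℂ A} (b : Unitization ℂ A) (h : x ∈ inrSet A) :
    x * b ∈ inrSet A := by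
  obtain ⟨a, rfl⟩ := h
  exact ⟨(inr a * b).snd, Unitization.ext (by simp) (by simp)⟩

/-- A multiple of a weight. -/
def mulWeight (τ : TraceWeight A) (r : NNReal) : TraceWeight A where
  toFun x := r * τ.toFun x
  add x y := by rw [τ.add, mul_add]
  smul s x := by rw [τ.smul, mul_left_comm]
  tracial x := by rw [τ.tracial]

/-- The square root stays inside `A`. -/
theorem sqrt_mem {y : Unitization ℂ A} (hy : y ∈ inrSet A) (hy0 : 0 ≤ y) :
    CFC.sqrt y ∈ inrSet A := by
  obtain ⟨y', rfl⟩ := hy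
  exact ⟨cfcₙ Real.sqrt y', by
    rw [Unitization.real_cfcₙ_eq_cfc_inr y' Real.sqrt Real.sqrt_zero, CFC.sqrt_eq_real_sqrt _ hy0,
      cfcₙ_eq_cfc]⟩

/-- A unit for `y` is one for its square root. -/
theorem unit_sqrt {G y : Unitization ℂ A} (hG : IsSelfAdjoint G) (hy0 : 0 ≤ y) (h : G * y = y) :
    G * CFC.sqrt y = CFC.sqrt y ∧ CFC.sqrt y * G = CFC.sqrt y := by
  have hsa : star (CFC.sqrt y) = CFC.sqrt y := (CFC.sqrt_nonneg y).isSelfAdjoint.star_eq
  have h1 : G * CFC.sqrt y = CFC.sqrt y := by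
    rw [← sub_eq_zero, ← CStarRing.mul_star_self_eq_zero_iff, ← sub_one_mul, star_mul, hsa,
      mul_assoc, ← mul_assoc (CFC.sqrt y), CFC.sqrt_mul_sqrt_self y hy0, ← mul_assoc, sub_mul,
      one_mul, h, sub_self, zero_mul]
  exact ⟨h1, by simpa [star_mul, hsa, hG.star_eq] using congrArg star h1⟩

/-- The compression of an algebra with a large trace. -/
theorem cp_cut (hW : WeightExtStmt) {K g s : Unitization ℂ A} (hK : IsSelfAdjoint K)
    (hKm : K ∈ inrSet A) (hg : IsSelfAdjoint g) (hs : IsSelfAdjoint s) (hgm : g ∈ inrSet A)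
    (hsm : s ∈ inrSet A) (hKg : K * g = g) (hKs : K * s = s) {δ : ℝ} (hδ : 0 < δ)
    (h : ∀ τ : TraceWeight A, τ.toFun (g * g).snd ≤ 1 →
      ENNReal.ofReal δ * τ.toFun (g * g).snd ≤ τ.toFun (s * s).snd) {η : ℝ} (hη : 0 < η) :
    ∃ (m : ℕ) (x : Fin m → Unitization ℂ A), (∀ i, FixedBy K (inr (x i).snd)) ∧
      ‖(∑ i, star (x i) * x i) - δ • (g * g)‖ ≤ η ∧
      ∑ i, x i * star (x i) ≤ s * s + η • (1 : Unitization ℂ A) := by
  have fix : ∀ u : Unitization ℂ A, IsSelfAdjoint u → K * u = u → FixedBy K u := fun u hu h => by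
    have h2 : u * K = u := by simpa [star_mul, hu.star_eq, hK.star_eq] using congrArg star h
    exact ⟨h, h2, by rwa [hK.star_eq], by rwa [hK.star_eq]⟩
  let gC : cutAlg K := ⟨g, by
    show FixedBy K (inr g.snd); rw [inr_snd' hgm]; exact fix g hg hKg⟩
  let sC : cutAlg K := ⟨s, by
    show FixedBy K (inr s.snd); rw [inr_snd' hsm]; exact fix s hs hKs⟩
  have hgC : star gC = gC := Subtype.ext hg.star_eq
  have hsC : star sC = sC := Subtype.ext hs.star_eq
  have hσ : ∀ σ : TracialState (cutAlg K),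
      δ * (σ.toLin (gC * gC)).re ≤ (σ.toLin (sC * sC)).re := fun σ => by
    let φ₀ : (Subalgebra.toSubmodule ((cutAlg K).toSubalgebra.restrictScalars ℝ)) →ₗ[ℝ] ℝ :=
      { toFun := fun u => (σ.toLin ⟨u.1, u.2⟩).re
        map_add' := fun u v => by
          rw [← Complex.add_re, ← map_add]; rfl
        map_smul' := fun r u => by
          rw [RingHom.id_apply, smul_eq_mul, ← Complex.re_ofReal_mul, ← smul_eq_mul,
            ← map_smul]
          rfl }
    obtain ⟨φ, hφ⟩ := LinearMap.exists_extend φ₀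
    have hφ' : ∀ u : cutAlg K, φ (u : Unitization ℂ A) = (σ.toLin u).re := fun u =>
      LinearMap.congr_fun hφ ⟨u.1, u.2⟩
    obtain ⟨τ, hτ⟩ := hW A K hK hKm φ 2 fun x hx hfix => by
      let xC : cutAlg K := ⟨x, by show FixedBy K (inr x.snd); rw [inr_snd' hx]; exact hfix⟩
      have e1 : star x * x = ((star xC * xC : cutAlg K) : Unitization ℂ A) := rfl
      have e2 : x * star x = ((xC * star xC : cutAlg K) : Unitization ℂ A) := rfl
      refine ⟨?_, ?_, ?_⟩
      · rw [e1, hφ']; exact (σ.nonneg xC).1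
      · rw [e1, e2, hφ', hφ', σ.tracial]
      · rw [show x = (xC : Unitization ℂ A) from rfl, hφ']
        exact abs_locTr_le σ xC
    have key : ∀ (u : Unitization ℂ A) (hu : u ∈ inrSet A) (hus : star u = u) (hKu : K * u = u),
        τ.toFun (u * u).snd = ENNReal.ofReal (φ (u * u)) := fun u hu hus hKu => by
      have := hτ u.snd (by rw [inr_snd' hu]; exact fix u hus hKu)
      rw [inr_snd' hu, hus] at this
      rw [← this]
      congr 1
      obtain ⟨u', rfl⟩ := hu
      rw [← inr_star, inr_injective.eq_iff] at hus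
      rw [snd_inr, hus, ← inr_mul, snd_inr]
    have hg' : (σ.toLin (gC * gC)).re = φ (g * g) := (hφ' (gC * gC)).symm
    have hs' : (σ.toLin (sC * sC)).re = φ (s * s) := (hφ' (sC * sC)).symm
    have hg0 : 0 ≤ (σ.toLin (gC * gC)).re := by
      have := (σ.nonneg gC).1; rwa [hgC] at this
    have hs0 : 0 ≤ (σ.toLin (sC * sC)).re := by
      have := (σ.nonneg sC).1; rwa [hsC] at this
    rcases hg0.lt_or_eq with hpos | hzero
    · have hr : 0 < φ (g * g) := hg' ▸ hpos
      have h1 := h (mulWeight τ (φ (g * g))⁻¹.toNNReal)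
      simp only [mulWeight, key g hgm hg.star_eq hKg, key s hsm hs.star_eq hKs] at h1
      have e : ((φ (g * g))⁻¹.toNNReal : ℝ≥0∞) * ENNReal.ofReal (φ (g * g)) = 1 := by
        rw [← ENNReal.ofReal, ← ENNReal.ofReal_mul (by positivity), inv_mul_cancel₀ hr.ne',
          ENNReal.ofReal_one]
      rw [e, mul_one, ← ENNReal.ofReal, ← ENNReal.ofReal_mul (by positivity)] at h1
      have h2 := h1 le_rfl
      rw [ENNReal.ofReal_le_ofReal_iff (mul_nonneg (by positivity) (hs' ▸ hs0)),
        ← div_eq_inv_mul, le_div_iff₀ hr] at h2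
      rw [hg', hs']
      exact h2
    · rw [← hzero, mul_zero]
      exact hs0
  obtain ⟨m, x, hx1, hx2⟩ := cp_push (cutAlg K).subtype hgC hsC hδ hσ hη
  exact ⟨m, fun i => x i, fun i => (x i).2, hx1, hx2⟩

/-- Simplicity puts a plateau below conjugates of a nonzero element. -/
theorem below_sum (hA : Vale.P095.SI.NU.IsTopSimple A) {K L y : Unitization ℂ A} (hK : IsSelfAdjoint K)
    (hL : L ∈ inrSet A) (hL0 : IsSelfAdjoint L) (hLK : L * K = K) (hy : y ∈ inrSet A)
    (hy0 : 0 ≤ y) (hne : y ≠ 0) :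
    ∃ (n : ℕ) (b : Fin n → Unitization ℂ A), K * K ≤ ∑ i, star (b i) * y * b i := by
  obtain ⟨-, -, -, -, -, -, -, hsim⟩ := Vale.P095.SI.NU.isSimpleIdeal_inrSet hA
  obtain ⟨n, u, v, -, huv⟩ := hsim y hy hne L hL (1 / 2) (by norm_num)
  set S := ∑ i, u i * y * v i with hS
  have hE : IsSelfAdjoint (S + star S - (2 : ℝ) • L) := by
    simp [IsSelfAdjoint, hL0.star_eq, add_comm]
  have hEn : ‖S + star S - (2 : ℝ) • L‖ ≤ 1 := by
    rw [show S + star S - (2 : ℝ) • L = (S - L) + star (S - L) by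
      rw [star_sub, hL0.star_eq, two_smul]; abel]
    refine (norm_add_le _ _).trans ?_
    rw [norm_star]
    linarith
  have hP : (2 : ℝ) • L ≤ (∑ i, (u i * y * star (u i) + star (v i) * y * v i)) + 1 := by
    have h1 : S + star S ≤ ∑ i, (u i * y * star (u i) + star (v i) * y * v i) := by
      rw [hS, star_sum, ← Finset.sum_add_distrib]
      refine Finset.sum_le_sum fun i _ => sub_nonneg.1 ?_
      have h2 := star_left_conjugate_nonneg hy0 (star (u i) - v i)
      refine h2.trans_eq ?_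
      rw [star_sub, star_star, star_mul, star_mul, hy0.isSelfAdjoint.star_eq]
      noncomm_ring
    have h3 := hE.neg_algebraMap_norm_le_self
    have h4 := (neg_le_neg (algebraMap_mono (Unitization ℂ A) hEn)).trans h3
    rw [map_one, le_sub_iff_add_le] at h4
    calc (2 : ℝ) • L = -1 + (2 : ℝ) • L + 1 := by abel
      _ ≤ S + star S + 1 := by gcongr
      _ ≤ _ := by gcongr
  have h5 := hK.conjugate_le_conjugate hP
  rw [mul_smul_comm, smul_mul_assoc, mul_add, add_mul, mul_one,
    show K * L * K = K * K by rw [mul_assoc, hLK], two_smul, add_le_add_iff_right] at h5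
  refine ⟨n + n, Fin.append (fun i => star (u i) * K) (fun i => v i * K), h5.trans_eq ?_⟩
  rw [Fin.sum_univ_add, Finset.mul_sum, Finset.sum_mul, ← Finset.sum_add_distrib]
  refine Finset.sum_congr rfl fun i _ => ?_
  simp only [Fin.append_left, Fin.append_right, star_mul, star_star, hK.star_eq, mul_assoc,
    mul_add, add_mul]

omit [NonUnitalCStarAlgebra A] in
theorem fst_zero {x : Unitization ℂ A} (h : x ∈ inrSet A) : x.fst = 0 := by
  obtain ⟨a, rfl⟩ := h
  exact fst_inr ℂ a

/-- Cutting by a unit for the `A` parts removes the scalar parts. -/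
theorem gram_cut {K : Unitization ℂ A} (hK : IsSelfAdjoint K) {m : ℕ}
    (x : Fin m → Unitization ℂ A) (hfix : ∀ i, FixedBy K (inr (x i).snd)) (hK1 : ‖K‖ ≤ 1)
    {T : Unitization ℂ A} (hT : T ∈ inrSet A) {η : ℝ}
    (h : ‖(∑ i, star (x i) * x i) - T‖ ≤ η) :
    ‖(∑ i, star (K * x i) * (K * x i)) - T‖ ≤ 3 * η := by
  set c : ℝ := ∑ i, ‖(x i).fst‖ ^ 2 with hc
  have hfst : ((∑ i, star (x i) * x i) - T).fst = (c : ℂ) := by
    let f : Unitization ℂ A →+ ℂ :=
      { toFun := fun u => u.fst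
        map_zero' := rfl
        map_add' := fun u v => rfl }
    show f (_ - T) = _
    rw [map_sub, map_sum]
    show (∑ i, (star (x i) * x i).fst) - T.fst = _
    rw [fst_zero hT, sub_zero, hc, Complex.ofReal_sum]
    refine Finset.sum_congr rfl fun i _ => ?_
    rw [Unitization.fst_mul, Unitization.fst_star]
    push_cast
    rw [← Complex.conj_mul']
    rfl
  have hc0 : 0 ≤ c := Finset.sum_nonneg fun i _ => by positivity
  have hcη : c ≤ η := by
    let χ : Unitization ℂ A →⋆ₐ[ℂ] ℂ :=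
      { toFun := fun u => u.fst
        map_one' := rfl
        map_mul' := fun u v => rfl
        map_zero' := rfl
        map_add' := fun u v => rfl
        commutes' := fun r => by simp [Unitization.algebraMap_eq_inl]
        map_star' := fun u => rfl }
    have h2 : ‖((∑ i, star (x i) * x i) - T).fst‖ ≤ η :=
      (NonUnitalStarAlgHom.norm_apply_le χ _).trans h
    rw [hfst, Complex.norm_real, Real.norm_of_nonneg hc0] at h2
    exact h2
  have hterm : ∀ i, star (K * x i) * (K * x i) - star (x i) * x i =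
      (star (x i).fst * (x i).fst) • (K * K - 1) := by
    intro i
    have hx : x i = (x i).fst • (1 : Unitization ℂ A) + inr (x i).snd :=
      Unitization.ext (by simp) (by simp)
    obtain ⟨f1, f2, -, -⟩ := hfix i
    have f1' : star (inr (x i).snd : Unitization ℂ A) * K = star (inr (x i).snd) := by
      simpa [star_mul, hK.star_eq] using congrArg star f1
    rw [hx]
    simp only [mul_add, add_mul, star_add, star_smul, star_one, hK.star_eq, mul_smul_comm,
      smul_mul_assoc, one_mul, mul_one, f1, f1', smul_smul, smul_sub, smul_add]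
    simp [mul_comm]
  have hKK : ‖K * K - 1‖ ≤ 2 := by
    refine (norm_sub_le _ _).trans ?_
    have := norm_mul_le K K
    have h1 : ‖(1 : Unitization ℂ A)‖ ≤ 1 := CStarRing.norm_one.le
    nlinarith [norm_nonneg K]
  calc _ = ‖((∑ i, star (x i) * x i) - T) +
        ∑ i, (star (x i).fst * (x i).fst) • (K * K - 1)‖ := by
        simp only [← hterm, Finset.sum_sub_distrib]
        congr 1
        abel
    _ ≤ η + ∑ i, ‖(x i).fst‖ ^ 2 * 2 := by
        refine (norm_add_le _ _).trans (add_le_add h ((norm_sum_le _ _).trans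
          (Finset.sum_le_sum fun i _ => ?_)))
        rw [norm_smul, norm_mul, norm_star, ← sq]
        gcongr
    _ ≤ 3 * η := by rw [← Finset.sum_mul, ← hc]; linarith

end Weights

/-- Large weights give copies. -/
theorem lowerNU_of (hW : WeightExtStmt) (hC : CutCPAPStmt) : LowerNUStmt := by
  intro A _ hA hP G hG δ hδ
  obtain ⟨q, hq⟩ := exists_nat_gt (16384 * (2 / δ))
  have hq0 : 0 < q := by exact_mod_cast (show (0 : ℝ) < q by
    linarith [show (0 : ℝ) < 2 / δ by positivity])
  refine ⟨q, hq0, fun y hy hyp hy1 hne hGy hw => ?_⟩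
  have hy0 := loc_nonneg hyp
  have hsa : ∀ n, IsSelfAdjoint (G n) := fun n => (loc_nonneg (hG.pos n)).isSelfAdjoint
  have hfix : ∀ a b, a < b → G b * G a = G a := by
    intro a b hab
    induction b with
    | zero => omega
    | succ b ih =>
      rcases Nat.lt_succ_iff_lt_or_eq.1 hab with h | h
      · rw [← ih h, ← mul_assoc, hG.fix b]
      · rw [h, hG.fix b]
  have hfix' : ∀ a b, a < b → G a * G b = G a := fun a b hab => by
    simpa [star_mul, (hsa a).star_eq, (hsa b).star_eq] using congrArg star (hfix a b hab)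
  set s := CFC.sqrt y with hs
  have hss : s * s = y := CFC.sqrt_mul_sqrt_self y hy0
  have hssa : IsSelfAdjoint s := (CFC.sqrt_nonneg y).isSelfAdjoint
  have hsm : s ∈ inrSet A := sqrt_mem hy hy0
  have hGs : ∀ b, 1 ≤ b → G b * s = s ∧ s * G b = s := fun b hb =>
    unit_sqrt (hsa b) hy0 (by rw [← hGy, ← mul_assoc, hfix 0 b hb])
  -- the step to conjugates of `y`
  obtain ⟨n, b, hb⟩ := below_sum hA (hsa 4) (hG.mem 5) (hsa 5) (hfix 4 5 (by omega)) hy hy0 hne
  set M : ℝ := ∑ i, ‖b i‖ * ‖b i‖ with hM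
  have hM0 : 0 ≤ M := Finset.sum_nonneg fun i _ => by positivity
  obtain ⟨η, hη, hηδ, hηM⟩ : ∃ η : ℝ, 0 < η ∧ η * 240 ≤ δ ∧ η * M ≤ 1 := by
    refine ⟨min (δ / 240) (1 / (M + 1)), by positivity, ?_, ?_⟩
    · linarith [min_le_left (δ / 240) (1 / (M + 1))]
    · have h1 := min_le_right (δ / 240) (1 / (M + 1))
      rw [le_div_iff₀ (by positivity)] at h1
      nlinarith [lt_min (by positivity : 0 < δ / 240) (by positivity : 0 < 1 / (M + 1))]
  obtain ⟨m, x, hxf, hx1, hx2⟩ := cp_cut hW (hsa 4) (hG.mem 4) (hsa 2) hssa (hG.mem 2) hsm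
    (hfix 2 4 (by omega)) (hGs 4 (by omega)).1 hδ (by rw [hss]; exact hw) hη
  set u : Fin m → Unitization ℂ A := fun i => G 4 * x i
  have hT : δ • (G 2 * G 2) ∈ inrSet A := by
    obtain ⟨g, hg⟩ := hG.mem 2
    exact ⟨δ • (g * g), by rw [← hg, ← inr_mul, inr_smul]⟩
  have hu1 : ‖(∑ i, star (u i) * u i) - δ • (G 2 * G 2)‖ ≤ 3 * η :=
    gram_cut (hsa 4) x hxf (hG.norm_le 4) hT hx1
  let w : Option (Fin n) → Unitization ℂ A := fun o => o.elim 1 fun i => √η • b i
  have hu2 : ∑ i, u i * star (u i) ≤ ∑ o, star (s * w o) * (s * w o) := by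
    calc ∑ i, u i * star (u i) = G 4 * (∑ i, x i * star (x i)) * G 4 := by
          simp only [u, star_mul, (hsa 4).star_eq, Finset.mul_sum, Finset.sum_mul, mul_assoc]
      _ ≤ G 4 * (s * s + η • 1) * G 4 := (hsa 4).conjugate_le_conjugate hx2
      _ = y + η • (G 4 * G 4) := by
          rw [mul_add, add_mul, mul_smul_comm, smul_mul_assoc, mul_one, ← hss, ← mul_assoc,
            (hGs 4 (by omega)).1, mul_assoc, (hGs 4 (by omega)).2]
      _ ≤ y + η • ∑ i, star (b i) * y * b i := by gcongr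
      _ = _ := by
          rw [Fintype.sum_option]
          simp only [w, Option.elim_none, Option.elim_some, mul_one, hssa.star_eq, hss,
            mul_smul_comm, star_smul, star_trivial, smul_mul_assoc, smul_smul,
            Real.mul_self_sqrt hη.le, ← Finset.smul_sum, star_mul]
          congr 2
          refine Finset.sum_congr rfl fun i _ => ?_
          rw [← hss]; simp only [mul_assoc]
  obtain ⟨z, hz1, hz2⟩ := Pedersen.transfer u (fun o => s * w o) hu2 η hη
  have hs1 : ‖s‖ ≤ 1 := by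
    have h := CStarRing.norm_star_mul_self (x := s)
    rw [hssa.star_eq, hss] at h
    nlinarith [norm_nonneg s]
  -- move the family into the cut algebra
  let K := G 4
  have hcut : ∀ a : Unitization ℂ A, G 3 * a * G 3 ∈ cutAlg K := fun a => by
    show FixedBy (G 4) (inr (G 3 * a * G 3).snd)
    rw [inr_snd' (mem_mul_left _ (hG.mem 3))]
    have e1 : G 4 * (G 3 * a * G 3) = G 3 * a * G 3 := by
      rw [← mul_assoc, ← mul_assoc, hfix 3 4 (by omega)]
    have e2 : G 3 * a * G 3 * G 4 = G 3 * a * G 3 := by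
      rw [mul_assoc, hfix' 3 4 (by omega)]
    exact ⟨e1, e2, by rw [(hsa 4).star_eq, e1], by rw [(hsa 4).star_eq, e2]⟩
  have hmem : ∀ g : Unitization ℂ A, g ∈ inrSet A → IsSelfAdjoint g → K * g = g → g ∈ cutAlg K :=
    fun g hg hgs hKg => by
      show FixedBy (G 4) (inr g.snd)
      rw [inr_snd' hg]
      have h2 : g * G 4 = g := by
        simpa [K, star_mul, hgs.star_eq, (hsa 4).star_eq] using congrArg star hKg
      exact ⟨hKg, h2, by rw [(hsa 4).star_eq]; exact hKg, by rw [(hsa 4).star_eq]; exact h2⟩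
  let C := cutAlg K
  let ι : C →⋆ₐ[ℂ] Unitization ℂ A := C.subtype
  let gC : C := ⟨G 2, hmem _ (hG.mem 2) (hsa 2) (hfix 2 4 (by omega))⟩
  let fC : C := ⟨G 1, hmem _ (hG.mem 1) (hsa 1) (hfix 1 4 (by omega))⟩
  let sC : C := ⟨s, hmem _ hsm hssa (hGs 4 (by omega)).1⟩
  let eqv := (Fintype.equivFin (Option (Fin n) × Fin m)).symm
  let zC : Fin (Fintype.card (Option (Fin n) × Fin m)) → C := fun p =>
    ⟨G 3 * (w (eqv p).1 * z (eqv p).2) * G 3, hcut _⟩
  have hp : ∀ p, ι (sC * zC p) = s * w (eqv p).1 * z (eqv p).2 * G 3 := fun p => by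
    show s * (G 3 * (w (eqv p).1 * z (eqv p).2) * G 3) = _
    simp only [← mul_assoc, (hGs 3 (by omega)).2]
  have hinj : ∀ a : C, ‖a‖ = ‖ι a‖ := fun a => rfl
  have h1C : ‖(∑ p, star (sC * zC p) * (sC * zC p)) - δ • (gC * gC)‖ ≤ 5 * η := by
    rw [hinj]
    have hsum : ι ((∑ p, star (sC * zC p) * (sC * zC p)) - δ • (gC * gC)) =
        G 3 * ((∑ o : Option (Fin n) × Fin m, star (s * w o.1 * z o.2) * (s * w o.1 * z o.2)) -
          δ • (G 2 * G 2)) * G 3 := by
      have e : G 3 * (G 2 * G 2) * G 3 = G 2 * G 2 := by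
        rw [← mul_assoc, hfix 2 3 (by omega), mul_assoc, hfix' 2 3 (by omega)]
      rw [map_sub, map_sum, mul_sub, sub_mul, mul_smul_comm, smul_mul_assoc, e, ← eqv.sum_comp,
        Finset.mul_sum, Finset.sum_mul]
      congr 1
      refine Finset.sum_congr rfl fun p _ => ?_
      rw [map_mul, map_star, hp, star_mul, (hsa 3).star_eq]
      simp only [mul_assoc]
    rw [hsum]
    refine norm_mul₃_le.trans ((mul_le_mul (mul_le_mul (hG.norm_le 3)
      ((norm_sub_le_norm_sub_add_norm_sub _ _ _).trans (add_le_add hz1 hu1)) (norm_nonneg _)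
      zero_le_one) (hG.norm_le 3) (norm_nonneg _) ?_).trans ?_)
    · positivity
    · linarith
  have h2C : ‖∑ p, (sC * zC p) * star (sC * zC p)‖ ≤ 2 := by
    rw [hinj, map_sum]
    simp only [map_mul ι _ (star _), map_star ι, hp]
    rw [eqv.sum_comp fun o : Option (Fin n) × Fin m =>
      s * w o.1 * z o.2 * G 3 * star (s * w o.1 * z o.2 * G 3)]
    have h1 : ∑ o : Option (Fin n) × Fin m, (s * w o.1 * z o.2 * G 3) *
        star (s * w o.1 * z o.2 * G 3) ≤ ∑ o, (s * w o) * star (s * w o) := by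
      refine le_trans (Finset.sum_le_sum fun o _ => ?_) hz2
      rw [star_mul, (hsa 3).star_eq]
      have h3 : G 3 * G 3 ≤ 1 := by
        rw [← CStarAlgebra.norm_le_one_iff_of_nonneg _ (hsa 3).mul_self_nonneg]
        exact (norm_mul_le _ _).trans (mul_le_one₀ (hG.norm_le 3) (norm_nonneg _) (hG.norm_le 3))
      have h4 := star_right_conjugate_le_conjugate h3 (s * w o.1 * z o.2)
      simpa only [mul_assoc, mul_one, one_mul] using h4
    refine (CStarAlgebra.norm_le_norm_of_nonneg_of_le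
      (Finset.sum_nonneg fun o _ => mul_star_self_nonneg _) h1).trans ?_
    rw [Fintype.sum_option]
    refine (norm_add_le _ _).trans ?_
    have hsb : ∀ v : Unitization ℂ A, ‖s * v * star (s * v)‖ ≤ ‖v‖ * ‖v‖ := fun v => by
      rw [CStarRing.norm_self_mul_star]
      have : ‖s * v‖ ≤ ‖v‖ := (norm_mul_le _ _).trans (mul_le_of_le_one_left (norm_nonneg _) hs1)
      exact mul_le_mul this this (norm_nonneg _) (norm_nonneg _)
    have h5 : ‖∑ i, s * w (some i) * star (s * w (some i))‖ ≤ η * M := by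
      refine (norm_sum_le _ _).trans ?_
      rw [hM, Finset.mul_sum]
      refine Finset.sum_le_sum fun i _ => (hsb _).trans (le_of_eq ?_)
      simp only [w, Option.elim_some, norm_smul, Real.norm_of_nonneg (Real.sqrt_nonneg η)]
      rw [show √η * ‖b i‖ * (√η * ‖b i‖) = √η * √η * (‖b i‖ * ‖b i‖) by ring,
        Real.mul_self_sqrt hη.le]
    have h6 : ‖s * w none * star (s * w none)‖ ≤ 1 := (hsb _).trans (by
      simp [w])
    linarith
  obtain ⟨D, d, hD, hd, hcop⟩ := copies_of_family (C := C) Lossy.mat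
    (hC A K (hsa 4) (hG.mem 4) ⟨G 5, hG.mem 5, hsa 5, hfix 4 5 (by omega)⟩ hP) hδ hq0 hq.le
    (f := fC) (g := gC) (s := sC) (Subtype.ext (hsa 1)) (Subtype.ext (hsa 2))
    (Subtype.ext (hfix 1 2 (by omega))) (hG.norm_le 2) (Subtype.ext hssa) zC (η := 5 * η)
    (by linarith) h1C h2C
  refine ⟨D, d, hD, hd, fun ε hε => ?_⟩
  obtain ⟨R, hR⟩ := hcop ε hε
  refine ⟨fun l t => ι (R l t), fun a c => ?_⟩
  have h := hR a c
  rw [hinj] at h
  simp only [map_sub, map_sum, map_mul, map_star, apply_ite ι, map_zero] at h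
  rw [← hss]
  exact h

end

end Vale.P095.NU
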