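import Vale.Agent.P095.NU.Pins
import Vale.Agent.P095.NU.UnitSeq
import Vale.Agent.P095.Equi.NoChar

/-!
# P095: absorbing a witnessed algebra makes the commutators full

With an approximate unit `k` and witnesses `x, z` of `B` the sequences `k ⊗ z [x*, x]`, `k ⊗ x*` and
`k ⊗ x` are central, and the sum of the products `u [x*, x]` is `k ^ 3 ⊗ 1`, a unit modulo the
annihilator.
-/

open Filter Topology Unitization

namespace Vale.P095.NU

open Vale.P101 Vale.P101.ZS Vale.P095.Nonunital

noncomputable section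

/-- Left and right multiplication as linear maps. -/
private def lmul {R : Type*} [NonUnitalCStarAlgebra R] (r : R) : R →ₗ[ℂ] R where
  toFun x := r * x - x * r
  map_add' x y := by simp only [mul_add, add_mul]; abel
  map_smul' c x := by simp [mul_smul_comm, smul_mul_assoc, smul_sub]

/-- `1 - r` as a linear map. -/
private def defl {R : Type*} [NonUnitalCStarAlgebra R] (r : R) : R →ₗ[ℂ] R where
  toFun x := x - r * x
  map_add' x y := by simp only [mul_add]; abel
  map_smul' c x := by simp [mul_smul_comm, smul_sub]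

section Seq

variable {A B R : Type*} [NonUnitalCStarAlgebra A] [CStarAlgebra B] [NonUnitalCStarAlgebra R]

/-- `k ⊗ y` commutes asymptotically with everything. -/
theorem tendsto_comm_tensor (T : TensorData A B R) {k : ℕ → A} (hk : ∀ n, ‖k n‖ ≤ 1)
    (hka : ∀ a, Tendsto (fun n => ‖k n * a - a‖) atTop (𝓝 0) ∧
      Tendsto (fun n => ‖a * k n - a‖) atTop (𝓝 0))
    {y : ℕ → B} {C : ℝ} (hy : ∀ n, ‖y n‖ ≤ C)
    (hc : ∀ b, Tendsto (fun n => ‖y n * b - b * y n‖) atTop (𝓝 0)) (x : R) :
    Tendsto (fun n => ‖T.m (k n) (y n) * x - x * T.m (k n) (y n)‖) atTop (𝓝 0) := by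
  have hC : 0 ≤ C := (norm_nonneg _).trans (hy 0)
  have hr : ∀ n, ‖T.m (k n) (y n)‖ ≤ C := fun n =>
    (T.norm_le _ _).trans ((mul_le_of_le_one_left (norm_nonneg _) (hk n)).trans (hy n))
  refine tendsto_of_tensors T (fun n => lmul (T.m (k n) (y n))) (C := 2 * C) (fun n z => ?_)
    (fun a b => ?_) x
  · refine (norm_sub_le _ _).trans ?_
    have h1 := (norm_mul_le (T.m (k n) (y n)) z).trans
      (mul_le_mul_of_nonneg_right (hr n) (norm_nonneg _))
    have h2 := (norm_mul_le z (T.m (k n) (y n))).trans
      (mul_le_mul_of_nonneg_left (hr n) (norm_nonneg _))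
    nlinarith
  · have e : ∀ n, lmul (T.m (k n) (y n)) (T.m a b) =
        T.m (k n * a - a * k n) (y n * b) + T.m (a * k n) (y n * b - b * y n) := fun n => by
      show T.m (k n) (y n) * T.m a b - T.m a b * T.m (k n) (y n) = _
      rw [T.map_mul, T.map_mul, map_sub, LinearMap.sub_apply, map_sub]
      abel
    have h1 : Tendsto (fun n => (‖k n * a - a‖ + ‖a * k n - a‖) * (C * ‖b‖) +
        ‖a‖ * ‖y n * b - b * y n‖) atTop (𝓝 0) := by
      simpa using (((hka a).1.add (hka a).2).mul_const (C * ‖b‖)).add ((hc b).const_mul ‖a‖)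
    refine squeeze_zero (fun n => norm_nonneg _) (fun n => ?_) h1
    rw [e]
    refine (norm_add_le _ _).trans (add_le_add ((T.norm_le _ _).trans (mul_le_mul ?_ ?_
      (norm_nonneg _) (by positivity))) ((T.norm_le _ _).trans (mul_le_mul_of_nonneg_right
      ((norm_mul_le _ _).trans (mul_le_of_le_one_right (norm_nonneg _) (hk n))) (norm_nonneg _))))
    · rw [show k n * a - a * k n = (k n * a - a) - (a * k n - a) by abel]
      exact norm_sub_le _ _
    · exact (norm_mul_le _ _).trans (mul_le_mul_of_nonneg_right (hy n) (norm_nonneg _))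

end Seq

/-- `NoCharNUStmt`. -/
theorem noCharNU : NoCharNUStmt := by
  intro A B _ _ _ _ T hw hT ω hω
  obtain ⟨T'⟩ := hT
  obtain ⟨x, z, hx, hz, he, hc⟩ := Equi.NC.exists_seq T hw
  obtain ⟨k, hk, hka⟩ := exists_unitSeq A
  have hωt : (ω : Filter ℕ) ≤ atTop := hω.trans Nat.cofinite_eq_atTop.le
  -- witnesses and their self-commutators are central in `B`
  let c : ℕ → Fin 2 → B := fun n i => star (x n i) * x n i - x n i * star (x n i)
  have hstar : ∀ i b, Tendsto (fun n => ‖star (x n i) * b - b * star (x n i)‖) atTop (𝓝 0) := by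
    intro i b
    refine (hc i (star b)).congr fun n => ?_
    rw [← norm_star, star_sub, star_mul, star_mul, star_star, norm_sub_rev]
  have hmul : ∀ (p q : ℕ → B) (M : ℝ), (∀ n, ‖p n‖ ≤ M) → (∀ n, ‖q n‖ ≤ M) →
      (∀ b, Tendsto (fun n => ‖p n * b - b * p n‖) atTop (𝓝 0)) →
      (∀ b, Tendsto (fun n => ‖q n * b - b * q n‖) atTop (𝓝 0)) →
      ∀ b, Tendsto (fun n => ‖p n * q n * b - b * (p n * q n)‖) atTop (𝓝 0) := by
    intro p q M hp hq h1 h2 b
    refine squeeze_zero (fun n => norm_nonneg _) (fun n => ?_)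
      (by simpa using ((h2 b).const_mul M).add ((h1 b).mul_const M))
    rw [show p n * q n * b - b * (p n * q n) =
      p n * (q n * b - b * q n) + (p n * b - b * p n) * q n by
        simp only [mul_sub, sub_mul, mul_assoc]; abel]
    exact (norm_add_le _ _).trans (add_le_add ((norm_mul_le _ _).trans
      (mul_le_mul_of_nonneg_right (hp n) (norm_nonneg _))) ((norm_mul_le _ _).trans
      (mul_le_mul_of_nonneg_left (hq n) (norm_nonneg _))))
  have hcn : ∀ n i, ‖c n i‖ ≤ 200000000 := fun n i => by
    refine (norm_sub_le _ _).trans ?_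
    have h := hx n i
    have h1 := norm_mul_le (star (x n i)) (x n i)
    have h2 := norm_mul_le (x n i) (star (x n i))
    rw [norm_star] at h1 h2
    nlinarith [norm_nonneg (x n i)]
  have hcc : ∀ i b, Tendsto (fun n => ‖c n i * b - b * c n i‖) atTop (𝓝 0) := by
    intro i b
    have h1 := hmul _ _ 10000 (fun n => (norm_star (x n i)).trans_le (hx n i)) (fun n => hx n i)
      (hstar i) (hc i) b
    have h2 := hmul _ _ 10000 (fun n => hx n i) (fun n => (norm_star (x n i)).trans_le (hx n i))
      (hc i) (hstar i) b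
    refine squeeze_zero (fun n => norm_nonneg _) (fun n => ?_) (by simpa using h1.add h2)
    simp only [c, sub_mul, mul_sub]
    rw [show ∀ p q r s : B, p - q - (r - s) = (p - r) - (q - s) from fun p q r s => by abel]
    exact norm_sub_le _ _
  let σ : ℕ → B := fun n => ∑ i, c n i * c n i
  have hσz : ∀ n, σ n * z n = 1 := fun n => by
    have h2 := congrArg star (he n)
    have hsa : ∀ i, star (c n i * c n i) = c n i * c n i := fun i => by
      simp only [c, star_mul, star_sub, star_star]
    rw [star_mul, star_sum, Finset.sum_congr rfl (fun i _ => hsa i), star_one] at h2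
    have h3 := left_inv_eq_right_inv (he n) h2
    show (∑ i, c n i * c n i) * z n = 1
    rw [h3]; exact h2
  have hzc : ∀ b, Tendsto (fun n => ‖z n * b - b * z n‖) atTop (𝓝 0) := by
    intro b
    have hσc : Tendsto (fun n => ‖b * σ n - σ n * b‖) atTop (𝓝 0) := by
      have h0 := hmul _ _ 200000000 (fun n => hcn n 0) (fun n => hcn n 0) (hcc 0) (hcc 0) b
      have h1 := hmul _ _ 200000000 (fun n => hcn n 1) (fun n => hcn n 1) (hcc 1) (hcc 1) b
      refine squeeze_zero (fun n => norm_nonneg _) (fun n => ?_) (by simpa using h0.add h1)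
      simp only [σ, Fin.sum_univ_two, mul_add, add_mul]
      rw [norm_sub_rev, add_sub_add_comm]
      exact norm_add_le _ _
    refine squeeze_zero (fun n => norm_nonneg _) (fun n => ?_)
      (by simpa using (hσc.const_mul (10000 : ℝ)).mul_const (10000 : ℝ))
    rw [show z n * b - b * z n = z n * (b * σ n - σ n * b) * z n by
      rw [mul_sub, sub_mul, ← mul_assoc, ← mul_assoc (z n) (σ n), mul_assoc (z n * b), hσz,
        mul_one, show z n * σ n = 1 from he n, one_mul]]
    refine (norm_mul_le _ _).trans (mul_le_mul ((norm_mul_le _ _).trans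
      (mul_le_mul_of_nonneg_right (hz n) (norm_nonneg _))) (hz n) (norm_nonneg _) (by positivity))
  -- the sequences in the unitization
  have hcentral : ∀ (y : ℕ → B) (M : ℝ), (∀ n, ‖y n‖ ≤ M) →
      (∀ b, Tendsto (fun n => ‖y n * b - b * y n‖) atTop (𝓝 0)) →
      CentralSeq ω fun n => (inr (T'.m (k n) (y n)) : Unitization ℂ A) := by
    intro y M hy hyc
    refine ⟨⟨M, fun n => ?_⟩, fun a => ?_⟩
    · rw [norm_inr]
      exact (T'.norm_le _ _).trans
        ((mul_le_of_le_one_left (norm_nonneg _) (hk n).2).trans (hy n))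
    · refine ((tendsto_comm_tensor T' (fun n => (hk n).2) hka hy hyc a).mono_left hωt).congr
        fun n => ?_
      rw [← inr_mul, ← inr_mul, ← inr_sub, norm_inr]
  refine ⟨2, fun i n => inr (T'.m (k n) (z n * c n i)), fun i n => inr (T'.m (k n) (star (x n i))),
    fun i n => inr (T'.m (k n) (x n i)), fun _ _ => 1, fun i => ⟨?_, ?_, ?_, ?_⟩, fun a => ?_⟩
  · exact hcentral _ (10000 * 200000000) (fun n => (norm_mul_le _ _).trans
      (mul_le_mul (hz n) (hcn n i) (norm_nonneg _) (by norm_num)))
      (hmul _ _ 200000000 (fun n => (hz n).trans (by norm_num)) (fun n => hcn n i) hzc (hcc i))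
  · exact hcentral _ 10000 (fun n => (norm_star _).trans_le (hx n i)) (hstar i)
  · exact hcentral _ 10000 (fun n => hx n i) (hc i)
  · exact ⟨⟨‖(1 : Unitization ℂ A)‖, fun _ => le_rfl⟩, fun a => by simp⟩
  · have hsum : ∀ n, ∑ i, (inr (T'.m (k n) (z n * c n i)) : Unitization ℂ A) *
        (inr (T'.m (k n) (star (x n i))) * inr (T'.m (k n) (x n i)) -
          inr (T'.m (k n) (x n i)) * inr (T'.m (k n) (star (x n i)))) * 1 =
        inr (T'.m (k n * (k n * k n)) 1) := fun n => by
      simp only [mul_one, ← inr_mul, ← inr_sub, T'.map_mul, ← map_sub, Fin.sum_univ_two,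
        ← inr_add, ← map_add, mul_assoc, ← mul_add]
      congr 2
      have h := he n
      rw [Fin.sum_univ_two] at h
      exact h
    have hdefl : ∀ n, ‖T'.m (k n * (k n * k n)) 1‖ ≤ ‖(1 : B)‖ := fun n =>
      (T'.norm_le _ _).trans (mul_le_of_le_one_left (norm_nonneg _) ((norm_mul_le _ _).trans
        (mul_le_one₀ (hk n).2 (norm_nonneg _) ((norm_mul_le _ _).trans
          (mul_le_one₀ (hk n).2 (norm_nonneg _) (hk n).2)))))
    have hlim : Tendsto (fun n => ‖defl (T'.m (k n * (k n * k n)) 1) a‖) atTop (𝓝 0) := by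
      refine tendsto_of_tensors T' (fun n => defl (T'.m (k n * (k n * k n)) 1))
        (C := 1 + ‖(1 : B)‖) (fun n w => ?_) (fun a' b => ?_) a
      · refine (norm_sub_le _ _).trans ?_
        have h1 := (norm_mul_le (T'.m (k n * (k n * k n)) 1) w).trans
          (mul_le_mul_of_nonneg_right (hdefl n) (norm_nonneg _))
        nlinarith [norm_nonneg w]
      · refine squeeze_zero (fun n => norm_nonneg _) (fun n => ?_)
          (by simpa using ((hka a').1.const_mul (3 : ℝ)).mul_const ‖b‖)
        show ‖T'.m a' b - T'.m (k n * (k n * k n)) 1 * T'.m a' b‖ ≤ _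
        rw [T'.map_mul, one_mul, ← LinearMap.sub_apply, ← map_sub]
        refine (T'.norm_le _ _).trans (mul_le_mul_of_nonneg_right ?_ (norm_nonneg _))
        have hk1 := (hk n).2
        rw [show a' - k n * (k n * k n) * a' = -((k n * a' - a') + k n * (k n * a' - a') +
          k n * (k n * (k n * a' - a'))) by simp only [mul_sub, mul_assoc]; abel, norm_neg]
        have h1 := (norm_mul_le (k n) (k n * a' - a')).trans
          (mul_le_of_le_one_left (norm_nonneg _) hk1)
        have h2 := (norm_mul_le (k n) (k n * (k n * a' - a'))).trans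
          (mul_le_of_le_one_left (norm_nonneg _) hk1)
        refine (norm_add₃_le).trans ?_
        linarith
    refine (hlim.mono_left hωt).congr fun n => ?_
    show _ = ‖(1 - ∑ i, _) * (a : Unitization ℂ A)‖
    rw [hsum, sub_mul, one_mul, ← inr_mul, ← inr_sub, norm_inr]
    rfl

end

end Vale.P095.NU
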