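import Vale.Agent.P095.NU.Defs
import Vale.Agent.P095.Finite.Statement
import Vale.Agent.P095.Equi.Pins
import Vale.Agent.P101.ZStab.Pins

/-!
# P095: statements of the modules for algebras which need not be unital
-/

open scoped Kronecker Matrix.Norms.L2Operator ENNReal

namespace Vale.P095.NU

open Vale.P101 Vale.P101.ZS Vale.P095.Nonunital Vale.P095.SI

noncomputable section

attribute [local instance] CStarAlgebra.spectralOrder CStarAlgebra.spectralOrderedRing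

/-! ## Tensor products -/

/-- Spatial tensor products carry `α ⊗ id` (module `NU/Rep`). -/
def RepNUStmt : Prop :=
  ∀ (A B : Type) [NonUnitalCStarAlgebra A] [CStarAlgebra B] [Nontrivial B]
    (G : Type) [Group G] (α : G →* (A ≃⋆ₐ[ℂ] A)),
    ∃ (R : Type) (_ : NonUnitalCStarAlgebra R) (T : TensorData A B R)
      (β : G →* (R ≃⋆ₐ[ℂ] R)),
      (∀ g a b, β g (T.m a b) = T.m (α g a) b) ∧ (CocConj α β → IsEquiStableNU A B α)

/-- Absorption gives a bilinear map into `A` (module `NU/Rep`). -/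
def StableDataStmt : Prop :=
  ∀ (A B : Type) [NonUnitalCStarAlgebra A] [CStarAlgebra B] [Nontrivial B],
    IsSpatialTensorNU A A B → Nonempty (TensorData A B A)

/-! ## Commutators of unitaries -/

/-- Commutators of unitaries commuting with a copy of `Z(2,3)` are products of exponentials
(module `NU/CommExp`). -/
def CommExpStmt : Prop :=
  ∀ (E : Type) [CStarAlgebra E] (ψ : DD.dimDrop23 →⋆ₐ[ℂ] E) (u v : E),
    u ∈ unitary E → v ∈ unitary E → (∀ f, Commute (ψ f) u ∧ Commute (ψ f) v) →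
    ∃ l : List (selfAdjoint E),
      (l.map fun h => (selfAdjoint.expUnitary h : E)).prod = u * v * star u * star v

/-! ## Comparison -/

/-- Tracial functionals on the elements fixed by `G` extend to weights (module `NU/WeightExt`). -/
def WeightExtStmt : Prop :=
  ∀ (A : Type) [NonUnitalCStarAlgebra A] (G : Unitization ℂ A), IsSelfAdjoint G → G ∈ inrSet A →
    ∀ (φ : Unitization ℂ A →ₗ[ℝ] ℝ) (C : ℝ),
      (∀ x ∈ inrSet A, FixedBy G x →
        0 ≤ φ (star x * x) ∧ φ (star x * x) = φ (x * star x) ∧ |φ x| ≤ C * ‖x‖) →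
      ∃ τ : TraceWeight A, ∀ x : A, FixedBy G (x : Unitization ℂ A) →
        τ.toFun (star x * x) =
          ENNReal.ofReal (φ (star (x : Unitization ℂ A) * (x : Unitization ℂ A)))

/-- The cut algebras of a nuclear algebra are nuclear (module `NU/WeightExt`). -/
def CutCPAPStmt : Prop :=
  ∀ (A : Type) [NonUnitalCStarAlgebra A] (G : Unitization ℂ A), IsSelfAdjoint G → G ∈ inrSet A →
    (∃ G' ∈ inrSet A, IsSelfAdjoint G' ∧ G' * G = G) →
    Vale.P095.SI.NU.HasCPAP A → Vale.P095.SI.HasCPAP (cutAlg G)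

/-- Small weights (module `NU/Upper`). -/
def UpperNUStmt : Prop :=
  ∀ (A : Type) [NonUnitalCStarAlgebra A], Vale.P095.SI.NU.HasCPAP A →
    ∀ G : ℕ → Unitization ℂ A, IsChain G → ∀ k : ℕ, 0 < k → ∀ ε : ℝ, 0 < ε →
      ∃ θ : ℝ, 0 < θ ∧ ∀ v : Unitization ℂ A, v ∈ inrSet A → IsPos v → ‖v‖ ≤ 1 → G 0 * v = v →
        (∀ τ : TraceWeight A, τ.toFun (G 0 * G 0).snd ≤ 1 → τ.toFun v.snd < ENNReal.ofReal θ) →
        ∃ D d : ℕ, 0 < D ∧ k * D ≤ 2 * d ∧
          Lossy.CopiesLE d (cfc (fun r : ℝ => max (r - ε) 0) v) D (G 1 * G 1)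

/-- Large weights (module `NU/Lower`). -/
def LowerNUStmt : Prop :=
  ∀ (A : Type) [NonUnitalCStarAlgebra A], Vale.P095.SI.NU.IsTopSimple A →
    Vale.P095.SI.NU.HasCPAP A → ∀ G : ℕ → Unitization ℂ A, IsChain G → ∀ δ : ℝ, 0 < δ →
      ∃ q : ℕ, 0 < q ∧ ∀ y : Unitization ℂ A, y ∈ inrSet A → IsPos y → ‖y‖ ≤ 1 → y ≠ 0 →
        G 0 * y = y →
        (∀ τ : TraceWeight A, τ.toFun (G 2 * G 2).snd ≤ 1 →
          ENNReal.ofReal δ * τ.toFun (G 2 * G 2).snd ≤ τ.toFun y.snd) →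
        ∃ D d : ℕ, 0 < D ∧ D ≤ 2 * d ∧ Lossy.CopiesLE d (G 1 * G 1) (q * D) y

/-- Almost unperforation from the relations in `F(A)` (module `NU/Unperf`). -/
def UnperfNUStmt : Prop :=
  ∀ (A : Type) [NonUnitalCStarAlgebra A] [TopologicalSpace.SeparableSpace A] (ω : Ultrafilter ℕ),
    (ω : Filter ℕ) ≤ Filter.cofinite →
    (∀ k : ℕ, 1 ≤ k → ∃ (s : Fin (2 ^ k) → FA A ω) (v : FA A ω),
      RWRel (2 ^ k) (Nat.two_pow_pos k) s v) →
    ∀ e a : Unitization ℂ A, e ∈ inrSet A → a ∈ inrSet A → IsPos e → IsPos a →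
      ∀ K j : ℕ, 0 < K → 4 * j ≤ K → Lossy.CopiesLE K e j a → CuntzLE e a

/-- Comparison with weights (module `NU/Compare`). -/
def WeightCompareStmt : Prop :=
  UpperNUStmt → LowerNUStmt → UnperfNUStmt →
    ∀ (A : Type) [NonUnitalCStarAlgebra A] [Nontrivial A] [TopologicalSpace.SeparableSpace A]
      (ω : Ultrafilter ℕ), (ω : Filter ℕ) ≤ Filter.cofinite →
      Vale.P095.SI.NU.IsTopSimple A → Vale.P095.SI.NU.HasCPAP A → CommutatorsFull A ω →
      HasWeight A →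
      ComparesOn (inrSet A) Vale.P095.SI.NU.SmallW Vale.P095.SI.NU.LargeW

/-- Comparison without weights (module `NU/Compare`). -/
def NormCompareStmt : Prop :=
  UpperNUStmt → LowerNUStmt → UnperfNUStmt →
    ∀ (A : Type) [NonUnitalCStarAlgebra A] [Nontrivial A] [TopologicalSpace.SeparableSpace A]
      (ω : Ultrafilter ℕ), (ω : Filter ℕ) ≤ Filter.cofinite →
      Vale.P095.SI.NU.IsTopSimple A → Vale.P095.SI.NU.HasCPAP A → CommutatorsFull A ω →
      ¬ HasWeight A → ComparesOn (inrSet A) (fun _ _ _ => True) LargeNorm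

/-! ## Property (SI) -/

/-- With weights (module `NU/Traced`). -/
def TracedSIStmt : Prop :=
  ∀ (A : Type) [NonUnitalCStarAlgebra A] [Nontrivial A] [TopologicalSpace.SeparableSpace A]
    (ω : Ultrafilter ℕ) (hω : (ω : Filter ℕ) ≤ Filter.cofinite),
    Vale.P095.SI.NU.IsTopSimple A → Vale.P095.SI.NU.HasCPAP A → CommutatorsFull A ω →
    ComparesOn (inrSet A) Vale.P095.SI.NU.SmallW Vale.P095.SI.NU.LargeW →
    ∀ (G : Type) [Group G] [Countable G], Vale.P095.Tracial.IsFolner G →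
      ∀ α : G →* (A ≃⋆ₐ[ℂ] A), HasFixedRelations hω α

/-- Without weights (module `NU/Pure`). -/
def PureSIStmt : Prop :=
  ∀ (A : Type) [NonUnitalCStarAlgebra A] [Nontrivial A] [TopologicalSpace.SeparableSpace A]
    (ω : Ultrafilter ℕ) (hω : (ω : Filter ℕ) ≤ Filter.cofinite),
    Vale.P095.SI.NU.IsTopSimple A → Vale.P095.SI.NU.HasCPAP A → CommutatorsFull A ω →
    ComparesOn (inrSet A) (fun _ _ _ => True) LargeNorm →
    ∀ (G : Type) [Group G] [Countable G], Vale.P095.Tracial.IsFolner G →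
      ∀ α : G →* (A ≃⋆ₐ[ℂ] A), HasFixedRelations hω α

/-! ## Absorption -/

/-- Commuting stages and a copy of `Z(2,3)` among the fixed points (module `NU/Stages`). -/
def HasStages {A : Type} [NonUnitalCStarAlgebra A] [TopologicalSpace.SeparableSpace A]
    {G : Type} [Group G] [Countable G] {ω : Ultrafilter ℕ}
    (hω : (ω : Filter ℕ) ≤ Filter.cofinite) (α : G →* (A ≃⋆ₐ[ℂ] A)) : Prop :=
  ∀ k : ℕ, 1 ≤ k →
    ∃ (ρ₁ ρ₃ : DD (2 ^ k) (2 ^ k + 1) →⋆ₐ[ℂ] fixedAlg (sysFA hω α).act)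
      (σ : DD.dimDrop23 →⋆ₐ[ℂ] fixedAlg (sysFA hω α).act),
      (∀ a b, Commute (ρ₁ a) (ρ₃ b)) ∧ (∀ a f, Commute (ρ₁ a) (σ f)) ∧
        ∀ a f, Commute (ρ₃ a) (σ f)

/-- The relations give the stages (module `NU/Stages`). -/
def StagesStmt : Prop :=
  ∀ (A : Type) [NonUnitalCStarAlgebra A] [Nontrivial A] [TopologicalSpace.SeparableSpace A]
    (ω : Ultrafilter ℕ) (hω : (ω : Filter ℕ) ≤ Filter.cofinite)
    (G : Type) [Group G] [Countable G] (α : G →* (A ≃⋆ₐ[ℂ] A)),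
    HasFixedRelations hω α → HasStages hω α

/-- The stages give the flips (module `NU/Flips`). -/
def FlipsStmt : Prop :=
  UnivStmt → CommExpStmt →
  ∀ (A B R : Type) [NonUnitalCStarAlgebra A] [Nontrivial A] [TopologicalSpace.SeparableSpace A]
    [CStarAlgebra B] [NonUnitalCStarAlgebra R] (ω : Ultrafilter ℕ)
    (hω : (ω : Filter ℕ) ≤ Filter.cofinite) (G : Type) [Group G] [Countable G]
    (α : G →* (A ≃⋆ₐ[ℂ] A)), HasStages hω α → ∀ (_ : Tower B) (T : TensorData A B R)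
    (β : G →* (R ≃⋆ₐ[ℂ] R)), (∀ g a b, β g (T.m a b) = T.m (α g a) b) → HasFlips T.left β

/-- Equivariant intertwining (module `NU/Intertwine`). -/
def IntertwineNUStmt : Prop :=
  ∀ (A R : Type) [NonUnitalCStarAlgebra A] [NonUnitalCStarAlgebra R]
    [TopologicalSpace.SeparableSpace A] [TopologicalSpace.SeparableSpace R]
    (G : Type) [Group G] [Countable G] (α : G →* (A ≃⋆ₐ[ℂ] A)) (β : G →* (R ≃⋆ₐ[ℂ] R))
    (j : A →⋆ₙₐ[ℂ] R), Function.Injective j → (∀ g a, β g (j a) = j (α g a)) →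
    HasFlips j β → CocConj α β

/-- Absorbing a witnessed algebra makes the commutators full (module `NU/NoChar`). -/
def NoCharNUStmt : Prop :=
  ∀ (A B : Type) [NonUnitalCStarAlgebra A] [TopologicalSpace.SeparableSpace A] [Nontrivial A]
    [CStarAlgebra B] (T : Tower B),
    (∀ (n : ℕ) (F : Finset (DD (T.P n) (T.P n + 1))) (ε : ℝ), 0 < ε → ∃ m, n ≤ m ∧
      Equi.ComWitness {g | ∃ f ∈ F, T.emb m g = T.emb n f} ε) →
    Nonempty (TensorData A B A) → ∀ ω : Ultrafilter ℕ, (ω : Filter ℕ) ≤ Filter.cofinite →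
      CommutatorsFull A ω

end

end Vale.P095.NU
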