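import Vale.Agent.P095.NU.Pins
import Vale.Agent.P095.NU.Pure.Tools
import Vale.Agent.P095.NU.Pure.Pieces
import Vale.Agent.P095.SI.Cosets

/-!
# P095: property (SI) without weights

An element moving off the asymptotically fixing subgroup, times two almost isometries with
orthogonal ranges, averaged over Følner representatives of the cosets, gives two fixed isometries
with orthogonal ranges in `F(A)`, and so the relations of `Z(2,3)`.
-/

open Filter Topology
open scoped BoundedContinuousFunction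

namespace Vale.P095.NU

open Vale.P101 Vale.P095.SI Vale.P095.Tracial Vale.P095.Nonunital Vale.P095.NU.Pure

noncomputable section

/-- Two almost isometries with orthogonal ranges and orthogonal translates off `N`. -/
theorem Pure.exists_pair_off {A : Type} [NonUnitalCStarAlgebra A] [Nontrivial A]
    [TopologicalSpace.SeparableSpace A] {ω : Ultrafilter ℕ}
    (hω : (ω : Filter ℕ) ≤ Filter.cofinite) (hs : Vale.P095.SI.NU.IsTopSimple A)
    (hA : Vale.P095.SI.NU.HasCPAP A) (hfull : CommutatorsFull A ω)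
    (hcmp : ComparesOn (inrSet A) (fun _ _ _ => True) LargeNorm) {G : Type} [Group G] [Countable G]
    (α : G →* (A ≃⋆ₐ[ℂ] A)) (N : Subgroup G)
    (hNmem : ∀ g, AsympFixOn (inrSet A) (extAction α g) → g ∈ N)
    (Ds : Finset (Unitization ℂ A)) (hDs : ∀ a ∈ Ds, a ∈ inrSet A) (T₀ : Finset G) {δ : ℝ}
    (hδ : 0 < δ) :
    ∃ u : Fin 2 → Unitization ℂ A, (∀ i, ‖u i‖ ≤ 4) ∧
      (∀ a ∈ Ds, ∀ i, ‖u i * a - a * u i‖ ≤ 4 * δ ∧ ∀ K, 1 ≤ K → ‖a‖ ≤ K →
        ∀ j, ‖(star (u i) * u j - if i = j then 1 else 0) * a‖ ≤ 24 * (K * δ)) ∧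
      ∀ g ∈ T₀, g ∉ N → ∀ i j, ‖star (u i) * extAction α g (u j)‖ ≤ 4 * δ := by
  classical
  have hI : IsSimpleIdeal (inrSet A) := Vale.P095.SI.NU.isSimpleIdeal_inrSet hs
  let θ : {g : G // g ∉ N} → Unitization ℂ A ≃⋆ₐ[ℂ] Unitization ℂ A := fun g => extAction α g
  let T : Finset {g : G // g ∉ N} := T₀.subtype fun g => g ∉ N
  -- the local property (SI), off `N` and without translates
  have hne : ∃ x ∈ inrSet A, x ≠ 0 := by
    obtain ⟨a, ha⟩ := exists_ne (0 : A)
    exact ⟨(a : Unitization ℂ A), ⟨a, rfl⟩, fun h => ha (Unitization.inr_injective h)⟩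
  have hmono : ∀ D₁ D₂ : Finset (Unitization ℂ A), D₁ ⊆ D₂ → ∀ η η' κ : ℝ, η' ≤ η →
      ∀ x : Unitization ℂ A, (True → True) ∧ (LargeNorm D₂ κ η' x → LargeNorm D₁ κ η x) :=
    fun D₁ D₂ h η η' κ hη x => ⟨id, fun hx d hd => by linarith [hx d (h hd)]⟩
  have hloc := fun T : Finset {g : G // g ∉ N} => si_localOn hI hne
    (Vale.P095.SI.NU.hasCPAPOn_inrSet hA) (fun _ _ _ => True) LargeNorm hcmp hmono θ
    (fun g => (isOrthOn_or_asympFixOn hI _ fun x => Vale.P095.SI.NU.inrSet_aut α _ x).resolve_right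
      fun h => g.2 (hNmem _ h))
    Ds hDs T hδ
  have hcopy : CopyProp (FA A ω) := (sysFA hω α).copyProp
  have hsnd : ∀ b ∈ inrSet A, ((b.snd : A) : Unitization ℂ A) = b := by
    rintro _ ⟨x, rfl⟩
    simp
  -- the element with orthogonal translates
  obtain ⟨L₁, hL₁⟩ := hloc T
  obtain ⟨D₁, η₁, hD₁, hη₁, hloc₁⟩ := hL₁ (1 / 2) one_half_pos
  obtain ⟨_, q₁, _, hq₁, hpc₁⟩ :=
    exists_pieces hs hcopy hfull L₁ (D₁.image fun b => b.snd) hη₁
  have hpc₁' := fun b (hb : b ∈ D₁) => by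
    have h := hpc₁ b.snd (Finset.mem_image_of_mem _ hb)
    rwa [hsnd b (hD₁ b hb)] at h
  obtain ⟨s, -, hs2, hsD, -, hsT⟩ := hloc₁ 1 1 (q₁ 0) ⟨1, by simp⟩ CStarRing.norm_one.le
    ⟨1, by simp⟩ CStarRing.norm_one.le (hq₁ 0)
    (fun b hb => ⟨by simpa using hη₁.le, by simpa using hη₁.le,
      fun p => ((hpc₁' b hb).2 0 p).1.1.1⟩) trivial
    (fun p b hb => ((hpc₁' b hb).2 0 p).1.2)
    (fun p p' h b hb => ((hpc₁' b hb).2 0 p).2 p' h)
    (fun p b hb => by simpa using hη₁.le)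
  -- two elements with orthogonal ranges
  obtain ⟨L, hL⟩ := hloc ∅
  obtain ⟨D₂, η₂, hD₂, hη₂, hloc₂⟩ := hL (1 / 2) one_half_pos
  obtain ⟨f, q, hf, hq, hpc⟩ := exists_pieces hs hcopy hfull L ((D₂ ∪ Ds).image fun b => b.snd)
    (lt_min hη₂ hδ)
  have hpc' := fun b (hb : b ∈ D₂ ∪ Ds) => by
    have h := hpc b.snd (Finset.mem_image_of_mem _ hb)
    rwa [hsnd b ((Finset.mem_union.1 hb).elim (hD₂ b) (hDs b))] at h
  have hgroup : ∀ i, ∃ t : Unitization ℂ A, ‖t‖ ≤ 2 ∧
      (∀ a ∈ Ds, ‖(star t * t - 1) * a‖ ≤ δ ∧ ‖t * a - a * t‖ ≤ δ) ∧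
      ‖f i * t - t‖ ≤ δ := fun i => by
    obtain ⟨t, -, h1, h2, h3, -⟩ := hloc₂ 1 (f i) (q i) ⟨1, by simp⟩ CStarRing.norm_one.le
      (hf i).1 (hf i).2 (hq i)
      (fun b hb => ⟨by simpa using hη₂.le,
        ((hpc' b (Finset.mem_union_left _ hb)).1.1 i).trans (min_le_left _ _),
        fun p => ((hpc' b (Finset.mem_union_left _ hb)).2 i p).1.1.1.trans (min_le_left _ _)⟩)
      trivial
      (fun p b hb => le_trans (sub_le_sub_left (min_le_left _ _) _)
        ((hpc' b (Finset.mem_union_left _ hb)).2 i p).1.2)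
      (fun p p' h b hb => (((hpc' b (Finset.mem_union_left _ hb)).2 i p).2 p' h).trans
        (min_le_left _ _))
      (fun p b hb => ((hpc' b (Finset.mem_union_left _ hb)).2 i p).1.1.2.trans (min_le_left _ _))
    exact ⟨t, h1, h2, h3⟩
  choose w hw2 hwD hwf using hgroup
  -- the products
  let u : Fin 2 → Unitization ℂ A := fun i => s * w i
  have hu4 : ∀ i, ‖u i‖ ≤ 4 := fun i => (norm_mul_le _ _).trans
    ((mul_le_mul hs2 (hw2 i) (norm_nonneg _) two_pos.le).trans (by norm_num))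
  refine ⟨u, hu4, fun a ha i => ?_, fun g hg hN i j => ?_⟩
  · have h : ∀ K, 1 ≤ K → ‖a‖ ≤ K → _ := fun K hK1 haK => prod_estimates (δ := δ) hK1 haK hf hs2
      hw2 (hsD a ha).1 (hsD a ha).2 (fun i => hwD i a ha) hwf
      (fun i j h => ((hpc' a (Finset.mem_union_right _ ha)).1.2 i j h).trans (min_le_right _ _)) i
    exact ⟨(h (max 1 ‖a‖) (le_max_left _ _) (le_max_right _ _)).1,
      fun K hK1 haK => (h K hK1 haK).2⟩
  have hT : ‖star s * extAction α g s‖ ≤ δ := hsT ⟨g, hN⟩ (Finset.mem_subtype.2 hg)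
  rw [show star (u i) * extAction α g (u j) =
      star (w i) * (star s * extAction α g s) * extAction α g (w j) by
    simp only [u, star_mul, map_mul]; noncomm_ring]
  refine ((norm_mul_le _ _).trans (mul_le_mul ((norm_mul_le _ _).trans (mul_le_mul
    ((norm_star _).trans_le (hw2 i)) hT (norm_nonneg _) two_pos.le))
    ((SI.norm_aut _ _).trans_le (hw2 j)) (norm_nonneg _) (by positivity))).trans ?_
  linarith

/-- An element fixed on `b` up to `δ / 2` after halving. -/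
theorem Pure.move_le {B : Type*} [CStarAlgebra B] {θ : B ≃⋆ₐ[ℂ] B} {b u : B} {D : Finset B}
    {η δ : ℝ} (hu : ‖u‖ ≤ 4) (hc : ∀ d ∈ D, ‖u * d - d * u‖ ≤ 2 * η)
    (h : ∀ z : B, ‖z‖ ≤ 2 → (∀ d ∈ D, ‖z * d - d * z‖ ≤ η) → ‖(θ z - z) * b‖ ≤ δ / 2) :
    ‖(θ u - u) * b‖ ≤ δ := by
  have h' := h ((2⁻¹ : ℂ) • u) (by rw [norm_smul]; norm_num; linarith) fun d hd => by
    rw [smul_mul_assoc, mul_smul_comm, ← smul_sub, norm_smul]
    norm_num
    linarith [hc d hd]
  rw [map_smul, ← smul_sub, smul_mul_assoc, norm_smul] at h'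
  norm_num at h'
  linarith

/-- Almost fixed almost central almost isometries with almost orthogonal ranges. -/
theorem Pure.approx_isometries {A : Type} [NonUnitalCStarAlgebra A] [Nontrivial A]
    [TopologicalSpace.SeparableSpace A] {ω : Ultrafilter ℕ}
    (hω : (ω : Filter ℕ) ≤ Filter.cofinite) (hs : Vale.P095.SI.NU.IsTopSimple A)
    (hA : Vale.P095.SI.NU.HasCPAP A) (hfull : CommutatorsFull A ω)
    (hcmp : ComparesOn (inrSet A) (fun _ _ _ => True) LargeNorm) {G : Type} [Group G] [Countable G]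
    (hG : IsFolner G) (α : G →* (A ≃⋆ₐ[ℂ] A)) (D : Finset A) (S : Finset G) {ε : ℝ}
    (hε : 0 < ε) :
    ∃ v : Fin 2 → Unitization ℂ A, (∀ i, ‖v i‖ ≤ 5) ∧ ∀ a ∈ D, ∀ i,
      ‖v i * (a : Unitization ℂ A) - (a : Unitization ℂ A) * v i‖ ≤ ε ∧
      (∀ j, ‖(star (v i) * v j - if i = j then 1 else 0) * (a : Unitization ℂ A)‖ ≤ ε) ∧
      ∀ g ∈ S, ‖(extAction α g (v i) - v i) * (a : Unitization ℂ A)‖ ≤ ε := by
  classical
  set θG : G → Unitization ℂ A ≃⋆ₐ[ℂ] Unitization ℂ A := fun g => extAction α g with hθG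
  obtain ⟨N, hNmem⟩ := exists_fix_subgroupOn α
  -- constants
  set Db : Finset (Unitization ℂ A) := D.image (fun a : A => (a : Unitization ℂ A)) with hDb
  set K : ℝ := 1 + ∑ a ∈ D, ‖(a : Unitization ℂ A)‖ with hKdef
  have hK1 : 1 ≤ K := le_add_of_nonneg_right (Finset.sum_nonneg fun a _ => norm_nonneg _)
  have hK : ∀ a ∈ D, ‖(a : Unitization ℂ A)‖ ≤ K := fun a ha => by
    have h := Finset.single_le_sum (f := fun a : A => ‖(a : Unitization ℂ A)‖)
      (fun a _ => norm_nonneg _) ha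
    linarith
  obtain ⟨t, ht0, ht1, htε⟩ : ∃ t : ℝ, 0 < t ∧ t ≤ 1 ∧ 3 * (t * K) ≤ ε :=
    ⟨min 1 (ε / (3 * K)), lt_min one_pos (by positivity), min_le_left _ _, by
      have h := min_le_right (1 : ℝ) (ε / (3 * K))
      rw [le_div_iff₀ (by positivity)] at h
      linarith⟩
  obtain ⟨F, hFne, hFN, hσ⟩ := exists_folner_reps hG N S (ε := t ^ 2 / 17) (by positivity)
  choose F₀ σ hF₀ hcard hinj hmem using hσ
  set n : ℝ := (F.card : ℝ) with hndef
  have hn : (1 : ℝ) ≤ n := Nat.one_le_cast.2 hFne.card_pos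
  set δ : ℝ := t / n with hδdef
  have hδ : 0 < δ := by positivity
  have hnδ : n * δ = t := by rw [hδdef]; field_simp
  have htK : t ≤ t * K := le_mul_of_one_le_right ht0.le hK1
  -- finitely many asymptotically fixing elements and test elements
  let M : Finset G := S.attach.biUnion fun k => (F₀ k k.2).image fun g => (σ k k.2 g)⁻¹ * (k * g)
  let Dt : Finset (Unitization ℂ A) := F.biUnion fun g => Db.image (θG g⁻¹)
  have hDt : ∀ a ∈ Dt, a ∈ inrSet A ∧ ‖a‖ ≤ K := fun a ha => by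
    obtain ⟨g, -, ha⟩ := Finset.mem_biUnion.1 ha
    obtain ⟨b, hb, rfl⟩ := Finset.mem_image.1 ha
    obtain ⟨a₀, ha', rfl⟩ := Finset.mem_image.1 hb
    exact ⟨inv_inrSet α _ _ ⟨a₀, rfl⟩, by rw [hθG, SI.norm_aut]; exact hK a₀ ha'⟩
  obtain ⟨DN, ηN, hηN, hDN, hfixd⟩ := exists_fix_dataOn (inrSet A) θG (M ×ˢ Dt) (fun p hp => by
    obtain ⟨hp1, hp2⟩ := Finset.mem_product.1 hp
    obtain ⟨k, -, hm⟩ := Finset.mem_biUnion.1 hp1
    obtain ⟨g, hg, hg'⟩ := Finset.mem_image.1 hm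
    exact ⟨hg' ▸ (hNmem _).1 (hmem k k.2 g hg).2, (hDt _ hp2).1⟩) (half_pos hδ)
  set δ' : ℝ := min δ ηN / (40 * K) with hδ'def
  have hδ' : 0 < δ' := div_pos (lt_min hδ hηN) (by linarith)
  have hδ'K : 40 * (K * δ') ≤ min δ ηN := by
    rw [hδ'def]; field_simp; exact le_rfl
  have hδ'δ : 40 * (K * δ') ≤ δ := hδ'K.trans (min_le_left _ _)
  have hδ'N : 40 * (K * δ') ≤ ηN := hδ'K.trans (min_le_right _ _)
  have hδ'1 : δ' ≤ K * δ' := le_mul_of_one_le_left hδ'.le hK1
  obtain ⟨u, hu4, huD, huT⟩ := Pure.exists_pair_off hω hs hA hfull hcmp α N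
    (fun g => (hNmem g).2) (DN ∪ Dt)
    (fun a ha => (Finset.mem_union.1 ha).elim (hDN a) fun h => (hDt a h).1)
    ((F ×ˢ F).image fun p => p.1⁻¹ * p.2) hδ'
  have horth : ∀ i j, ∀ g ∈ F, ∀ h ∈ F, g ≠ h →
      ‖star (u i) * extAction α (g⁻¹ * h) (u j)‖ ≤ δ := fun i j g hg h hh hne =>
    (huT _ (Finset.mem_image.2 ⟨(g, h), Finset.mem_product.2 ⟨hg, hh⟩, rfl⟩)
      (fun hm => hne (hFN g hg h hh hm)) i j).trans (by linarith)
  obtain ⟨hv5, hv⟩ := avg_family (extAction α) hFne u (K := K) hδ.le ht0.le ht1 hnδ hu4 horth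
  refine ⟨fun i => avgSum F fun g => extAction α g (u i), hv5, fun a ha i => ?_⟩
  have hDbt : ∀ g ∈ F, θG g⁻¹ (a : Unitization ℂ A) ∈ Dt := fun g hg =>
    Finset.mem_biUnion.2 ⟨g, hg, Finset.mem_image_of_mem _ (Finset.mem_image_of_mem _ ha)⟩
  obtain ⟨hc, hgr, hmv⟩ := hv (a : Unitization ℂ A) (hK a ha) (fun g hg i => by
    obtain ⟨h1, h2⟩ := huD _ (Finset.mem_union_right _ (hDbt g hg)) i
    exact ⟨h1.trans (by linarith),
      fun j => (h2 K hK1 (hDt _ (hDbt g hg)).2 j).trans (by linarith)⟩) i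
  refine ⟨hc.trans (by linarith), fun j => (hgr j).trans (by linarith), fun k hk => ?_⟩
  refine (hmv k (F₀ k hk) (σ k hk) (hF₀ k hk) (hinj k hk) (fun g hg => ⟨(hmem k hk g hg).1, ?_⟩)
    ?_).trans (by linarith)
  · exact Pure.move_le (hu4 i)
      (fun d hd => (huD d (Finset.mem_union_left _ hd) i).1.trans (by linarith))
      (hfixd (_, _) (Finset.mem_product.2 ⟨Finset.mem_biUnion.2 ⟨⟨k, hk⟩,
        Finset.mem_attach _ _, Finset.mem_image.2 ⟨g, hg, rfl⟩⟩, hDbt _ (hmem k hk g hg).1⟩))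
  · refine (mul_le_mul_of_nonneg_right (hcard k hk) (by linarith)).trans ?_
    rw [show t ^ 2 / 17 * n * (16 + t) = t ^ 2 * n * ((16 + t) / 17) by ring]
    exact mul_le_of_le_one_right (by positivity) (by linarith)

/-- `PureSIStmt`. -/
theorem pureSI : PureSIStmt := by
  intro A _ _ _ ω hω hs hA hfull hcmp G _ _ hG α
  classical
  obtain ⟨e, he⟩ := exists_surjective_nat G
  obtain ⟨a, ha⟩ := TopologicalSpace.exists_dense_seq A
  choose v hv5 hd using fun n : ℕ => Pure.approx_isometries hω hs hA hfull hcmp hG α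
    ((Finset.range (n + 1)).image a) ((Finset.range (n + 1)).image e)
    (ε := 1 / ((n : ℝ) + 1)) (by positivity)
  let V : Fin 2 → (ℕ →ᵇ Unitization ℂ A) := fun i =>
    BoundedContinuousFunction.ofNormedAddCommGroup (fun n => v n i)
      continuous_of_discreteTopology 5 fun n => hv5 n i
  have hlim : ∀ (f : ℕ → ℝ) (j : ℕ), (∀ n, 0 ≤ f n) →
      (∀ n, j ≤ n → f n ≤ 1 / ((n : ℝ) + 1)) → Tendsto f ω (𝓝 0) := fun f j h0 h =>
    squeeze_zero' (Eventually.of_forall h0)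
      ((show ∀ᶠ n in (ω : Filter ℕ), j ≤ n from
        hω (Nat.cofinite_eq_atTop ▸ eventually_ge_atTop j)).mono h)
      ((tendsto_one_div_add_atTop_nhds_zero_nat (𝕜 := ℝ)).mono_left (Nat.cofinite_eq_atTop ▸ hω))
  have hmem : ∀ {H : Type} [DecidableEq H] (φ : ℕ → H) (j n : ℕ), j ≤ n →
      φ j ∈ (Finset.range (n + 1)).image φ :=
    fun φ j n h => Finset.mem_image_of_mem φ (Finset.mem_range.2 (Nat.lt_succ_of_le h))
  have hVc : ∀ i, CentralSeq ω fun n => V i n := fun i => centralSeq_of_dense _ ha fun j =>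
    hlim _ j (fun _ => norm_nonneg _) fun n hn => (hd n (a j) (hmem a j n hn) i).1
  have hVfix : ∀ i g, AnnSeq ω fun n => extMap (fun a => α g a) (V i n) - V i n := fun i g => by
    obtain ⟨k, rfl⟩ := he g
    intro b
    have h := annSeq_of_dense (ω := ω)
      (Vale.P095.bmap (StarAlgHomClass.toStarAlgHom (extAction α (e k))) (V i) - V i) ha
      (fun j => hlim _ (max j k) (fun _ => norm_nonneg _) fun n hn => by
        simp only [BoundedContinuousFunction.sub_apply, Vale.P095.bmap_apply]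
        exact (hd n (a j) (hmem a j n ((le_max_left _ _).trans hn)) i).2.2 (e k)
          (hmem e k n ((le_max_right _ _).trans hn))) b
    refine h.congr fun n => ?_
    simp only [BoundedContinuousFunction.sub_apply, Vale.P095.bmap_apply]
    rw [show StarAlgHomClass.toStarAlgHom (extAction α (e k)) (V i n) = _ from
      extAction_eq_extMap α (e k) (V i n)]
  let W : Fin 2 → fixedAlg (sysFA hω α).act := fun i =>
    ⟨ofSeq (V i) (hVc i), fun g => (act_ofSeq_eq_self_iff hω α g (hVc i)).2 (hVfix i g)⟩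
  have hgram : ∀ i j, star (W i) * W j = if i = j then 1 else 0 := fun i j => by
    refine Subtype.ext ?_
    have hrel : AnnSeq ω fun n =>
        (star (V i) * V j - if i = j then 1 else 0 : ℕ →ᵇ Unitization ℂ A) n :=
      annSeq_of_dense _ ha fun l => hlim _ l (fun _ => norm_nonneg _) fun n hn => by
        have h := (hd n (a l) (hmem a l n hn) i).2.1 j
        split_ifs at h ⊢ <;> exact h
    split_ifs at hrel ⊢ with h
    · show star (ofSeq (V i) (hVc i)) * ofSeq (V j) (hVc j) = 1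
      simp only [ofSeq, ← map_star, ← map_mul, ← map_one (relProj (Unitization ℂ A) ω (inrSet A))]
      exact (relProj_eq_iff (f := star (V i) * V j) (g := 1) (by simp [mk_star_seq]) (by simp)).2
        (by simpa using hrel)
    · show star (ofSeq (V i) (hVc i)) * ofSeq (V j) (hVc j) = 0
      simp only [ofSeq, ← map_star, ← map_mul, ← map_zero (relProj (Unitization ℂ A) ω (inrSet A))]
      exact (relProj_eq_iff (f := star (V i) * V j) (g := 0) (by simp [mk_star_seq]) (by simp)).2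
        (by simpa using hrel)
  have h00 : star (W 0) * W 0 = 1 := (hgram 0 0).trans (if_pos rfl)
  have h11 : star (W 1) * W 1 = 1 := (hgram 1 1).trans (if_pos rfl)
  have h01 : star (W 0) * W 1 = 0 := (hgram 0 1).trans (if_neg (by decide))
  have h10 : star (W 1) * W 0 = 0 := (hgram 1 0).trans (if_neg (by decide))
  have a1 : ∀ z, star (W 0) * (W 0 * z) = z := fun z => by rw [← mul_assoc, h00, one_mul]
  have a2 : ∀ z, star (W 1) * (W 1 * z) = z := fun z => by rw [← mul_assoc, h11, one_mul]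
  have a3 : ∀ z, star (W 0) * (W 1 * z) = 0 := fun z => by rw [← mul_assoc, h01, zero_mul]
  have a4 : ∀ z, star (W 1) * (W 0 * z) = 0 := fun z => by rw [← mul_assoc, h10, zero_mul]
  refine ⟨W 0 * star (W 1), W 0 * (1 - (W 1 * star (W 1) + W 0 * star (W 0))), ?_, ?_, ?_⟩
  · simp only [mul_assoc, a4, mul_zero]
  · simp only [star_mul, star_sub, star_add, star_star, mul_sub, sub_mul, mul_add,
      add_mul, mul_one, mul_assoc, a1, a2, a3, a4, mul_zero, h00]
    abel
  · simp only [star_mul, star_star, mul_sub, mul_add, mul_one, mul_assoc, a1, a2,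
      h00]

end

end Vale.P095.NU
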