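import Vale.Agent.P095.Equi.Question
import Vale.Agent.P095.Tracial.Basic

/-!
# P095: the notions of the question, over Mathlib only

Algebras need not be unital; `B` (the Jiang–Su algebra) is unital.
-/

open scoped InnerProductSpace

namespace Vale.P095.NU

noncomputable section

/-- No closed two-sided ideals other than zero and `A`. -/
def IsSimpleAlg (A : Type) [NonUnitalCStarAlgebra A] : Prop :=
  ∀ J : TwoSidedIdeal A, IsClosed (J : Set A) → J = ⊥ ∨ J = ⊤

/-- Complete positivity: positive matrices go to positive matrices. -/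
def IsCPMap {B C : Type} [NonUnitalCStarAlgebra B] [NonUnitalCStarAlgebra C] (f : B →ₗ[ℂ] C) :
    Prop :=
  ∀ (k : ℕ) (Y : CStarMatrix (Fin k) (Fin k) B),
    ∃ Z : CStarMatrix (Fin k) (Fin k) C, (star Y * Y).map f = star Z * Z

section
attribute [local instance] CStarAlgebra.spectralOrder CStarAlgebra.spectralOrderedRing

/-- The completely positive approximation property; contractivity is not required. -/
def IsNuclearAlg (A : Type) [NonUnitalCStarAlgebra A] : Prop :=
  ∀ (D : Finset A) (ε : ℝ), 0 < ε → ∃ (N : ℕ) (ρ : A →ₗ[ℂ] CStarMatrix (Fin N) (Fin N) ℂ)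
    (ψ : CStarMatrix (Fin N) (Fin N) ℂ →ₗ[ℂ] A), IsCPMap ρ ∧ IsCPMap ψ ∧
      ∀ a ∈ D, ‖ψ (ρ a) - a‖ ≤ ε

end

/-- An injective representation on a Hilbert space, not necessarily unital. -/
def IsFaithfulNU {A H : Type} [NonUnitalCStarAlgebra A] [NormedAddCommGroup H]
    [InnerProductSpace ℂ H] [CompleteSpace H] (π : A → (H →L[ℂ] H)) : Prop :=
  ∃ f : A →⋆ₙₐ[ℂ] (H →L[ℂ] H), Function.Injective f ∧ ∀ a, π a = f a

/-- `j (m a b)` is `π a ⊗ ρ b` on elementary tensors. -/
def ActsTensor {H K L A B : Type} [NormedAddCommGroup H] [NormedSpace ℂ H]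
    [NormedAddCommGroup K] [NormedSpace ℂ K] [NormedAddCommGroup L] [NormedSpace ℂ L]
    (t : H → K → L) (π : A → (H →L[ℂ] H)) (ρ : B → (K →L[ℂ] K))
    (F : A → B → (L →L[ℂ] L)) : Prop :=
  ∀ a b x y, F a b (t x y) = t (π a x) (ρ b y)

/-- The values of `m` span a dense subspace. -/
def SpansDense {A B R : Type} [NonUnitalCStarAlgebra R] (m : A → B → R) : Prop :=
  Dense (Submodule.span ℂ (Set.range fun p : A × B => m p.1 p.2) : Set R)

/-- `R` with `m` is `A ⊗_min B`: the elementary tensors `m a b` span it densely and it is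
faithfully represented on a Hilbert space `L = H ⊗ K` with `m a b` acting as `π a ⊗ ρ b`. -/
def IsMinTensorNU {A B R : Type} [NonUnitalCStarAlgebra A] [CStarAlgebra B]
    [NonUnitalCStarAlgebra R] (m : A → B → R) : Prop :=
  SpansDense m ∧
    ∃ (H K L : Type) (_ : NormedAddCommGroup H) (_ : InnerProductSpace ℂ H) (_ : CompleteSpace H)
      (_ : NormedAddCommGroup K) (_ : InnerProductSpace ℂ K) (_ : CompleteSpace K)
      (_ : NormedAddCommGroup L) (_ : InnerProductSpace ℂ L) (_ : CompleteSpace L)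
      (π : A → (H →L[ℂ] H)) (ρ : B → (K →L[ℂ] K)) (j : R → (L →L[ℂ] L)) (t : H → K → L),
      IsFaithfulNU π ∧ Equi.IsFaithfulRep ρ ∧ IsFaithfulNU j ∧ Equi.IsTensorPairing t ∧
      ActsTensor t π ρ (fun a b => j (m a b))

/-- `A ≅ A ⊗ B`: `A` itself is a minimal tensor product of `A` and `B`. -/
def IsAbsorbingNU (A B : Type) [NonUnitalCStarAlgebra A] [CStarAlgebra B] : Prop :=
  ∃ m : A → B → A, IsMinTensorNU m

/-- The unitary multipliers `u` form a cocycle for `β`. -/
def IsCocycle {R G : Type} [Group G] [NonUnitalCStarAlgebra R] (β : G → R → R)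
    (u : G → DoubleCentralizer ℂ R) : Prop :=
  (∀ g, star (u g) * u g = 1 ∧ u g * star (u g) = 1) ∧
    ∀ g h x, (u (g * h)).fst x = (u g).fst (β g ((u h).fst (β g⁻¹ x)))

/-- `Φ` intertwines `f g` with `Ad (u g)` after `β g`. -/
def Intertwines {A R G : Type} [NonUnitalCStarAlgebra R] (f : G → A → A) (β : G → R → R)
    (Φ : A → R) (u : G → DoubleCentralizer ℂ R) : Prop :=
  ∀ g a, DoubleCentralizer.coe ℂ (Φ (f g a)) =
    u g * DoubleCentralizer.coe ℂ (β g (Φ a)) * star (u g)

/-- Actions of `G` on `R`. -/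
def Action (G R : Type) [Group G] [NonUnitalCStarAlgebra R] : Type :=
  G →* (R ≃⋆ₐ[ℂ] R)

/-- The map `g, r ↦ β g r` of an action. -/
def Action.map {G R : Type} [Group G] [NonUnitalCStarAlgebra R] (β : Action G R) (g : G)
    (r : R) : R :=
  (show G →* (R ≃⋆ₐ[ℂ] R) from β) g r

/-- `β` extends `α ⊗ id`. -/
def IsStabilisedNU {A B R G : Type} (m : A → B → R) (α : G → A → A) (β : G → R → R) : Prop :=
  ∀ g a b, β g (m a b) = m (α g a) b

/-- `α` is cocycle conjugate to `α ⊗ id` on `A ⊗ B`. -/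
def IsEquiAbsorbingNU (A B : Type) [NonUnitalCStarAlgebra A] [CStarAlgebra B] {G : Type}
    [Group G] (α : G → A → A) : Prop :=
  ∃ (R : Type) (_ : NonUnitalCStarAlgebra R) (m : A → B → R) (β : Action G R)
    (Φ : A ≃⋆ₐ[ℂ] R) (u : G → DoubleCentralizer ℂ R),
    IsMinTensorNU m ∧ IsStabilisedNU m α β.map ∧ IsCocycle β.map u ∧
      Intertwines α β.map (fun a => Φ a) u

/-- Conjecture A for `Z`: every action of a countable amenable group on a separable simple nuclear
`Z`-stable algebra is equivariantly `Z`-stable. -/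
def ConjectureA (Z : Type) [CStarAlgebra Z] : Prop :=
  ∀ (A : Type) [NonUnitalCStarAlgebra A] [Nontrivial A] [TopologicalSpace.SeparableSpace A],
    IsSimpleAlg A → IsNuclearAlg A → IsAbsorbingNU A Z →
    ∀ (G : Type) [Group G] [Countable G], Tracial.IsFolner G →
      ∀ α : Action G A, IsEquiAbsorbingNU A Z α.map

end

end Vale.P095.NU
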