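import Vale.Agent.P095.NU.Pins
import Vale.Agent.P095.Equi.Rep

/-!
# P095: spatial tensor products of an algebra which need not be unital

The algebra generated by the elementary tensors `π a ⊗ ρ b` carries tensor data, and, for the
regular covariant representation of the action extended to the unitization, the action `α ⊗ id`.
-/

open scoped TensorProduct InnerProductSpace

namespace Vale.P095.NU

set_option maxSynthPendingDepth 4

open Vale.P101 Vale.P101.ZS Vale.P101.ZS.Rep Vale.P095.Nonunital

noncomputable section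

variable {A B H K : Type} [NonUnitalCStarAlgebra A] [CStarAlgebra B]
  [NormedAddCommGroup H] [InnerProductSpace ℂ H] [CompleteSpace H]
  [NormedAddCommGroup K] [InnerProductSpace ℂ K] [CompleteSpace K]
  (π : A →⋆ₙₐ[ℂ] (H →L[ℂ] H)) (ρ : B →⋆ₐ[ℂ] (K →L[ℂ] K))

/-- The elementary tensor as an operator. -/
def elem (a : A) (b : B) : HTensor H K →L[ℂ] HTensor H K :=
  left (π a) * right (ρ b)

theorem elem_eq (a : A) (b : B) : elem π ρ a b = ampLeft (π a) * ampRight (ρ b) := rfl

theorem elem_mul (a a' : A) (b b' : B) :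
    elem π ρ a b * elem π ρ a' b' = elem π ρ (a * a') (b * b') := by
  have h : Commute (right (H := H) (ρ b)) (left (K := K) (π a')) := (amp_commute _ _).symm
  simp only [elem, map_mul]
  rw [mul_assoc, ← mul_assoc (right (H := H) (ρ b)), h.eq]
  noncomm_ring

theorem elem_star (a : A) (b : B) : star (elem π ρ a b) = elem π ρ (star a) (star b) := by
  simp only [elem, map_star, star_mul]
  exact ((amp_commute _ _).star_star).symm.eq

theorem elem_mem (a : A) (b : B) : elem π ρ a b ∈ spatialNU π ρ :=
  NonUnitalStarSubalgebra.le_topologicalClosure _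
    (NonUnitalStarAlgebra.subset_adjoin ℂ _ ⟨(a, b), rfl⟩)

/-- The elementary tensor in the spatial tensor product, linear in both variables. -/
def elemMap : A →ₗ[ℂ] B →ₗ[ℂ] spatialNU π ρ :=
  LinearMap.mk₂ ℂ (fun a b => ⟨elem π ρ a b, elem_mem π ρ a b⟩)
    (fun a a' b => Subtype.ext (by simp [elem, add_mul]))
    (fun c a b => Subtype.ext (by simp [elem]))
    (fun a b b' => Subtype.ext (by simp [elem, mul_add]))
    (fun c a b => Subtype.ext (by simp [elem]))

theorem elemMap_val (a : A) (b : B) : (elemMap π ρ a b).1 = elem π ρ a b := rfl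

theorem elem_one_injective [Nontrivial K] (hπ : Function.Injective π) :
    Function.Injective fun a => elem π ρ a 1 := by
  intro a a' h
  simp only [elem, map_one, mul_one] at h
  exact hπ (left_injective h)

theorem star_mem_span (x : HTensor H K →L[ℂ] HTensor H K)
    (hx : x ∈ Submodule.span ℂ (Set.range fun p : A × B => elem π ρ p.1 p.2)) :
    star x ∈ Submodule.span ℂ (Set.range fun p : A × B => elem π ρ p.1 p.2) := by
  induction hx using Submodule.span_induction with
  | mem x hx =>
    obtain ⟨⟨a, b⟩, rfl⟩ := hx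
    exact Submodule.subset_span ⟨(star a, star b), (elem_star π ρ a b).symm⟩
  | zero => rw [star_zero]; exact zero_mem _
  | add x y _ _ hx hy => rw [star_add]; exact add_mem hx hy
  | smul c x _ hx => rw [star_smul]; exact Submodule.smul_mem _ _ hx

/-- The span of the elementary tensors contains the algebra they generate. -/
theorem adjoin_le_span (x : HTensor H K →L[ℂ] HTensor H K)
    (hx : x ∈ NonUnitalStarAlgebra.adjoin ℂ
      (Set.range fun p : A × B => ampLeft (K := K) (π p.1) * ampRight (H := H) (ρ p.2))) :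
    x ∈ Submodule.span ℂ (Set.range fun p : A × B => elem π ρ p.1 p.2) := by
  induction hx using NonUnitalStarAlgebra.adjoin_induction with
  | mem x hx => exact Submodule.subset_span hx
  | add x y _ _ hx hy => exact add_mem hx hy
  | zero => exact zero_mem _
  | mul x y _ _ hx hy =>
    have h := Submodule.mul_mem_mul hx hy
    rw [Submodule.span_mul_span] at h
    refine Submodule.span_mono ?_ h
    rintro _ ⟨_, ⟨⟨a, b⟩, rfl⟩, _, ⟨⟨a', b'⟩, rfl⟩, rfl⟩
    exact ⟨(a * a', b * b'), (elem_mul π ρ a a' b b').symm⟩
  | smul c x _ hx => exact Submodule.smul_mem _ c hx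
  | star x _ hx => exact star_mem_span π ρ x hx

theorem dense_elemMap :
    Dense (Submodule.span ℂ (Set.range fun p : A × B => elemMap π ρ p.1 p.2) :
      Set (spatialNU π ρ)) := by
  rw [Subtype.dense_iff]
  intro z hz
  refine closure_mono ?_ hz
  intro x hx
  let L : spatialNU π ρ →ₗ[ℂ] (HTensor H K →L[ℂ] HTensor H K) :=
    { toFun := Subtype.val
      map_add' := fun _ _ => rfl
      map_smul' := fun _ _ => rfl }
  have h : x ∈ (Submodule.span ℂ
      (Set.range fun p : A × B => elemMap π ρ p.1 p.2)).map L := by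
    rw [Submodule.map_span, ← Set.range_comp]
    exact adjoin_le_span π ρ x hx
  exact h

/-- The tensor data of the spatial tensor product. -/
def spatialData [Nontrivial K] (hπ : Function.Injective π) :
    TensorData A B (spatialNU π ρ) where
  m := elemMap π ρ
  map_mul a a' b b' := Subtype.ext (elem_mul π ρ a a' b b')
  map_star a b := Subtype.ext (elem_star π ρ a b)
  norm_le a b := by
    show ‖elem π ρ a b‖ ≤ _
    refine (norm_mul_le _ _).trans (mul_le_mul ?_ ?_ (norm_nonneg _) (norm_nonneg _))
    · exact (NonUnitalStarAlgHom.norm_apply_le (left (H := H) (K := K)) _).trans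
        (NonUnitalStarAlgHom.norm_apply_le π a)
    · exact (NonUnitalStarAlgHom.norm_apply_le (right (H := H) (K := K)) _).trans
        (NonUnitalStarAlgHom.norm_apply_le ρ b)
  dense := dense_elemMap π ρ
  injective a a' h := elem_one_injective π ρ hπ (congrArg Subtype.val h)

end

noncomputable section

/-- Conjugation by unitaries acts on the algebra of a set they permute. -/
theorem exists_conj_action {A B E G : Type} [CStarAlgebra E] [Group G] (α : G → A → A)
    (f : A → B → E) (U : G → E) (hU : ∀ g h, U g * U h = U (g * h)) (hU1 : U 1 = 1)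
    (hUs : ∀ h, star (U h) = U h⁻¹) (hUf : ∀ g a b, U g * f a b * U g⁻¹ = f (α g a) b) :
    ∃ β : G →* ((NonUnitalStarAlgebra.adjoin ℂ
          (Set.range fun p : A × B => f p.1 p.2)).topologicalClosure ≃⋆ₐ[ℂ]
        (NonUnitalStarAlgebra.adjoin ℂ (Set.range fun p : A × B => f p.1 p.2)).topologicalClosure),
      ∀ g a b (x : (NonUnitalStarAlgebra.adjoin ℂ
          (Set.range fun p : A × B => f p.1 p.2)).topologicalClosure),
        (x : E) = f a b → (β g x : E) = f (α g a) b := by
  let c : G → E →⋆ₙₐ[ℂ] E := fun h =>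
    { toFun := fun x => U h * x * U h⁻¹
      map_smul' := fun r x => by simp
      map_zero' := by simp
      map_add' := fun x y => by rw [mul_add, add_mul]
      map_mul' := fun x y => by
        calc U h * (x * y) * U h⁻¹ = U h * x * (U h⁻¹ * U h) * y * U h⁻¹ := by
              rw [hU, inv_mul_cancel, hU1, mul_one]; noncomm_ring
          _ = _ := by noncomm_ring
      map_star' := fun x => by simp only [star_mul, hUs, inv_inv, mul_assoc] }
  set T := NonUnitalStarAlgebra.adjoin ℂ (Set.range fun p : A × B => f p.1 p.2) with hT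
  have hgen : ∀ g, T ≤ T.comap (c g) := fun g => by
    rw [hT]
    refine NonUnitalStarAlgebra.adjoin_le ?_
    rintro _ ⟨⟨a, b⟩, rfl⟩
    exact NonUnitalStarAlgebra.subset_adjoin ℂ _ ⟨(α g a, b), (hUf g a b).symm⟩
  have hcS : ∀ g, ∀ x ∈ T.topologicalClosure, c g x ∈ T.topologicalClosure := fun g x hx => by
    have hcont : Continuous (c g) := (continuous_const.mul continuous_id).mul continuous_const
    exact map_mem_closure hcont hx fun y hy => hgen g hy
  let cS : G → T.topologicalClosure → T.topologicalClosure :=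
    fun g x => ⟨c g x.1, hcS g x.1 x.2⟩
  have hcomp : ∀ g h x, cS g (cS h x) = cS (g * h) x := fun g h x => Subtype.ext (by
    show U g * (U h * x.1 * U h⁻¹) * U g⁻¹ = U (g * h) * x.1 * U (g * h)⁻¹
    rw [mul_inv_rev, ← hU, ← hU]; noncomm_ring)
  have hc1 : ∀ x, cS 1 x = x := fun x => Subtype.ext (by
    show U 1 * x.1 * U 1⁻¹ = x.1
    rw [inv_one, hU1, one_mul, mul_one])
  let e : G → (T.topologicalClosure ≃⋆ₐ[ℂ] T.topologicalClosure) := fun g =>
    { toFun := cS g
      invFun := cS g⁻¹
      left_inv := fun x => by rw [hcomp, inv_mul_cancel, hc1]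
      right_inv := fun x => by rw [hcomp, mul_inv_cancel, hc1]
      map_mul' := fun x y => Subtype.ext (map_mul (c g) x.1 y.1)
      map_add' := fun x y => Subtype.ext (map_add (c g) x.1 y.1)
      map_star' := fun x => Subtype.ext (map_star (c g) x.1)
      map_smul' := fun r x => Subtype.ext (map_smul (c g) r x.1) }
  refine ⟨{ toFun := e
            map_one' := StarAlgEquiv.ext hc1
            map_mul' := fun g h => StarAlgEquiv.ext fun x => (hcomp g h x).symm }, ?_⟩
  intro g a b x hx
  exact (congrArg (c g) hx).trans (hUf g a b)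

theorem conj_elem {A B H K : Type} [NonUnitalCStarAlgebra A] [CStarAlgebra B]
    [NormedAddCommGroup H] [InnerProductSpace ℂ H] [CompleteSpace H]
    [NormedAddCommGroup K] [InnerProductSpace ℂ K] [CompleteSpace K]
    (π : A →⋆ₙₐ[ℂ] (H →L[ℂ] H)) (ρ : B →⋆ₐ[ℂ] (K →L[ℂ] K)) {S S' : H →L[ℂ] H} {a a' : A} (b : B)
    (h : S * π a * S' = π a') :
    left S * elem π ρ a b * left S' = elem π ρ a' b := by
  have hc : Commute (right (H := H) (ρ b)) (left (K := K) S') := (amp_commute _ _).symm
  simp only [elem]
  rw [mul_assoc, mul_assoc, hc.eq, ← mul_assoc, ← mul_assoc, Equi.left_conj _ _ _ _ h]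

/-- The action on a spatial tensor product implemented by unitaries. -/
theorem exists_action {A B H K G : Type} [NonUnitalCStarAlgebra A] [CStarAlgebra B]
    [NormedAddCommGroup H] [InnerProductSpace ℂ H] [CompleteSpace H]
    [NormedAddCommGroup K] [InnerProductSpace ℂ K] [CompleteSpace K] [Group G]
    (π : A →⋆ₙₐ[ℂ] (H →L[ℂ] H)) (ρ : B →⋆ₐ[ℂ] (K →L[ℂ] K))
    (α : G →* (A ≃⋆ₐ[ℂ] A)) (S : G → (H →L[ℂ] H))
    (hS : ∀ g h, S g * S h = S (g * h)) (hS1 : S 1 = 1) (hSs : ∀ h, star (S h) = S h⁻¹)
    (hSA : ∀ h a, S h * π a * S h⁻¹ = π (α h a)) :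
    ∃ β : G →* (spatialNU π ρ ≃⋆ₐ[ℂ] spatialNU π ρ), ∀ g a b (x : spatialNU π ρ),
      x.1 = ampLeft (π a) * ampRight (ρ b) →
        (β g x).1 = ampLeft (π (α g a)) * ampRight (ρ b) :=
  exists_conj_action (fun g a => α g a) (elem π ρ) (fun g => left (S g))
    (fun g h => Equi.left_mul _ _ _ (hS g h))
    ((congrArg (left (H := H) (K := K)) hS1).trans (map_one _))
    (fun h => (map_star _ _).symm.trans (congrArg _ (hSs h)))
    (fun g a b => conj_elem π ρ b (hSA g a))

end

noncomputable section

theorem nontrivial_sp (B : Type) [CStarAlgebra B] [Nontrivial B] : Nontrivial (Sp B) := by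
  by_contra hK
  rw [not_nontrivial_iff_subsingleton] at hK
  exact not_subsingleton B ((Rep.rep_injective (A := B)).subsingleton)

/-- Spatial tensor products carry `α ⊗ id`. -/
theorem repNU : RepNUStmt := by
  intro A B _ _ _ G _ α
  have := nontrivial_sp B
  let π : A →⋆ₙₐ[ℂ] (Equi.Reg (Unitization ℂ A) G →L[ℂ] Equi.Reg (Unitization ℂ A) G) :=
    (Equi.cov (extAction α)).toNonUnitalStarAlgHom.comp
      (Unitization.inrNonUnitalStarAlgHom ℂ A)
  have hπ : Function.Injective π := (Equi.cov_injective _).comp Unitization.inr_injective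
  let ρ : B →⋆ₐ[ℂ] (Sp B →L[ℂ] Sp B) := Rep.rep
  obtain ⟨β, hβ⟩ := exists_action π ρ α Equi.shift Equi.shift_mul Equi.shift_one Equi.star_shift
    (fun h a => (Equi.shift_cov (extAction α) h _).trans
      (congrArg (Equi.cov (extAction α)) (extAction_inr α h a)))
  refine ⟨spatialNU π ρ, inferInstance, spatialData π ρ hπ, β,
    fun g a b => Subtype.ext (hβ g a b _ rfl), fun hc => ?_⟩
  exact ⟨_, _, inferInstance, inferInstance, inferInstance, inferInstance, inferInstance,
    inferInstance, π, ρ, β, hπ, Rep.rep_injective, hβ, hc⟩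

/-- A star isomorphism as a linear map. -/
def toLin {R R' : Type} [NonUnitalCStarAlgebra R] [NonUnitalCStarAlgebra R'] (e : R ≃⋆ₐ[ℂ] R') :
    R →ₗ[ℂ] R' where
  toFun := e
  map_add' := map_add e
  map_smul' c x := map_smul e c x

/-- Tensor data move along isomorphisms. -/
def TensorData.map {A B R R' : Type} [NonUnitalCStarAlgebra A] [CStarAlgebra B]
    [NonUnitalCStarAlgebra R] [NonUnitalCStarAlgebra R'] (T : TensorData A B R)
    (e : R ≃⋆ₐ[ℂ] R') : TensorData A B R' where
  m := T.m.compr₂ (toLin e)
  map_mul a a' b b' := by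
    show e (T.m a b) * e (T.m a' b') = e (T.m (a * a') (b * b'))
    exact (_root_.map_mul e _ _).symm.trans (congrArg e (T.map_mul a a' b b'))
  map_star a b := by
    show star (e (T.m a b)) = e (T.m (star a) (star b))
    exact (StarHomClass.map_star e _).symm.trans (congrArg e (T.map_star a b))
  norm_le a b := by
    show ‖e (T.m a b)‖ ≤ _
    rw [NonUnitalStarAlgHom.norm_map e (EquivLike.injective e)]
    exact T.norm_le a b
  dense := by
    have hc : Continuous (toLin e) :=
      (NonUnitalStarAlgHom.isometry e (EquivLike.injective e)).continuous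
    have hs : DenseRange (toLin e) := (EquivLike.surjective e).denseRange
    have hd := hs.dense_image hc T.dense
    refine hd.mono ?_
    rw [← Submodule.map_coe, Submodule.map_span, ← Set.range_comp]
    exact subset_rfl
  injective a a' h := T.injective (EquivLike.injective e h)

/-- Absorption gives a bilinear map into `A`. -/
theorem stableData : StableDataStmt := by
  intro A B _ _ _ h
  obtain ⟨H, K, _, _, _, _, _, _, π, ρ, hπ, hρ, ⟨e⟩⟩ := h
  have : Nontrivial K := by
    by_contra hK
    rw [not_nontrivial_iff_subsingleton] at hK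
    have : Subsingleton (K →L[ℂ] K) :=
      ⟨fun S T => ContinuousLinearMap.ext fun x => Subsingleton.elim _ _⟩
    exact not_subsingleton B hρ.subsingleton
  exact ⟨(spatialData π ρ hπ).map e.symm⟩

end

end Vale.P095.NU
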