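import Vale.Agent.P095.NU.Pins
import Vale.Agent.P095.Equi.Absorb

/-!
# P095: commuting stages among the fixed points of `F(A)`

A unital `Z(2,3)` among the fixed points leaves them without characters, so they have the relations
of every stage; equivariant copies of a separable invariant algebra make the copies commute.
-/

open scoped Kronecker Matrix.Norms.L2Operator
open Filter Topology

namespace Vale.P095.NU


open Vale.P101 Vale.P101.ZS Vale.P101.ZS.Absorb Vale.P095.Nonunital

noncomputable section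

/-- Commuting stages in the fixed points of a system with copies. -/
theorem stages_sys {G : Type} [Group G] [Countable G] {E : Type} [CStarAlgebra E] (sys : Sys G E)
    (x v : fixedAlg sys.act) (hx : x * x = 0)
    (hv : star v * v = 1 - (star x * x + x * star x)) (hxv : x * star x * v = v) (k : ℕ)
    (hk : 1 ≤ k) :
    ∃ (ρ₁ ρ₃ : DD (2 ^ k) (2 ^ k + 1) →⋆ₐ[ℂ] fixedAlg sys.act)
      (σ : DD.dimDrop23 →⋆ₐ[ℂ] fixedAlg sys.act),
      (∀ a b, Commute (ρ₁ a) (ρ₃ b)) ∧ (∀ a f, Commute (ρ₁ a) (σ f)) ∧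
        ∀ a f, Commute (ρ₃ a) (σ f) := by
  obtain ⟨ψ⟩ := DD.exists_dimDrop_hom x v hx hv hxv
  let F := fixedAlg sys.act
  have hfull : Full (commSet F) :=
    full_commSet ⟨fun χ => Equi.dimDrop23_no_char (χ.comp ψ)⟩
  obtain ⟨s, w, h⟩ := treeStmt F (Equi.copyProp_fixedAlg' sys.copies) hfull k hk
  obtain ⟨τ⟩ := RW.rwStmt F (2 ^ k) _ s w (Nat.le_self_pow (by omega) 2) h
  let τ' : DD (2 ^ k) (2 ^ k + 1) →⋆ₐ[ℂ] E := F.subtype.comp τ
  let U : Set E := Set.range τ' ∪ {(x : E), (v : E)}
  have hUsep : TopologicalSpace.IsSeparable U := by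
    have := ZS.Absorb.isClosed_DD (2 ^ k) (2 ^ k + 1)
    let _ : CStarAlgebra (DD (2 ^ k) (2 ^ k + 1)) := StarSubalgebra.cstarAlgebra _
    exact (isSeparable_range_hom τ').union (Set.toFinite _).isSeparable
  obtain ⟨D, hDc, hDd⟩ := hUsep
  set W : StarSubalgebra ℂ E := (StarAlgebra.adjoin ℂ U).topologicalClosure with hW
  have hWc : IsClosed (W : Set E) := StarSubalgebra.isClosed_topologicalClosure _
  have hle : W ≤ F := by
    refine StarSubalgebra.topologicalClosure_minimal (StarAlgebra.adjoin_le ?_)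
      (inferInstance : IsClosed (F : Set E))
    rintro y (⟨d, rfl⟩ | rfl | rfl)
    · exact (τ d).2
    · exact x.2
    · exact v.2
  have hWs : TopologicalSpace.IsSeparable (W : Set E) := by
    have e1 : ((StarAlgebra.adjoin ℂ D).topologicalClosure : Set E) =
        closure (StarAlgebra.adjoin ℂ D : Set E) := StarSubalgebra.topologicalClosure_coe _
    refine ((isSeparable_adjoin hDc).closure).mono ?_
    rw [← e1]
    refine SetLike.coe_subset_coe.2 (StarSubalgebra.topologicalClosure_minimal ?_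
      (StarSubalgebra.isClosed_topologicalClosure _))
    refine StarAlgebra.adjoin_le (hDd.trans ?_)
    rw [e1]
    exact closure_mono (StarAlgebra.subset_adjoin ℂ D)
  let S : Sub sys := ⟨W, hWc, hWs, fun g y hy => by rw [hle hy g]; exact hy⟩
  have hfix : ∀ b : S.S, ∀ g, S.act g b = b := fun b g =>
    Subtype.ext ((Sub.act_val S g b).trans (hle b.2 g))
  obtain ⟨S', π, hπ, hπe⟩ := exists_copies S (Fin 3)
  have hmem : ∀ i b, (π i b : E) ∈ F := fun i b g => by
    rw [← Sub.act_val S' g (π i b), ← hπe i g b, hfix b g]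
  let P : Fin 3 → (S.S →⋆ₐ[ℂ] F) := fun i => (S'.S.subtype.comp (π i)).codRestrict F (hmem i)
  let τS : DD (2 ^ k) (2 ^ k + 1) →⋆ₐ[ℂ] S.S := τ'.codRestrict S.S fun d =>
    StarSubalgebra.le_topologicalClosure _ (StarAlgebra.subset_adjoin ℂ U (Or.inl ⟨d, rfl⟩))
  let xS : S.S := ⟨x, StarSubalgebra.le_topologicalClosure _
    (StarAlgebra.subset_adjoin ℂ U (Or.inr (Or.inl rfl)))⟩
  let vS : S.S := ⟨v, StarSubalgebra.le_topologicalClosure _
    (StarAlgebra.subset_adjoin ℂ U (Or.inr (Or.inr rfl)))⟩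
  have e1 : xS * xS = 0 := Subtype.ext (congrArg (fun z : F => (z : E)) hx)
  have e2 : star vS * vS = 1 - (star xS * xS + xS * star xS) :=
    Subtype.ext (congrArg (fun z : F => (z : E)) hv)
  have e3 : xS * star xS * vS = vS := Subtype.ext (congrArg (fun z : F => (z : E)) hxv)
  obtain ⟨σ⟩ := DD.exists_dimDrop_hom xS vS e1 e2 e3
  have hP : ∀ i j, i ≠ j → ∀ a b, Commute (P i a) (P j b) := fun i j hij a b =>
    Subtype.ext (congrArg (fun z : S'.S => (z : E)) (hπ i j hij a b).eq)
  exact ⟨(P 0).comp τS, (P 1).comp τS, (P 2).comp σ, fun a b => hP 0 1 (by decide) _ _,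
    fun a f => hP 0 2 (by decide) _ _, fun a f => hP 1 2 (by decide) _ _⟩

/-- The relations give commuting stages. -/
theorem stages : StagesStmt := by
  intro A _ _ _ ω hω G _ _ α hrel k hk
  obtain ⟨x, v, hx, hv, hxv⟩ := hrel
  exact stages_sys (sysFA hω α) x v hx hv hxv k hk

end

end Vale.P095.NU
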