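import Vale.Agent.P095.NU.Pins
import Vale.Agent.P095.SI.NU.Approx
import Vale.Agent.P095.SI.NU.Tail
import Vale.Agent.P095.McDuff.SysMain
import Vale.Agent.P095.Nonunital.McDuffFA

/-!
# P095: relations of `Z(2,3)` among the fixed points when there is a weight

Equivariant uniform McDuff and property (SI) with comparison by weights as input.
-/

namespace Vale.P095.NU

open Vale.P101 Vale.P095.Nonunital

noncomputable section

/-- Full commutators exclude characters. -/
theorem noCharacters_of_commutatorsFull {A : Type} [NonUnitalCStarAlgebra A] {ω : Ultrafilter ℕ}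
    (h : CommutatorsFull A ω) : NoCharacters (FA A ω) :=
  noCharacters_of_full (full_of_commutatorsFull h)

/-- Comparison by weights gives the relations. -/
theorem tracedSI : TracedSIStmt := by
  intro A _ _ _ ω hω hs hA hfull hcmp G _ _ hG α
  exact SI.NU.fixed_relations_of_approx hω α fun D S ε hε =>
    SI.NU.approx_relations_of_compares hω hs hA hcmp hG α
      (SI.invSquareZeroSys_of_mcduff hG _ fun Q δ hδ =>
        McDuff.exists_mcduff_sys (sysFA hω α) (noCharacters_of_commutatorsFull hfull) hG Q hδ)
      D S hε

end

end Vale.P095.NU
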