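import Vale.Agent.P095.NU.Pins
import Vale.Agent.P095.Lossy.Unperf
import Vale.Agent.P095.SI.Local

/-!
# P095: almost unperforation from the relations in `F(A)`

Constants and central sequences act on the two-sided annihilator of `A` in the ultrapower of the
unitization; modulo it the relations of `F(A)` are exact and constants commute with them exactly.
The estimate of `Lossy.exists_conj` there is pulled back by cutting with a unit for `e` inside `A`.
-/

open Filter Topology

namespace Vale.P095.NU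

open Vale.P101 Vale.P101.ZS Vale.P095.Nonunital Vale.P095.SI

noncomputable section

attribute [local instance] CStarAlgebra.spectralOrder CStarAlgebra.spectralOrderedRing

section Ann

variable {B : Type*} [CStarAlgebra B] (ω : Ultrafilter ℕ) (I : Set B)

/-- The two-sided annihilator of `I` in the ultrapower. -/
def annSet : Set (Ultrapower B ω) :=
  {y | ∀ a ∈ I, y * constSeq ω a = 0 ∧ constSeq ω a * y = 0}

variable {ω I}

theorem annSet_add {x y : Ultrapower B ω} (hx : x ∈ annSet ω I) (hy : y ∈ annSet ω I) :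
    x + y ∈ annSet ω I := fun a ha => by
  rw [add_mul, mul_add, (hx a ha).1, (hx a ha).2, (hy a ha).1, (hy a ha).2, add_zero]
  exact ⟨rfl, rfl⟩

theorem isClosed_annSet : IsClosed (annSet ω I) := by
  have : annSet ω I = ⋂ a ∈ I, {y : Ultrapower B ω | y * constSeq ω a = 0} ∩
      {y : Ultrapower B ω | constSeq ω a * y = 0} := by
    ext y
    simp [annSet]
  rw [this]
  exact isClosed_biInter fun a _ =>
    (isClosed_eq (continuous_id'.mul continuous_const) continuous_const).inter
      (isClosed_eq (Continuous.mul (f := fun _ => constSeq ω a) (g := fun y => y) continuous_const continuous_id')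
        continuous_const)

variable (ω I) in
/-- The idealizer of the annihilator. -/
def idealizer : StarSubalgebra ℂ (Ultrapower B ω) where
  carrier := {x | ∀ y ∈ annSet ω I, (x * y ∈ annSet ω I ∧ y * x ∈ annSet ω I) ∧
    (star x * y ∈ annSet ω I ∧ y * star x ∈ annSet ω I)}
  mul_mem' {x z} hx hz y hy := by
    refine ⟨⟨?_, ?_⟩, ⟨?_, ?_⟩⟩
    · rw [mul_assoc]; exact (hx _ (hz y hy).1.1).1.1
    · rw [← mul_assoc]; exact (hz _ (hx y hy).1.2).1.2
    · rw [star_mul, mul_assoc]; exact (hz _ (hx y hy).2.1).2.1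
    · rw [star_mul, ← mul_assoc]; exact (hx _ (hz y hy).2.2).2.2
  add_mem' {x z} hx hz y hy := by
    rw [star_add, add_mul, mul_add, add_mul, mul_add]
    exact ⟨⟨annSet_add (hx y hy).1.1 (hz y hy).1.1, annSet_add (hx y hy).1.2 (hz y hy).1.2⟩,
      ⟨annSet_add (hx y hy).2.1 (hz y hy).2.1, annSet_add (hx y hy).2.2 (hz y hy).2.2⟩⟩
  algebraMap_mem' c := fun y hy => by
    have key : ∀ d : ℂ, algebraMap ℂ (Ultrapower B ω) d * y ∈ annSet ω I ∧
        y * algebraMap ℂ (Ultrapower B ω) d ∈ annSet ω I := fun d => by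
      refine ⟨fun a ha => ?_, fun a ha => ?_⟩
      · rw [Algebra.algebraMap_eq_smul_one, smul_one_mul, smul_mul_assoc, (hy a ha).1, smul_zero,
          mul_smul_comm, (hy a ha).2, smul_zero]
        exact ⟨rfl, rfl⟩
      · rw [Algebra.algebraMap_eq_smul_one, mul_smul_comm, mul_one, smul_mul_assoc, (hy a ha).1,
          smul_zero, mul_smul_comm, (hy a ha).2, smul_zero]
        exact ⟨rfl, rfl⟩
    exact ⟨key c, by rw [← algebraMap_star_comm]; exact key _⟩
  star_mem' {x} hx y hy := by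
    rw [star_star]
    exact ⟨(hx y hy).2, (hx y hy).1⟩

instance : IsClosed (idealizer ω I : Set (Ultrapower B ω)) := by
  have : (idealizer ω I : Set (Ultrapower B ω)) = ⋂ y ∈ annSet ω I,
      ({x | x * y ∈ annSet ω I} ∩ {x | y * x ∈ annSet ω I}) ∩
        ({x | star x * y ∈ annSet ω I} ∩ {x | y * star x ∈ annSet ω I}) := by
    ext x
    simp [idealizer]
  rw [this]
  refine isClosed_biInter fun y _ => ((isClosed_annSet.preimage ?_).inter
    (isClosed_annSet.preimage ?_)).inter ((isClosed_annSet.preimage ?_).inter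
      (isClosed_annSet.preimage ?_)) <;> fun_prop

instance : CStarAlgebra (idealizer ω I) := StarSubalgebra.cstarAlgebra _

theorem central_mem_idealizer {x : Ultrapower B ω} (hx : x ∈ Central B ω) :
    x ∈ idealizer ω I := by
  have key : ∀ z : Ultrapower B ω, z ∈ Central B ω → ∀ y ∈ annSet ω I,
      z * y ∈ annSet ω I ∧ y * z ∈ annSet ω I := fun z hz y hy => by
    refine ⟨fun a ha => ⟨?_, ?_⟩, fun a ha => ⟨?_, ?_⟩⟩
    · rw [mul_assoc, (hy a ha).1, mul_zero]
    · rw [← mul_assoc, ((mem_central ω).1 hz a).eq, mul_assoc, (hy a ha).2, mul_zero]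
    · rw [mul_assoc, ← ((mem_central ω).1 hz a).eq, ← mul_assoc, (hy a ha).1, zero_mul]
    · rw [← mul_assoc, (hy a ha).2, zero_mul]
  exact fun y hy => ⟨key x hx y hy, key _ (star_mem hx) y hy⟩

variable (hI : ∀ b, ∀ a ∈ I, b * a ∈ I ∧ a * b ∈ I)

include hI in
theorem const_mem_idealizer (b : B) : constSeq ω b ∈ idealizer ω I := by
  have hc : ∀ u v : B, constSeq ω u * constSeq ω v = constSeq ω (u * v) := fun u v =>
    (map_mul (constHom ω) u v).symm
  have key : ∀ b : B, ∀ y ∈ annSet ω I,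
      constSeq ω b * y ∈ annSet ω I ∧ y * constSeq ω b ∈ annSet ω I := fun b y hy => by
    refine ⟨fun a ha => ⟨?_, ?_⟩, fun a ha => ⟨?_, ?_⟩⟩
    · rw [mul_assoc, (hy a ha).1, mul_zero]
    · rw [← mul_assoc, hc, (hy _ (hI b a ha).2).2]
    · rw [mul_assoc, hc, (hy _ (hI b a ha).1).1]
    · rw [← mul_assoc, (hy a ha).2, zero_mul]
  exact fun y hy => ⟨key b y hy, by
    rw [show star (constSeq ω b) = constSeq ω (star b) from (map_star (constHom ω) b).symm]
    exact key _ y hy⟩

variable (hIs : ∀ a ∈ I, star a ∈ I)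

/-- The annihilator as an ideal of its idealizer. -/
def annCIdeal : CIdeal (idealizer ω I) where
  toIdeal :=
    { carrier := {x | (x : Ultrapower B ω) ∈ annSet ω I}
      add_mem' := fun hx hy => annSet_add hx hy
      zero_mem' := fun a _ => ⟨zero_mul _, mul_zero _⟩
      smul_mem' := fun c x hx => (c.2 _ hx).1.1 }
  right_mem x y hx := (y.2 _ hx).1.2
  star_mem x hx := by
    intro a ha
    show star (x : Ultrapower B ω) * _ = 0 ∧ _ * star (x : Ultrapower B ω) = 0
    have hs : ∀ u : B, star (constSeq ω u) = constSeq ω (star u) := fun u =>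
      (map_star (constHom ω) u).symm
    refine ⟨star_injective ?_, star_injective ?_⟩
    · rw [star_mul, star_star, star_zero, hs]; exact (hx _ (hIs a ha)).2
    · rw [star_mul, star_star, star_zero, hs]; exact (hx _ (hIs a ha)).1
  closed := isClosed_annSet.preimage continuous_subtype_val

variable (ω) in
/-- The constants in the idealizer. -/
def constIdl : B →⋆ₐ[ℂ] idealizer ω I :=
  (constHom ω).codRestrict (idealizer ω I) fun b => const_mem_idealizer hI b

/-- An estimate modulo the annihilator descends after cutting by `q ∈ I`. -/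
theorem exists_lift_cut {a e q : B} (hq : q ∈ I) (hqs : star q = q) (hq1 : ‖q‖ ≤ 1)
    (w : (annCIdeal (ω := ω) hIs).Quo) {ε : ℝ}
    (h : ‖star w * (annCIdeal hIs).proj (constIdl ω hI a) * w -
      (annCIdeal hIs).proj (constIdl ω hI e)‖ < ε) :
    ∃ w' : B, ‖star w' * a * w' - q * e * q‖ < ε := by
  obtain ⟨W, rfl⟩ := (annCIdeal (ω := ω) hIs).proj_surjective w
  rw [← map_star, ← map_mul, ← map_mul, ← map_sub] at h
  set x := star W * constIdl ω hI a * W - constIdl ω hI e with hx
  obtain ⟨b, hb, hbn⟩ := quot_exists_norm_lt (annCIdeal hIs).toIdeal ((annCIdeal hIs).proj x)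
    (sub_pos.2 h)
  rw [add_sub_cancel] at hbn
  have hd : b - x ∈ (annCIdeal (ω := ω) hIs).toIdeal := Ideal.Quotient.eq.1 hb
  have hz : constSeq ω q * ((b : Ultrapower B ω) - (x : Ultrapower B ω)) = 0 := (hd q hq).2
  obtain ⟨f, hf⟩ := cls_surjective ω ((W : Ultrapower B ω) * constHom ω q)
  have hkey : constHom ω q * (b : Ultrapower B ω) * constHom ω q =
      star (cls ω f) * constHom ω a * cls ω f - constHom ω (q * e * q) := by
    have h2 : constHom ω q * ((b : Ultrapower B ω) - (x : Ultrapower B ω)) * constHom ω q = 0 := by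
      show constSeq ω q * _ * _ = 0
      rw [hz, zero_mul]
    rw [mul_sub, sub_mul, sub_eq_zero] at h2
    rw [h2, hf, star_mul, ← map_star, hqs, map_mul, map_mul]
    show constHom ω q * (star (W : Ultrapower B ω) * constHom ω a * (W : Ultrapower B ω) -
      constHom ω e) * constHom ω q = _
    rw [mul_sub, sub_mul]
    simp only [mul_assoc]
  have hQ : ‖constHom ω q‖ ≤ 1 := (NonUnitalStarAlgHom.norm_apply_le (constHom ω) q).trans hq1
  have hfin : ‖star (cls ω f) * constSeq ω a * cls ω f - constSeq ω (q * e * q)‖ < ε := by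
    refine lt_of_le_of_lt ?_ hbn
    show ‖star (cls ω f) * constHom ω a * cls ω f - constHom ω (q * e * q)‖ ≤ ‖(b : Ultrapower B ω)‖
    rw [← hkey]
    calc _ ≤ ‖constHom ω q‖ * ‖(b : Ultrapower B ω)‖ * ‖constHom ω q‖ := norm_mul₃_le
      _ ≤ 1 * ‖(b : Ultrapower B ω)‖ * 1 := by gcongr
      _ = _ := by rw [one_mul, mul_one]
  rw [star_cls, ← map_mul, ← map_mul, ← map_sub, norm_cls] at hfin
  obtain ⟨m, hm⟩ := ((tendsto_limNorm ω _).eventually (eventually_lt_nhds hfin)).exists
  exact ⟨f m, hm⟩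

end Ann

/-- A unit for `e` inside `A`. -/
theorem exists_cutter {A : Type*} [NonUnitalCStarAlgebra A] {e : Unitization ℂ A}
    (he : e ∈ inrSet A) (hpos : IsPos e) {η : ℝ} (hη : 0 < η) :
    ∃ k ∈ inrSet A, IsSelfAdjoint k ∧ ‖k‖ ≤ 1 ∧ ‖k * e * k - e‖ ≤ η := by
  have he0 := loc_nonneg hpos
  obtain ⟨e', rfl⟩ := he
  set E : Unitization ℂ A := (Unitization.inr e' : Unitization ℂ A) with hE
  let f : ℝ → ℝ := fun t => min 1 (|t| / η)
  have hf : Continuous f := by fun_prop
  have hf0 : ∀ t, 0 ≤ f t := fun t => le_min zero_le_one (by positivity)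
  refine ⟨cfc f E, ⟨_, Unitization.real_cfcₙ_eq_cfc_inr e' f (by simp [f])⟩,
    cfc_predicate _ _, norm_cfc_le zero_le_one fun t _ => ?_, ?_⟩
  · rw [Real.norm_of_nonneg (hf0 t)]; exact min_le_left _ _
  · conv_lhs => arg 1; arg 1; arg 1; arg 2; rw [← cfc_id' ℝ E he0.isSelfAdjoint]
    conv_lhs => arg 1; arg 2; rw [← cfc_id' ℝ E he0.isSelfAdjoint]
    rw [← cfc_mul f (fun t => t) E hf.continuousOn (by fun_prop),
      ← cfc_mul _ f E (hf.fun_mul continuous_id').continuousOn hf.continuousOn,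
      ← cfc_sub _ (fun t : ℝ => t) E ((hf.fun_mul continuous_id').fun_mul hf).continuousOn
        (by fun_prop)]
    refine norm_cfc_le hη.le fun t ht => ?_
    have h0 : 0 ≤ t := spectrum_nonneg_of_nonneg he0 ht
    have h1 : f t ≤ 1 := min_le_left _ _
    rcases le_total η t with h | h
    · have : f t = 1 := min_eq_left (by rw [abs_of_nonneg h0, one_le_div hη]; exact h)
      simp [this, hη.le]
    · rw [Real.norm_eq_abs, abs_le]
      have h2 : f t * t * f t ≤ t := by
        nlinarith [hf0 t, mul_le_mul h1 h1 (hf0 t) zero_le_one]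
      have h3 : 0 ≤ f t * t * f t := by have := hf0 t; positivity
      constructor <;> linarith

/-- Almost unperforation from the relations in `F(A)`. -/
theorem unperfNU : UnperfNUStmt := by
  intro A _ _ ω _ hRW e a he _ hepos _ K j hK hjK hle ε hε
  obtain ⟨k, hk, hkK⟩ : ∃ k : ℕ, 1 ≤ k ∧ 8 * K ≤ 2 ^ k :=
    ⟨8 * K, by omega, Nat.lt_two_pow_self.le⟩
  set n := 2 ^ k with hn
  have hnK : (n / K + 2) * j ≤ n := by
    have h1 : n / K * K ≤ n := Nat.div_mul_le_self n K
    have h2 := Nat.mul_le_mul_left (n / K) hjK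
    nlinarith
  obtain ⟨s, v, hsv⟩ := hRW k hk
  have hI : ∀ b : (Unitization ℂ A), ∀ x ∈ inrSet A, b * x ∈ inrSet A ∧ x * b ∈ inrSet A := by
    rintro b _ ⟨x, rfl⟩
    exact ⟨⟨(b * Unitization.inr x).snd, Unitization.ext (by simp) (by simp)⟩,
      ⟨(Unitization.inr x * b).snd, Unitization.ext (by simp) (by simp)⟩⟩
  have hIs : ∀ x ∈ inrSet A, star x ∈ inrSet A := by
    rintro _ ⟨x, rfl⟩
    exact ⟨star x, by simp⟩
  let U : StarSubalgebra ℂ (Ultrapower (Unitization ℂ A) ω) := idealizer ω (inrSet A)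
  let J : CIdeal U := annCIdeal hIs
  let c : (Unitization ℂ A) →⋆ₐ[ℂ] J.Quo := J.proj.comp
    (constIdl ω hI)
  let inc : Central (Unitization ℂ A) ω →⋆ₐ[ℂ] J.Quo := J.proj.comp
    (StarSubalgebra.inclusion fun x hx => central_mem_idealizer hx)
  obtain ⟨φ, hφ⟩ : ∃ φ : FA A ω →⋆ₐ[ℂ] J.Quo, ∀ x, φ (relProj (Unitization ℂ A) ω (inrSet A) x) = inc x :=
    (annIdeal (Unitization ℂ A) ω (inrSet A)).exists_lift inc fun x hx => J.proj_eq_zero.2 fun b hb =>
    ⟨(hx b hb).1, by
      show constSeq ω b * (x : Ultrapower (Unitization ℂ A) ω) = 0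
      rw [((mem_central ω).1 x.2 b).eq]; exact (hx b hb).1⟩
  have hcomm : ∀ (z : FA A ω) (y : (Unitization ℂ A)), Commute (c y) (φ z) := fun z y => by
    obtain ⟨x, rfl⟩ := relProj_surjective (Unitization ℂ A) ω (inrSet A) z
    rw [hφ]
    refine Commute.map (f := J.proj) ?_
    exact Subtype.ext ((mem_central ω).1 x.2 y).eq
  have hcomm' : ∀ (z : FA A ω) (y : (Unitization ℂ A)), Commute (c y) (star (φ z)) := fun z y => by
    rw [← map_star]; exact hcomm _ y
  obtain ⟨r, hr⟩ := hsv.pos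
  have hn0 : 0 < n := Nat.two_pow_pos k
  obtain ⟨θ, hθ, hθe⟩ : ∃ θ : ℝ, 0 < θ ∧ (‖c e‖ * (n * θ) : ℝ) < ε / 4 := by
    refine ⟨ε / (8 * (‖c e‖ * n + 1)), by positivity, ?_⟩
    rw [← mul_assoc, ← mul_div_assoc, div_lt_iff₀ (by positivity)]
    nlinarith [mul_nonneg (norm_nonneg (c e)) (Nat.cast_nonneg (α := ℝ) n)]
  obtain ⟨C, hC, hw⟩ := Lossy.exists_conj hK hnK (hn0 := hn0) (s := fun i => φ (s i)) (v := φ v)
    (e := c e) (a := c a) (φ r) (by rw [← map_star, ← map_mul]; exact congrArg φ hr)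
    (fun i i' => by rw [← map_star, ← map_mul, hsv.orth i i']; split_ifs <;> simp)
    (by simp only [← map_star, ← map_mul]; rw [hsv.defect, map_sub, map_one, map_sum])
    (by rw [← map_mul, hsv.absorb]) (fun i => ⟨hcomm _ e, hcomm' _ e⟩) ⟨hcomm _ e, hcomm' _ e⟩
    (fun i => ⟨hcomm _ a, hcomm' _ a⟩) hθ
  obtain ⟨R, hR⟩ := hle (ε / (4 * (C + 1))) (by positivity)
  obtain ⟨w, hw⟩ := hw (ε / (4 * (C + 1))) (fun l κ => c (R l κ))
    (fun l κ => by rw [← map_star]; exact hcomm _ _) fun κ κ' => by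
      rw [show (if κ = κ' then c e else 0) = c (if κ = κ' then e else 0) by
        split_ifs <;> simp]
      simp only [← map_star, ← map_mul, ← map_sum, ← map_sub]
      exact (NonUnitalStarAlgHom.norm_apply_le c _).trans (hR κ κ')
  have hlt : ‖star w * c a * w - c e‖ < ε / 2 := by
    have hC1 : C * (ε / (4 * (C + 1))) ≤ ε / 4 := by
      rw [← mul_div_assoc, div_le_iff₀ (by positivity)]
      nlinarith
    linarith
  obtain ⟨q, hq, hqs, hq1, hqe⟩ := exists_cutter he hepos (η := ε / 4) (by linarith)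
  obtain ⟨w', hw'⟩ := exists_lift_cut hI hIs hq hqs.star_eq hq1 w hlt
  refine ⟨w', ?_⟩
  linarith [norm_sub_le_norm_sub_add_norm_sub (star w' * a * w') (q * e * q) e]

end

end Vale.P095.NU
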