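import Vale.Agent.P095.NU.Pins
import Vale.Agent.P095.Lossy.Main
import Vale.Agent.P095.Lossy.Mat
import Vale.Agent.P095.Lossy.Pull
import Vale.Agent.P095.Lossy.Pedersen

/-!
# P095: small weights give few copies, without a unit

Inside the cut algebra of `G 1` this is the unital lossy estimate; multiplying the conjugators by
`G 0` on the right moves the target from `1` to `G 1 * G 1`.
-/

open scoped ENNReal

namespace Vale.P095.NU

open Vale.P101 Vale.P095.Nonunital Vale.P095.SI Vale.P095.Tracial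

noncomputable section

attribute [local instance] CStarAlgebra.spectralOrder CStarAlgebra.spectralOrderedRing

variable {A : Type} [NonUnitalCStarAlgebra A]

theorem isSelfAdjoint_of_isPos {B : Type*} [CStarAlgebra B] {a : B} (h : IsPos a) :
    IsSelfAdjoint a := by
  obtain ⟨y, rfl⟩ := h
  exact IsSelfAdjoint.star_mul_self y

omit [NonUnitalCStarAlgebra A] in
theorem fst_of_mem {z : Unitization ℂ A} (h : z ∈ inrSet A) : z.fst = 0 := by
  obtain ⟨a, rfl⟩ := h
  exact Unitization.fst_inr _ a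

omit [NonUnitalCStarAlgebra A] in
theorem eq_inr_of_mem {z : Unitization ℂ A} (h : z ∈ inrSet A) :
    (z.snd : Unitization ℂ A) = z := by
  obtain ⟨a, rfl⟩ := h
  simp

/-- Elements of `A` fixed by `G` lie in the cut algebra. -/
theorem mem_cutAlg {G z : Unitization ℂ A} (hG : IsSelfAdjoint G) (hz : z ∈ inrSet A)
    (h1 : G * z = z) (h2 : z * G = z) : z ∈ cutAlg G := by
  show FixedBy G (z.snd : Unitization ℂ A)
  rw [eq_inr_of_mem hz, FixedBy, hG.star_eq]
  exact ⟨h1, h2, h1, h2⟩

/-- A selfadjoint element with nonnegative spectrum is a square. -/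
theorem exists_sqrt {B : Type*} [CStarAlgebra B] {b : B} (hb : IsSelfAdjoint b)
    (hs : ∀ r ∈ spectrum ℝ b, 0 ≤ r) : ∃ s : B, star s * s = b ∧ s * s = b := by
  have h0 : 0 ≤ b := (StarOrderedRing.nonneg_iff_spectrum_nonneg b hb).2 hs
  have h2 := CFC.sqrt_mul_sqrt_self b h0
  exact ⟨CFC.sqrt b, by rw [(CFC.sqrt_nonneg b).isSelfAdjoint.star_eq, h2], h2⟩

/-- A tracial state is at most `1` on the square of a contraction. -/
theorem re_trace_sq_le_one {B : Type*} [CStarAlgebra B] (τ : TracialState B) {g : B}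
    (hg : ‖g‖ ≤ 1) : (τ.toLin (star g * g)).re ≤ 1 := by
  have h1 : star g * g ≤ 1 := (CStarAlgebra.norm_le_one_iff_of_nonneg _ (star_mul_self_nonneg g)).1
    (by rw [CStarRing.norm_star_mul_self]; exact mul_le_one₀ hg (norm_nonneg _) hg)
  have h2 := CFC.sqrt_mul_sqrt_self (1 - star g * g) (sub_nonneg.2 h1)
  have h := (τ.nonneg (CFC.sqrt (1 - star g * g))).1
  rw [(CFC.sqrt_nonneg (1 - star g * g)).isSelfAdjoint.star_eq, h2, map_sub, τ.map_one,
    Complex.sub_re, Complex.one_re] at h
  linarith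

/-- The statement `UpperNUStmt`, from the extension of weights and nuclearity of cut algebras. -/
theorem upperNU_of : WeightExtStmt → CutCPAPStmt → UpperNUStmt := by
  intro hW hN A _ hA G hG k hk ε hε
  have hsa : ∀ n, IsSelfAdjoint (G n) := fun n => isSelfAdjoint_of_isPos (hG.pos n)
  set C := cutAlg (G 1)
  have hC : Vale.P095.SI.HasCPAP C :=
    hN A (G 1) (hsa 1) (hG.mem 1) ⟨G 2, hG.mem 2, hsa 2, hG.fix 1⟩ hA
  obtain ⟨θ, hθ, hθ'⟩ := Lossy.upper_copies (A := C) Lossy.mat Lossy.pull Lossy.upper hC hk hε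
  refine ⟨θ, hθ, fun v hv hpos hv1 hGv hτ => ?_⟩
  have hvsa := isSelfAdjoint_of_isPos hpos
  have hvG : v * G 0 = v := by
    have h := congrArg star hGv
    rwa [star_mul, hvsa.star_eq, (hsa 0).star_eq] at h
  have hG1v : G 1 * v = v := by
    calc G 1 * v = G 1 * (G 0 * v) := by rw [hGv]
      _ = G 1 * G 0 * v := (mul_assoc _ _ _).symm
      _ = v := by rw [hG.fix 0, hGv]
  have hvG1 : v * G 1 = v := by
    have h := congrArg star hG1v
    rwa [star_mul, hvsa.star_eq, (hsa 1).star_eq] at h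
  have hG01 : G 0 * G 1 = G 0 := by
    have h := congrArg star (hG.fix 0)
    rwa [star_mul, (hsa 0).star_eq, (hsa 1).star_eq] at h
  let vC : C := ⟨v, mem_cutAlg (hsa 1) hv hG1v hvG1⟩
  let gC : C := ⟨G 0, mem_cutAlg (hsa 1) (hG.mem 0) (hG.fix 0) hG01⟩
  obtain ⟨y₀, hy₀⟩ := hpos
  have hv0 : (0 : Unitization ℂ A) ≤ v := hy₀ ▸ star_mul_self_nonneg y₀
  obtain ⟨s, hs, hss⟩ := exists_sqrt (b := vC) (Subtype.ext hvsa.star_eq) fun r hr =>
    spectrum_nonneg_of_nonneg hv0 (by
      rw [← IsSelfAdjoint.map_spectrum_real (a := vC) (Subtype.ext hvsa.star_eq) C.subtype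
        Subtype.coe_injective] at hr
      exact hr)
  have hvC : IsPos vC := ⟨s, hs.symm⟩
  -- tracial states of the cut algebra are small at `v`
  have htr : ∀ τ : TracialState C, (τ.toLin vC).re < θ := by
    intro τ
    let p : Submodule ℝ (Unitization ℂ A) :=
      (C.toSubalgebra.toSubmodule).restrictScalars ℝ
    let φ₀ : p →ₗ[ℝ] ℝ :=
      { toFun := fun x => (τ.toLin ⟨x.1, x.2⟩).re
        map_add' := fun x y => by
          show (τ.toLin (⟨x.1, x.2⟩ + ⟨y.1, y.2⟩ : C)).re = _
          rw [map_add, Complex.add_re]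
        map_smul' := fun r x => by
          show (τ.toLin (r • (⟨x.1, x.2⟩ : C))).re = _
          rw [LinearMap.map_smul_of_tower, Complex.real_smul, Complex.re_ofReal_mul]
          rfl }
    obtain ⟨φ, hφ⟩ := φ₀.exists_extend
    have hφ' : ∀ x : C, φ x.1 = (τ.toLin x).re := fun x => LinearMap.congr_fun hφ ⟨x.1, x.2⟩
    have hmem : ∀ x ∈ inrSet A, FixedBy (G 1) x → x ∈ C := fun x hx h => by
      show FixedBy (G 1) (x.snd : Unitization ℂ A)
      rwa [eq_inr_of_mem hx]
    obtain ⟨σ, hσ⟩ := hW A (G 1) (hsa 1) (hG.mem 1) φ 2 fun x hx h => by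
      obtain ⟨x', rfl⟩ : ∃ x' : C, x'.1 = x := ⟨⟨x, hmem x hx h⟩, rfl⟩
      refine ⟨?_, ?_, ?_⟩
      · have := (τ.nonneg x').1
        rwa [← hφ'] at this
      · show φ (star x' * x' : C).1 = φ (x' * star x' : C).1
        rw [hφ', hφ', τ.tracial]
      · rw [hφ']
        exact (Complex.abs_re_le_norm _).trans (τ.norm_apply_le x')
    have hfix : ∀ x : C, x.1.fst = 0 → FixedBy (G 1) (x.1.snd : Unitization ℂ A) := fun x _ => x.2
    have hval : ∀ x : C, x.1.fst = 0 →
        σ.toFun (star x * x : C).1.snd = ENNReal.ofReal (τ.toLin (star x * x)).re := by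
      intro x hx
      have hxe : (x.1.snd : Unitization ℂ A) = x.1 :=
        Unitization.ext (by simp [hx]) (by simp)
      have h := hσ x.1.snd (hfix x hx)
      rw [hxe, show star x.1 * x.1 = ((star x * x : C) : Unitization ℂ A) from rfl, hφ'] at h
      rw [← h]
      congr 1
      show (star x.1 * x.1).snd = _
      conv_lhs => rw [← hxe, ← Unitization.inr_star, ← Unitization.inr_mul]
      simp
    have h0 : σ.toFun (G 0 * G 0).snd ≤ 1 := by
      have h := hval gC (fst_of_mem (hG.mem 0))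
      have e : ((star gC * gC : C) : Unitization ℂ A) = G 0 * G 0 := by
        show star (G 0) * G 0 = _
        rw [(hsa 0).star_eq]
      rw [e] at h
      rw [h, ← ENNReal.ofReal_one]
      exact ENNReal.ofReal_le_ofReal (re_trace_sq_le_one τ (hG.norm_le 0))
    have hs0 : s.1.fst = 0 := by
      have := congrArg (fun w : C => w.1.fst) hss
      simp only [MulMemClass.coe_mul, Unitization.fst_mul] at this
      exact mul_self_eq_zero.1 (this.trans (fst_of_mem hv))
    have h := hval _ hs0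
    rw [hs] at h
    have h2 := hτ σ h0
    rw [show v.snd = (vC : Unitization ℂ A).snd from rfl, h, ENNReal.ofReal_lt_ofReal_iff hθ] at h2
    exact h2
  obtain ⟨D, d, hD, hDd, hcop⟩ := hθ' vC hvC hv1 htr
  refine ⟨D, d, hD, hDd, ?_⟩
  -- push out of the cut algebra
  set f : ℝ → ℝ := fun r => max (r - ε) 0 with hf
  set h : ℝ → ℝ := fun r => max (r - ε) 0 / max r ε with hh
  have hcont : Continuous h :=
    ((continuous_id.sub continuous_const).max continuous_const).div
      (continuous_id.max continuous_const) fun r => (lt_of_lt_of_le hε (le_max_right _ _)).ne'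
  have hfh : ∀ r, f r = r * h r := fun r => by
    rcases le_or_gt r ε with hr | hr
    · simp [hf, hh, max_eq_right (sub_nonpos.2 hr)]
    · simp [hf, hh, max_eq_left hr.le, mul_div_cancel₀ _ (hε.trans hr).ne']
  have e1 : cfc f v = v * cfc h v := by
    rw [cfc_congr fun r _ => hfh r, cfc_mul (fun r => r) h v (by fun_prop) hcont.continuousOn,
      cfc_id' ℝ v hvsa]
  have hfG : G 0 * cfc f v = cfc f v := by rw [e1, ← mul_assoc, hGv]
  have hfG' : cfc f v * G 0 = cfc f v := by
    have h := congrArg star hfG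
    rwa [star_mul, (hsa 0).star_eq, (cfc_predicate f v : IsSelfAdjoint _).star_eq] at h
  have hsub : ((cfc (fun r : ℝ => max 0 (r - ε)) vC : C) : Unitization ℂ A) = cfc f v := by
    have hmap := StarAlgHom.map_cfc (C.subtype.restrictScalars ℝ) (fun r : ℝ => max 0 (r - ε)) vC
      (by fun_prop) (by exact continuous_subtype_val) (Subtype.ext hvsa.star_eq) hvsa
    exact hmap.trans (cfc_congr fun r _ => max_comm _ _)
  intro η hη
  obtain ⟨Q, hQ⟩ := hcop η hη
  refine ⟨fun l s => (Q l s).1 * G 0, fun s t => ?_⟩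
  have habs : ∀ x : C, G 1 * (x.1 * G 0) = x.1 * G 0 := by
    intro x
    have hx : G 1 * (x.1.snd : Unitization ℂ A) = (x.1.snd : Unitization ℂ A) := x.2.1
    conv_lhs => rw [← Unitization.inl_fst_add_inr_snd_eq x.1]
    conv_rhs => rw [← Unitization.inl_fst_add_inr_snd_eq x.1]
    rw [← Unitization.algebraMap_eq_inl, add_mul, mul_add, Algebra.algebraMap_eq_smul_one,
      smul_mul_assoc, one_mul, mul_smul_comm, hG.fix 0, ← mul_assoc, hx]
  have e2 : ∀ a b : C, star (a.1 * G 0) * (G 1 * G 1) * (b.1 * G 0) =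
      G 0 * (star a * 1 * b : C).1 * G 0 := by
    intro a b
    calc star (a.1 * G 0) * (G 1 * G 1) * (b.1 * G 0)
        = star (G 1 * (a.1 * G 0)) * (G 1 * (b.1 * G 0)) := by
          rw [star_mul (G 1), (hsa 1).star_eq]; simp only [mul_assoc]
      _ = _ := by
          rw [habs, habs, star_mul, (hsa 0).star_eq, mul_one]
          simp [mul_assoc]
  have key : (∑ l, star ((Q l s).1 * G 0) * (G 1 * G 1) * ((Q l t).1 * G 0)) -
      (if s = t then cfc f v else 0) =
      G 0 * ((∑ l, star (Q l s) * 1 * Q l t) -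
        (if s = t then cfc (fun r : ℝ => max 0 (r - ε)) vC else 0) : C).1 * G 0 := by
    simp only [e2, AddSubgroupClass.coe_sub, AddSubmonoidClass.coe_finsetSum, mul_sub, sub_mul,
      Finset.mul_sum, Finset.sum_mul]
    congr 1
    split_ifs
    · rw [hsub, hfG, hfG']
    · simp
  rw [key]
  refine (norm_mul₃_le).trans ?_
  calc ‖G 0‖ * _ * ‖G 0‖ ≤ 1 * η * 1 :=
        mul_le_mul (mul_le_mul (hG.norm_le 0) (hQ s t) (norm_nonneg _) zero_le_one) (hG.norm_le 0)
          (norm_nonneg _) (by linarith)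
    _ = η := by ring

end

end Vale.P095.NU
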