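import Vale.Agent.P095.NU.Pins

/-!
# P095: extension of tracial functionals to weights, and nuclearity of cut algebras

For a functional `φ` which is a bounded positive trace on the elements fixed by `G`, the value of
the weight at `u` is the supremum of `φ (∑ y⋆y)` over finite families with `y G = y` and
`∑ y y⋆ ≤ u`. The splitting of such a family below a sum gives additivity and the trace property.

For the cut algebra the point at infinity is one more matrix block: `z` goes to
`ρ (G' z G') ⊕ fst z`, and back by `k ψ k + l (1 - k²)` with an approximate unit `k`.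
-/

open scoped NNReal ENNReal

namespace Vale.P095.NU

open Unitization Vale.P095.Nonunital Vale.P095.SI

noncomputable section

attribute [local instance] CStarAlgebra.spectralOrder CStarAlgebra.spectralOrderedRing

namespace Ext

variable {A : Type*} [NonUnitalCStarAlgebra A]

theorem ofMatrix_fun_apply {m n α : Type*} (f : m → n → α) (i : m) (j : n) :
    CStarMatrix.ofMatrix f i j = f i j := rfl

omit [NonUnitalCStarAlgebra A] in
theorem mem_inr [Zero A] {x : Unitization ℂ A} : x ∈ inrSet A ↔ x.fst = 0 :=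
  ⟨fun ⟨a, ha⟩ => by rw [← ha]; simp, fun h => ⟨x.snd, Unitization.ext (by simp [h]) (by simp)⟩⟩

omit [NonUnitalCStarAlgebra A] in
theorem inr_snd [Zero A] {x : Unitization ℂ A} (h : x ∈ inrSet A) :
    (inr x.snd : Unitization ℂ A) = x := by
  obtain ⟨a, rfl⟩ := h
  rw [snd_inr]

theorem mem_mul_right {x : Unitization ℂ A} (b : Unitization ℂ A) (h : x ∈ inrSet A) :
    x * b ∈ inrSet A := mem_inr.2 (by simp [mem_inr.1 h])

theorem mem_mul_left {x : Unitization ℂ A} (b : Unitization ℂ A) (h : x ∈ inrSet A) :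
    b * x ∈ inrSet A := mem_inr.2 (by simp [mem_inr.1 h])

theorem mem_star {x : Unitization ℂ A} (h : x ∈ inrSet A) : star x ∈ inrSet A :=
  mem_inr.2 (by simp [mem_inr.1 h])

theorem mem_sum {ι : Type*} (s : Finset ι) {x : ι → Unitization ℂ A}
    (h : ∀ i ∈ s, x i ∈ inrSet A) : ∑ i ∈ s, x i ∈ inrSet A := by
  classical
  induction s using Finset.induction with
  | empty => exact mem_inr.2 (by simp)
  | @insert i s hi ih =>
    rw [Finset.sum_insert hi, mem_inr, Unitization.fst_add, mem_inr.1 (h i (by simp)),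
      mem_inr.1 (ih fun j hj => h j (Finset.mem_insert_of_mem hj)), add_zero]

variable {G : Unitization ℂ A} (hG : IsSelfAdjoint G)
include hG

theorem fixedBy_mk {x : Unitization ℂ A} (h1 : G * x = x) (h2 : x * G = x) : FixedBy G x :=
  ⟨h1, h2, by rw [hG.star_eq, h1], by rw [hG.star_eq, h2]⟩

theorem fixedBy_sa {x : Unitization ℂ A} (hx : IsSelfAdjoint x) (h : x * G = x) :
    FixedBy G x := by
  refine fixedBy_mk hG ?_ h
  have := congrArg star h
  rwa [star_mul, hx.star_eq, hG.star_eq] at this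

theorem fixedBy_sq {y : Unitization ℂ A} (h : y * G = y) : FixedBy G (star y * y) :=
  fixedBy_sa hG (IsSelfAdjoint.star_mul_self y) (by rw [mul_assoc, h])

theorem fixedBy_star {x : Unitization ℂ A} (h : FixedBy G x) : FixedBy G (star x) :=
  fixedBy_mk hG (by simpa [hG.star_eq] using congrArg star h.2.1)
    (by simpa [hG.star_eq] using congrArg star h.1)

theorem fixedBy_sum {ι : Type*} (s : Finset ι) {x : ι → Unitization ℂ A}
    (h : ∀ i ∈ s, FixedBy G (x i)) : FixedBy G (∑ i ∈ s, x i) :=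
  fixedBy_mk hG (by rw [Finset.mul_sum]; exact Finset.sum_congr rfl fun i hi => (h i hi).1)
    (by rw [Finset.sum_mul]; exact Finset.sum_congr rfl fun i hi => (h i hi).2.1)

/-- A square root of a positive fixed element of `A`. -/
theorem exists_sqrt {d : Unitization ℂ A} (hm : d ∈ inrSet A) (hd : 0 ≤ d) (hf : FixedBy G d) :
    ∃ s ∈ inrSet A, FixedBy G s ∧ star s * s = d := by
  have hs : IsSelfAdjoint (CFC.sqrt d) := (CFC.sqrt_nonneg d).isSelfAdjoint
  have e : star (CFC.sqrt d) * CFC.sqrt d = d := by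
    rw [hs.star_eq, CFC.sqrt_mul_sqrt_self d hd]
  refine ⟨CFC.sqrt d, mem_inr.2 ?_, fixedBy_sa hG hs ?_, e⟩
  · have h0 := congrArg (fun x : Unitization ℂ A => x.fst) e
    simp only [Unitization.fst_mul, Unitization.fst_star, mem_inr.1 hm] at h0
    exact (CStarRing.star_mul_self_eq_zero_iff _).1 h0
  · rw [← sub_eq_zero, ← mul_sub_one, ← CStarRing.star_mul_self_eq_zero_iff, star_mul, mul_assoc,
      ← mul_assoc _ (CFC.sqrt d), e, mul_sub_one, hf.2.1, sub_self, mul_zero]

/-- A family below a fixed element is fixed. -/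
theorem left_fix_of_le {y d : Unitization ℂ A} (hd : FixedBy G d) (h : y * star y ≤ d) :
    G * y = y := by
  have hq : star (G - 1) = G - 1 := by rw [star_sub, hG.star_eq, star_one]
  rw [← sub_eq_zero, ← sub_one_mul, ← CStarRing.mul_star_self_eq_zero_iff]
  refine le_antisymm ?_ (mul_star_self_nonneg _)
  have h2 := star_right_conjugate_le_conjugate h (G - 1)
  rw [star_mul, hq, mul_assoc, ← mul_assoc y, ← mul_assoc]
  rw [hq] at h2
  refine h2.trans (le_of_eq ?_)
  rw [mul_assoc, mul_sub_one d, hd.2.1, sub_self, mul_zero]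

end Ext

/-! ### The weight -/

namespace Ext

variable {A : Type*} [NonUnitalCStarAlgebra A]

/-- Positivity, traciality and boundedness on the elements fixed by `G`. -/
def GoodFun (G : Unitization ℂ A) (φ : Unitization ℂ A →ₗ[ℝ] ℝ) (C : ℝ) : Prop :=
  ∀ x ∈ inrSet A, FixedBy G x →
    0 ≤ φ (star x * x) ∧ φ (star x * x) = φ (x * star x) ∧ |φ x| ≤ C * ‖x‖

/-- Finite families fixed on the right by `G`, with `∑ y y⋆` below `u`. -/
def Below (G : Unitization ℂ A) (u : Unitization ℂ A) : Type _ :=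
  Σ n : ℕ, {y : Fin n → Unitization ℂ A //
    (∀ i, y i ∈ inrSet A ∧ y i * G = y i) ∧ ∑ i, y i * star (y i) ≤ u}

/-- The extended weight. -/
def tau (G : Unitization ℂ A) (φ : Unitization ℂ A →ₗ[ℝ] ℝ) (u : A) : ℝ≥0∞ :=
  ⨆ p : Below G (inr u), ENNReal.ofReal (φ (∑ i, star (p.2.1 i) * p.2.1 i))

theorem below_nonempty {G : Unitization ℂ A} {u : Unitization ℂ A} (h : 0 ≤ u) :
    Nonempty (Below G u) := ⟨⟨0, ![], fun i => i.elim0, by simpa using h⟩⟩

theorem le_tau {G : Unitization ℂ A} {φ : Unitization ℂ A →ₗ[ℝ] ℝ} {u : A} {ι : Type*}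
    [Fintype ι] (y : ι → Unitization ℂ A) (hy : ∀ i, y i ∈ inrSet A ∧ y i * G = y i)
    (hle : ∑ i, y i * star (y i) ≤ inr u) :
    ENNReal.ofReal (φ (∑ i, star (y i) * y i)) ≤ tau G φ u := by
  refine le_iSup_of_le (⟨Fintype.card ι, y ∘ (Fintype.equivFin ι).symm, fun i => hy _, ?_⟩ :
    Below G (inr u)) (le_of_eq ?_)
  · simp only [Function.comp_apply]
    rw [(Fintype.equivFin ι).symm.sum_comp fun i => y i * star (y i)]
    exact hle
  · simp only [Function.comp_apply]
    rw [(Fintype.equivFin ι).symm.sum_comp fun i => star (y i) * y i]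

variable {G : Unitization ℂ A} {φ : Unitization ℂ A →ₗ[ℝ] ℝ} {C : ℝ}
  (hG : IsSelfAdjoint G) (hφ : GoodFun G φ C)
include hG hφ

theorem phi_nonneg {d : Unitization ℂ A} (hm : d ∈ inrSet A) (hd : 0 ≤ d) (hf : FixedBy G d) :
    0 ≤ φ d := by
  obtain ⟨s, hsm, hsf, rfl⟩ := exists_sqrt hG hm hd hf
  exact (hφ s hsm hsf).1

theorem phi_gram_nonneg {ι : Type*} [Fintype ι] (y : ι → Unitization ℂ A)
    (hy : ∀ i, y i ∈ inrSet A ∧ y i * G = y i) : 0 ≤ φ (∑ i, star (y i) * y i) :=
  phi_nonneg hG hφ (mem_sum _ fun i _ => mem_mul_left _ (hy i).1)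
    (Finset.sum_nonneg fun _ _ => star_mul_self_nonneg _)
    (fixedBy_sum hG _ fun i _ => fixedBy_sq hG (hy i).2)

omit hG hφ in
/-- Cutting by a function of `T`. -/
theorem exists_cut {E : Type*} [CStarAlgebra E] {T : E} (hTn : 0 ≤ T) {θ : ℝ} (hθ : 0 < θ) :
    ∃ c : E, star c = c ∧ c * T * c ≤ 1 ∧
      ∀ y : E, y * star y ≤ T → ‖star y * y - star y * (c * T * c) * y‖ ≤ θ := by
  have hTs : IsSelfAdjoint T := IsSelfAdjoint.of_nonneg hTn
  have hspec : ∀ r ∈ spectrum ℝ T, 0 ≤ r := fun r hr => spectrum_nonneg_of_nonneg hTn hr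
  have hd : ∀ r : ℝ, √(max r 0 + θ) ≠ 0 := fun r =>
    (Real.sqrt_pos.2 (add_pos_of_nonneg_of_pos (le_max_right r 0) hθ)).ne'
  let cf : ℝ → ℝ := fun r => (√(max r 0 + θ))⁻¹
  let hf : ℝ → ℝ := fun r => √θ * cf r
  have hcf : Continuous cf := Continuous.inv₀ (by fun_prop) hd
  have hhf : Continuous hf := continuous_const.mul hcf
  have hval : ∀ r, 0 ≤ r → cf r * r * cf r = r / (r + θ) ∧ hf r * hf r = θ / (r + θ) ∧
      hf r * r * hf r = θ * (r / (r + θ)) := fun r hr => by
    have h1 : cf r * cf r = (r + θ)⁻¹ := by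
      show (√(max r 0 + θ))⁻¹ * (√(max r 0 + θ))⁻¹ = _
      rw [max_eq_left hr, ← mul_inv, Real.mul_self_sqrt (by linarith)]
    have h2 := Real.mul_self_sqrt hθ.le
    refine ⟨?_, ?_, ?_⟩
    · rw [mul_right_comm, h1, div_eq_inv_mul]
    · show √θ * cf r * (√θ * cf r) = _
      rw [mul_mul_mul_comm, h1, h2, div_eq_mul_inv]
    · show √θ * cf r * r * (√θ * cf r) = _
      rw [show √θ * cf r * r * (√θ * cf r) = (√θ * √θ) * (r * (cf r * cf r)) by ring, h1, h2,
        div_eq_mul_inv]
  set c := cfc cf T with hc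
  set g := cfc hf T with hg
  have hcs : star c = c := (cfc_predicate cf T).star_eq
  have hgs : star g = g := (cfc_predicate hf T).star_eq
  have hcTc : c * T * c = cfc (fun r => cf r * r * cf r) T := by
    rw [cfc_mul (fun r => cf r * r) cf T (hcf.mul continuous_id).continuousOn hcf.continuousOn,
      cfc_mul cf (fun r => r) T hcf.continuousOn continuousOn_id, cfc_id' ℝ T hTs]
  have hgg : g * g = 1 - c * T * c := by
    rw [hcTc, hg, ← cfc_mul hf hf T hhf.continuousOn hhf.continuousOn, ← cfc_const_one ℝ T hTs,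
      ← cfc_sub (fun _ => (1 : ℝ)) (fun r => cf r * r * cf r) T continuousOn_const
        ((hcf.mul continuous_id).mul hcf).continuousOn]
    refine cfc_congr fun r hr => ?_
    have h0 := hspec r hr
    obtain ⟨v1, v2, -⟩ := hval r h0
    simp only [v1, v2]
    field_simp
    ring
  have hgTg : ‖g * T * g‖ ≤ θ := by
    rw [hg, show cfc hf T * T * cfc hf T = cfc (fun r => hf r * r * hf r) T by
      rw [cfc_mul (fun r => hf r * r) hf T (hhf.mul continuous_id).continuousOn hhf.continuousOn,
        cfc_mul hf (fun r => r) T hhf.continuousOn continuousOn_id, cfc_id' ℝ T hTs]]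
    refine norm_cfc_le hθ.le fun r hr => ?_
    have h0 := hspec r hr
    obtain ⟨-, -, v3⟩ := hval r h0
    rw [v3, Real.norm_eq_abs, abs_of_nonneg (by positivity)]
    exact mul_le_of_le_one_right hθ.le ((div_le_one (by linarith)).2 (by linarith))
  refine ⟨c, hcs, ?_, fun y hy => ?_⟩
  · rw [hcTc]
    refine cfc_le_one _ _ fun r hr => ?_
    have h0 := hspec r hr
    rw [(hval r h0).1, div_le_one (by linarith)]
    linarith
  · have e : star y * y - star y * (c * T * c) * y = star (g * y) * (g * y) := by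
      rw [star_mul, hgs, mul_assoc (star y) g, ← mul_assoc g g, hgg]
      simp only [sub_mul, mul_sub, one_mul, mul_assoc]
    rw [e, CStarRing.norm_star_mul_self, ← CStarRing.norm_self_mul_star, star_mul, hgs,
      ← mul_assoc, mul_assoc g]
    refine (CStarAlgebra.norm_le_norm_of_nonneg_of_le ?_ ?_).trans hgTg
    · simpa [hgs] using star_left_conjugate_nonneg (mul_star_self_nonneg y) g
    · simpa [hgs] using star_left_conjugate_le_conjugate hy g

/-- Splitting a family below a sum. -/
theorem split {κ : Type*} [Fintype κ] (z : κ → A) {n : ℕ} (y : Fin n → Unitization ℂ A)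
    (hy : ∀ i, y i ∈ inrSet A ∧ y i * G = y i)
    (hle : ∑ i, y i * star (y i) ≤ ∑ k, inr (z k) * star (inr (z k) : Unitization ℂ A)) :
    ENNReal.ofReal (φ (∑ i, star (y i) * y i)) ≤ ∑ k, tau G φ (star (z k) * z k) := by
  set T : Unitization ℂ A := ∑ k, inr (z k) * star (inr (z k) : Unitization ℂ A) with hT
  have hT0 : 0 ≤ T := Finset.sum_nonneg fun k _ => mul_star_self_nonneg _
  refine ENNReal.le_of_forall_pos_le_add fun ε hε _ => ?_
  set C' : ℝ := max C 0
  set θ : ℝ := (ε : ℝ) / (n * C' + 1) with hθdef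
  have hθ : 0 < θ := by positivity
  obtain ⟨c, hcs, hc1, hcy⟩ := exists_cut hT0 hθ
  set a : κ → Fin n → Unitization ℂ A := fun k i => star (inr (z k)) * (c * y i) with ha
  have hay : ∀ k i, a k i ∈ inrSet A ∧ a k i * G = a k i := fun k i =>
    ⟨mem_mul_left _ (mem_mul_left _ (hy i).1), by simp only [ha, mul_assoc, (hy i).2]⟩
  have hyT : ∀ i, y i * star (y i) ≤ T := fun i =>
    (Finset.single_le_sum (fun j _ => mul_star_self_nonneg (y j)) (Finset.mem_univ i)).trans hle
  have hsum : ∑ k, ∑ i, star (a k i) * a k i = ∑ i, star (y i) * (c * T * c) * y i := by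
    rw [Finset.sum_comm]
    refine Finset.sum_congr rfl fun i _ => ?_
    simp only [ha, hT, Finset.mul_sum, Finset.sum_mul, star_mul, star_star, hcs, mul_assoc]
  have hbelow : ∀ k, ∑ i, a k i * star (a k i) ≤ inr (star (z k) * z k) := fun k => by
    have e : ∑ i, a k i * star (a k i) =
        star (inr (z k) : Unitization ℂ A) * (c * (∑ i, y i * star (y i)) * c) * inr (z k) := by
      simp only [ha, Finset.mul_sum, Finset.sum_mul, star_mul, star_star, hcs, mul_assoc]
    have h1 : c * (∑ i, y i * star (y i)) * c ≤ 1 := by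
      refine le_trans ?_ hc1
      simpa [hcs] using star_left_conjugate_le_conjugate hle c
    rw [e, inr_mul, inr_star]
    simpa using star_left_conjugate_le_conjugate h1 (inr (z k) : Unitization ℂ A)
  set d : Fin n → Unitization ℂ A := fun i => star (y i) * y i - star (y i) * (c * T * c) * y i
    with hd
  have hφd : ∀ i, φ (d i) ≤ C' * θ := fun i => by
    have hdm : d i ∈ inrSet A := by
      have e : d i = (star (y i) - star (y i) * (c * T * c)) * y i := by simp [hd, sub_mul]
      rw [e]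
      exact mem_mul_left _ (hy i).1
    have hds : IsSelfAdjoint (d i) := by
      refine (IsSelfAdjoint.star_mul_self _).sub ?_
      have : IsSelfAdjoint (c * T * c) := by
        simpa [hcs] using hT0.isSelfAdjoint.conjugate c
      exact this.conjugate' (y i)
    have hdf : FixedBy G (d i) :=
      fixedBy_sa hG hds (by simp only [hd, sub_mul, mul_assoc, (hy i).2])
    refine (le_abs_self _).trans ((hφ _ hdm hdf).2.2.trans ?_)
    exact mul_le_mul (le_max_left _ _) (hcy _ (hyT i)) (norm_nonneg _) (le_max_right _ _)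
  have e : φ (∑ i, star (y i) * y i) =
      (∑ k, φ (∑ i, star (a k i) * a k i)) + ∑ i, φ (d i) := by
    rw [← map_sum φ, ← map_sum φ, ← map_add, hsum, ← Finset.sum_add_distrib]
    simp [hd]
  have hd_le : ∑ i, φ (d i) ≤ ε := by
    refine (Finset.sum_le_sum fun i _ => hφd i).trans ?_
    simp only [Finset.sum_const, Finset.card_univ, Fintype.card_fin, nsmul_eq_mul]
    rw [hθdef, ← mul_assoc, ← mul_div_assoc, div_le_iff₀ (by positivity)]
    nlinarith [ε.2]
  rw [e]
  refine ENNReal.ofReal_add_le.trans (add_le_add ?_ ((ENNReal.ofReal_le_ofReal hd_le).trans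
    (le_of_eq ENNReal.ofReal_coe_nnreal)))
  rw [ENNReal.ofReal_sum_of_nonneg fun k _ => phi_gram_nonneg hG hφ _ (hay k)]
  exact Finset.sum_le_sum fun k _ => le_tau (a k) (hay k) (hbelow k)

theorem tau_eq {x : A} (hx : FixedBy G (x : Unitization ℂ A)) :
    tau G φ (star x * x) =
      ENNReal.ofReal (φ (star (x : Unitization ℂ A) * (x : Unitization ℂ A))) := by
  set k : Unitization ℂ A := inr x
  have hk : (inr (star x * x) : Unitization ℂ A) = star k * k := by rw [inr_mul, inr_star]
  refine le_antisymm (iSup_le ?_) ?_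
  · rintro ⟨n, y, hy, hle⟩
    rw [hk] at hle
    refine ENNReal.ofReal_le_ofReal ?_
    show φ (∑ i, star (y i) * y i) ≤ φ (star k * k)
    have hkf : FixedBy G (star k * k) := fixedBy_sq hG hx.2.1
    have hfix : ∀ i, FixedBy G (y i) := fun i => fixedBy_mk hG
      (left_fix_of_le hG hkf ((Finset.single_le_sum (fun j _ => mul_star_self_nonneg (y j))
        (Finset.mem_univ i)).trans hle)) (hy i).2
    have e : φ (∑ i, star (y i) * y i) = φ (∑ i, y i * star (y i)) := by
      rw [map_sum, map_sum]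
      exact Finset.sum_congr rfl fun i _ => (hφ _ (hy i).1 (hfix i)).2.1
    rw [e, ← sub_nonneg, ← map_sub]
    refine phi_nonneg hG hφ ?_ (sub_nonneg.2 hle) ?_
    · have h1 := mem_inr.1 (mem_mul_left (star k) (⟨x, rfl⟩ : k ∈ inrSet A))
      have h2 := mem_inr.1 (mem_sum Finset.univ fun i _ => mem_mul_right (star (y i)) (hy i).1)
      exact mem_inr.2 (by rw [sub_eq_add_neg, Unitization.fst_add, Unitization.fst_neg, h1, h2,
        neg_zero, add_zero])
    · refine fixedBy_mk hG ?_ ?_
      · rw [mul_sub, hkf.1, Finset.mul_sum]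
        congr 1
        exact Finset.sum_congr rfl fun i _ => by rw [← mul_assoc, (hfix i).1]
      · rw [sub_mul, hkf.2.1, Finset.sum_mul]
        congr 1
        exact Finset.sum_congr rfl fun i _ => by rw [mul_assoc, (fixedBy_star hG (hfix i)).2.1]
  · have h := le_tau (G := G) (φ := φ) (u := star x * x) (fun _ : Unit => star k)
      (fun _ => ⟨mem_star ⟨x, rfl⟩, (fixedBy_star hG hx).2.1⟩) (by simp [hk])
    simp only [Finset.univ_unique, Finset.sum_singleton, star_star] at h
    rwa [← (hφ k ⟨x, rfl⟩ hx).2.1] at h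

theorem tau_tracial_le (x : A) : tau G φ (x * star x) ≤ tau G φ (star x * x) := by
  refine iSup_le ?_
  rintro ⟨n, y, hy, hle⟩
  refine (split hG hφ (fun _ : Unit => x) y hy ?_).trans_eq (by simp)
  simpa [inr_mul, inr_star] using hle

theorem tau_tracial (x : A) : tau G φ (star x * x) = tau G φ (x * star x) := by
  refine le_antisymm ?_ (tau_tracial_le hG hφ x)
  have h := tau_tracial_le hG hφ (star x)
  rwa [star_star] at h

theorem tau_add (x y : A) :
    tau G φ (star x * x + star y * y) = tau G φ (star x * x) + tau G φ (star y * y) := by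
  refine le_antisymm ?_ ?_
  · refine iSup_le ?_
    rintro ⟨n, w, hw, hle⟩
    refine (split hG hφ ![star x, star y] w hw ?_).trans_eq ?_
    · simpa [Fin.sum_univ_two, inr_mul, inr_star, inr_add] using hle
    · simp [Fin.sum_univ_two, ← tau_tracial hG hφ]
  · have hn : ∀ v : A, Nonempty (Below G (inr (star v * v) : Unitization ℂ A)) := fun v =>
      below_nonempty (by rw [inr_mul, inr_star]; exact star_mul_self_nonneg _)
    have := hn x
    have := hn y
    refine ENNReal.iSup_add_iSup_le ?_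
    rintro ⟨n, w, hw, hle⟩ ⟨n', w', hw', hle'⟩
    have h := le_tau (G := G) (φ := φ) (u := star x * x + star y * y) (Sum.elim w w')
      (by rintro (i | i) <;> simp [hw, hw'])
      (by simpa [Fintype.sum_sum_type, inr_add] using add_le_add hle hle')
    simp only [Fintype.sum_sum_type, Sum.elim_inl, Sum.elim_inr, map_add] at h
    rwa [ENNReal.ofReal_add (phi_gram_nonneg hG hφ w hw) (phi_gram_nonneg hG hφ w' hw')] at h

omit hG hφ in
theorem tau_smul_ge (u : A) {r : ℝ} (hr : 0 ≤ r) :
    ENNReal.ofReal r * tau G φ u ≤ tau G φ ((r : ℂ) • u) := by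
  rw [tau, ENNReal.mul_iSup]
  refine iSup_le ?_
  rintro ⟨n, y, hy, hle⟩
  have hsq : √r * √r = r := Real.mul_self_sqrt hr
  have h := le_tau (G := G) (φ := φ) (u := (r : ℂ) • u) (fun i => √r • y i)
    (fun i => ⟨mem_inr.2 (by simp [mem_inr.1 (hy i).1]), by rw [smul_mul_assoc, (hy i).2]⟩)
    (by
      simp only [star_smul, star_trivial, smul_mul_smul_comm, hsq, ← Finset.smul_sum, inr_smul,
        Complex.coe_smul]
      exact smul_le_smul_of_nonneg_left hle hr)
  simp only [star_smul, star_trivial, smul_mul_smul_comm, hsq, ← Finset.smul_sum, map_smul,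
    smul_eq_mul] at h
  rwa [ENNReal.ofReal_mul hr] at h

theorem tau_smul (r : ℝ≥0) (x : A) :
    tau G φ (((r : ℝ) : ℂ) • (star x * x)) = r * tau G φ (star x * x) := by
  rcases eq_or_ne r 0 with rfl | hr
  · have h := tau_eq hG hφ (x := 0) (by simp [FixedBy])
    simpa using h
  · have hr' : (0 : ℝ) < r := NNReal.coe_pos.2 (pos_iff_ne_zero.2 hr)
    have h1 := tau_smul_ge (G := G) (φ := φ) (star x * x) hr'.le
    have h2 := tau_smul_ge (G := G) (φ := φ) (((r : ℝ) : ℂ) • (star x * x)) (inv_nonneg.2 hr'.le)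
    rw [smul_smul, ← Complex.ofReal_mul, inv_mul_cancel₀ hr'.ne', Complex.ofReal_one,
      one_smul] at h2
    rw [ENNReal.ofReal_coe_nnreal] at h1
    refine le_antisymm ?_ h1
    calc tau G φ (((r : ℝ) : ℂ) • (star x * x))
        = ENNReal.ofReal r *
            (ENNReal.ofReal ((r : ℝ)⁻¹) * tau G φ (((r : ℝ) : ℂ) • (star x * x))) := by
          rw [← mul_assoc, ← ENNReal.ofReal_mul hr'.le, mul_inv_cancel₀ hr'.ne',
            ENNReal.ofReal_one, one_mul]
      _ ≤ ENNReal.ofReal r * tau G φ (star x * x) := mul_le_mul' le_rfl h2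
      _ = _ := by rw [ENNReal.ofReal_coe_nnreal]

/-- The weight. -/
def weight : TraceWeight A where
  toFun := tau G φ
  add := tau_add hG hφ
  smul := tau_smul hG hφ
  tracial := tau_tracial hG hφ

end Ext

/-- Tracial functionals on the fixed elements extend to weights. -/
theorem weightExt : WeightExtStmt := fun _ _ _ hG _ _ _ hφ =>
  ⟨Ext.weight hG hφ, fun _ hx => Ext.tau_eq hG hφ hx⟩

/-! ### The cut algebra -/

attribute [local simp] Ext.ofMatrix_fun_apply

namespace Ext

section Blocks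

variable {N : ℕ}

/-- The upper left block. -/
def tl : CStarMatrix (Fin (N + 1)) (Fin (N + 1)) ℂ →ₗ[ℂ] CStarMatrix (Fin N) (Fin N) ℂ where
  toFun M := CStarMatrix.ofMatrix fun a b => M (Fin.castSucc a) (Fin.castSucc b)
  map_add' _ _ := rfl
  map_smul' _ _ := rfl

/-- The last corner. -/
def br : CStarMatrix (Fin (N + 1)) (Fin (N + 1)) ℂ →ₗ[ℂ] ℂ where
  toFun M := M (Fin.last N) (Fin.last N)
  map_add' _ _ := rfl
  map_smul' _ _ := rfl

/-- A block and a corner. -/
def bd : CStarMatrix (Fin N) (Fin N) ℂ × ℂ →ₗ[ℂ] CStarMatrix (Fin (N + 1)) (Fin (N + 1)) ℂ where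
  toFun p := CStarMatrix.ofMatrix fun a b =>
    Fin.lastCases (motive := fun _ => ℂ)
      (Fin.lastCases (motive := fun _ => ℂ) p.2 (fun _ => 0) b)
      (fun a' => Fin.lastCases (motive := fun _ => ℂ) 0 (fun b' => p.1 a' b') b) a
  map_add' p q := by
    ext a b
    refine Fin.lastCases ?_ (fun a' => ?_) a <;> refine Fin.lastCases ?_ (fun b' => ?_) b <;>
      simp
  map_smul' r p := by
    ext a b
    refine Fin.lastCases ?_ (fun a' => ?_) a <;> refine Fin.lastCases ?_ (fun b' => ?_) b <;>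
      simp

theorem tl_bd (M : CStarMatrix (Fin N) (Fin N) ℂ) (l : ℂ) : tl (bd (M, l)) = M := by
  ext a b
  show bd (M, l) a.castSucc b.castSucc = M a b
  simp [bd]

theorem br_bd (M : CStarMatrix (Fin N) (Fin N) ℂ) (l : ℂ) : br (bd (M, l)) = l := by
  show bd (M, l) (Fin.last N) (Fin.last N) = l
  simp [bd]

theorem bd_star_mul (M M' : CStarMatrix (Fin N) (Fin N) ℂ) (l l' : ℂ) :
    star (bd (M, l)) * bd (M', l') = bd (star M * M', star l * l') := by
  ext a b
  rw [CStarMatrix.mul_apply, Fin.sum_univ_castSucc]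
  refine Fin.lastCases ?_ (fun a' => ?_) a <;> refine Fin.lastCases ?_ (fun b' => ?_) b <;>
    simp [bd, CStarMatrix.star_apply, CStarMatrix.mul_apply]

/-- The part of the last row next to the block, as a matrix. -/
def rowPart (M : CStarMatrix (Fin (N + 1)) (Fin (N + 1)) ℂ) : CStarMatrix (Fin N) (Fin N) ℂ :=
  CStarMatrix.ofMatrix fun a b => if a.val = 0 then M (Fin.last N) (Fin.castSucc b) else 0

theorem tl_star_mul (M M' : CStarMatrix (Fin (N + 1)) (Fin (N + 1)) ℂ) :
    tl (star M * M') = star (tl M) * tl M' + star (rowPart M) * rowPart M' := by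
  ext a b
  have e : (star (rowPart M) * rowPart M') a b =
      star (M (Fin.last N) (Fin.castSucc a)) * M' (Fin.last N) (Fin.castSucc b) := by
    rw [CStarMatrix.mul_apply, Finset.sum_eq_single (⟨0, a.pos⟩ : Fin N)]
    · simp [rowPart, CStarMatrix.star_apply]
    · intro l _ hl
      have : l.val ≠ 0 := fun h => hl (Fin.ext h)
      simp [rowPart, CStarMatrix.star_apply, this]
    · simp
  show (star M * M') (Fin.castSucc a) (Fin.castSucc b) = _
  rw [CStarMatrix.add_apply, e, CStarMatrix.mul_apply, Fin.sum_univ_castSucc, CStarMatrix.mul_apply]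
  rfl

theorem br_star_mul (M M' : CStarMatrix (Fin (N + 1)) (Fin (N + 1)) ℂ) :
    br (star M * M') = ∑ c, star (M c (Fin.last N)) * M' c (Fin.last N) := rfl

end Blocks

/-- A complement of a square. -/
theorem exists_complement {B : Type*} [CStarAlgebra B] {k : B} (hk : IsSelfAdjoint k)
    (h : ‖k‖ ≤ 1) : ∃ w : B, star w * w = 1 - k * k := by
  have h0 : 0 ≤ k * k := by
    have := star_mul_self_nonneg k
    rwa [hk.star_eq] at this
  have h1 : k * k ≤ 1 := (CStarAlgebra.norm_le_one_iff_of_nonneg _ h0).1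
    ((norm_mul_le _ _).trans (mul_le_one₀ h (norm_nonneg _) h))
  obtain ⟨w, hw⟩ := CStarAlgebra.nonneg_iff_eq_star_mul_self.mp (sub_nonneg.2 h1)
  exact ⟨w, hw.symm⟩

/-- An absolute value, and what it annihilates. -/
theorem exists_abs {M : Type*} [CStarAlgebra M] (Y : M) :
    ∃ V : M, star V = V ∧ V * V = star Y * Y ∧ ∀ D, Y * D = 0 → V * D = 0 := by
  have h0 : 0 ≤ star Y * Y := star_mul_self_nonneg Y
  have hVs : star (CFC.sqrt (star Y * Y)) = CFC.sqrt (star Y * Y) :=
    (CFC.sqrt_nonneg _).isSelfAdjoint.star_eq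
  refine ⟨CFC.sqrt (star Y * Y), hVs, CFC.sqrt_mul_sqrt_self _ h0, fun D hD => ?_⟩
  rw [← CStarRing.star_mul_self_eq_zero_iff, star_mul, hVs, mul_assoc,
    ← mul_assoc (CFC.sqrt (star Y * Y)), CFC.sqrt_mul_sqrt_self _ h0, mul_assoc (star Y), hD,
    mul_zero, mul_zero]

/-- A sum of squares is a square. -/
theorem exists_sq {M : Type*} [CStarAlgebra M] {ι : Type*} [Fintype ι] (w₁ w₂ : M) (w : ι → M) :
    ∃ z : M, star z * z = star w₁ * w₁ + star w₂ * w₂ + ∑ c, star (w c) * w c := by
  obtain ⟨z, hz⟩ := CStarAlgebra.nonneg_iff_eq_star_mul_self.mp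
    (add_nonneg (add_nonneg (star_mul_self_nonneg w₁) (star_mul_self_nonneg w₂))
      (Finset.sum_nonneg fun c (_ : c ∈ Finset.univ) => star_mul_self_nonneg (w c)))
  exact ⟨z, hz.symm⟩

/-- A sum of squares of matrices is a square, entrywise. -/
theorem exists_sq_sum {B : Type*} [CStarAlgebra B] {p : ℕ} {ι : Type*} [Fintype ι]
    (W₁ W₂ : CStarMatrix (Fin p) (Fin p) B) (W : ι → CStarMatrix (Fin p) (Fin p) B) :
    ∃ Z : CStarMatrix (Fin p) (Fin p) B, ∀ i j, (star Z * Z) i j =
      (star W₁ * W₁) i j + (star W₂ * W₂) i j + ∑ c, (star (W c) * W c) i j := by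
  obtain ⟨Z, hZ⟩ := exists_sq W₁ W₂ W
  refine ⟨Z, fun i j => ?_⟩
  rw [hZ, CStarMatrix.add_apply, CStarMatrix.add_apply]
  exact congrArg _ (Matrix.sum_apply i j _ _)

variable {A : Type*} [NonUnitalCStarAlgebra A] {G : Unitization ℂ A}

theorem val_eq_fst_snd (z : Unitization ℂ A) : z = z.fst • 1 + inr z.snd :=
  Unitization.ext (by simp) (by simp)

theorem mem_cutAlg {w : Unitization ℂ A} (hm : w ∈ inrSet A) (hf : FixedBy G w) :
    w ∈ cutAlg G := by
  show FixedBy G (inr w.snd)
  rwa [inr_snd hm]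

/-- Gram matrices of elements fixed on the right are Gram matrices over the cut algebra. -/
theorem cut_square (hG : IsSelfAdjoint G) (hGm : G ∈ inrSet A) {p : ℕ}
    (Y : CStarMatrix (Fin p) (Fin p) (Unitization ℂ A)) (hY : ∀ i j, Y i j * G = Y i j) :
    ∃ W : CStarMatrix (Fin p) (Fin p) (cutAlg G),
      ∀ i j, ((star W * W) i j : Unitization ℂ A) = (star Y * Y) i j := by
  set D : CStarMatrix (Fin p) (Fin p) (Unitization ℂ A) :=
    CStarMatrix.ofMatrix fun i j => if i = j then G - 1 else 0 with hD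
  have hDa : ∀ (M : CStarMatrix (Fin p) (Fin p) (Unitization ℂ A)) i j,
      (M * D) i j = M i j * (G - 1) := fun M i j => by
    rw [CStarMatrix.mul_apply, Finset.sum_eq_single j]
    · rw [hD]
      simp
    · intro l _ hl
      rw [hD]
      simp [hl]
    · simp
  have hYD : Y * D = 0 := by
    ext i j : 1
    rw [hDa, mul_sub_one, hY, sub_self, CStarMatrix.zero_apply]
  obtain ⟨V, hVs, hVV, hVan⟩ := exists_abs Y
  have hVD : V * D = 0 := hVan D hYD
  have hVr : ∀ i j, V i j * G = V i j := fun i j => by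
    have h := congrFun (congrFun hVD i) j
    rw [hDa, mul_sub_one, CStarMatrix.zero_apply, sub_eq_zero] at h
    exact h
  have hVl : ∀ i j, G * V i j = V i j := fun i j => by
    have h := congrArg star (hVr j i)
    rw [star_mul, hG.star_eq, ← CStarMatrix.star_apply, hVs] at h
    exact h
  have hVm : ∀ i j, V i j ∈ cutAlg G := fun i j =>
    mem_cutAlg (hVl i j ▸ mem_mul_right _ hGm) (fixedBy_mk hG (hVl i j) (hVr i j))
  refine ⟨CStarMatrix.ofMatrix fun i j => (⟨V i j, hVm i j⟩ : cutAlg G), fun i j => ?_⟩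
  rw [← hVV, CStarMatrix.mul_apply, CStarMatrix.mul_apply]
  push_cast
  refine Finset.sum_congr rfl fun l _ => ?_
  conv_rhs => rw [← hVs, CStarMatrix.star_apply, hVs]
  rfl

/-- An approximate unit of the fixed elements, against a finite set. -/
theorem exists_unit (hG : IsSelfAdjoint G) (hGm : G ∈ inrSet A) {ι : Type*} (s : Finset ι)
    (x : ι → Unitization ℂ A) (hx : ∀ i ∈ s, FixedBy G (x i)) {ε : ℝ} (hε : 0 < ε) :
    ∃ K ∈ inrSet A, IsSelfAdjoint K ∧ ‖K‖ ≤ 1 ∧ FixedBy G K ∧
      ∀ i ∈ s, ‖K * x i * K - x i‖ ≤ ε := by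
  set S := ∑ i ∈ s, (x i * star (x i) + star (x i) * x i) with hS
  have hS0 : 0 ≤ S := Finset.sum_nonneg fun i _ =>
    add_nonneg (mul_star_self_nonneg _) (star_mul_self_nonneg _)
  have hSs : IsSelfAdjoint S := hS0.isSelfAdjoint
  have hSr : S * G = S := by
    rw [hS, Finset.sum_mul]
    refine Finset.sum_congr rfl fun i hi => ?_
    rw [add_mul, mul_assoc, mul_assoc, (fixedBy_star hG (hx i hi)).2.1, (hx i hi).2.1]
  set δ : ℝ := (ε / 2) ^ 2 with hδ
  have hδ0 : 0 < δ := by positivity
  have hd : ∀ r : ℝ, 0 < |r| + δ := fun r => by positivity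
  let g : ℝ → ℝ := fun r => (|r| + δ)⁻¹
  let q : ℝ → ℝ := fun r => 1 - g r * r
  have hg : Continuous g := Continuous.inv₀ (by fun_prop) fun r => (hd r).ne'
  have hq : Continuous q := continuous_const.sub (hg.mul continuous_id)
  set K := cfc (fun r => g r * r) S with hK
  have hKs : IsSelfAdjoint K := cfc_predicate _ S
  have hKr : K * G = K := by
    rw [hK, cfc_mul g (fun r => r) S hg.continuousOn continuousOn_id, cfc_id' ℝ S hSs, mul_assoc,
      hSr]
  have hKf : FixedBy G K := fixedBy_sa hG hKs hKr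
  have hgr : ∀ r, 0 ≤ r → g r * r = r / (r + δ) := fun r hr => by
    show (|r| + δ)⁻¹ * r = _
    rw [abs_of_nonneg hr, inv_mul_eq_div]
  have hK1 : ‖K‖ ≤ 1 := norm_cfc_le zero_le_one fun r hr => by
    have h0 := spectrum_nonneg_of_nonneg hS0 hr
    rw [hgr r h0, Real.norm_eq_abs, abs_of_nonneg (by positivity), div_le_one (by linarith)]
    linarith
  have hQ : 1 - K = cfc q S := by
    rw [hK, cfc_sub (fun _ => (1 : ℝ)) (fun r => g r * r) S continuousOn_const
      (hg.mul continuous_id).continuousOn, cfc_const_one ℝ S hSs]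
  have hQs : star (1 - K) = 1 - K := by rw [star_sub, star_one, hKs.star_eq]
  have hQSQ : ‖(1 - K) * S * (1 - K)‖ ≤ δ := by
    rw [hQ, show cfc q S * S * cfc q S = cfc (fun r => q r * r * q r) S by
      rw [cfc_mul (fun r => q r * r) q S (hq.mul continuous_id).continuousOn hq.continuousOn,
        cfc_mul q (fun r => r) S hq.continuousOn continuousOn_id, cfc_id' ℝ S hSs]]
    refine norm_cfc_le hδ0.le fun r hr => ?_
    have h0 := spectrum_nonneg_of_nonneg hS0 hr
    have hq' : q r = δ / (r + δ) := by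
      show 1 - g r * r = _
      rw [hgr r h0]
      field_simp
      ring
    have h1 : δ / (r + δ) ≤ 1 := (div_le_one (by linarith)).2 (by linarith)
    rw [hq', Real.norm_eq_abs, abs_of_nonneg (by positivity),
      show δ / (r + δ) * r * (δ / (r + δ)) = δ * (r / (r + δ)) * (δ / (r + δ)) by
        field_simp]
    exact mul_le_of_le_one_right (by positivity) h1 |>.trans
      (mul_le_of_le_one_right hδ0.le ((div_le_one (by linarith)).2 (by linarith)))
  have key : ∀ y, y * star y ≤ S → ‖(1 - K) * y‖ ≤ ε / 2 := fun y hy => by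
    have h : ‖(1 - K) * y‖ * ‖(1 - K) * y‖ ≤ δ := by
      rw [← CStarRing.norm_self_mul_star, star_mul, hQs, ← mul_assoc, mul_assoc (1 - K)]
      refine (CStarAlgebra.norm_le_norm_of_nonneg_of_le ?_ ?_).trans hQSQ
      · simpa [hQs] using star_left_conjugate_nonneg (mul_star_self_nonneg y) (1 - K)
      · simpa [hQs] using star_left_conjugate_le_conjugate hy (1 - K)
    exact (abs_le_of_sq_le_sq' (by rw [sq]; exact h) (by positivity)).2
  refine ⟨K, hKf.1 ▸ mem_mul_right _ hGm, hKs, hK1, hKf, fun i hi => ?_⟩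
  have hle : x i * star (x i) + star (x i) * x i ≤ S := Finset.single_le_sum
    (fun j _ => add_nonneg (mul_star_self_nonneg (x j)) (star_mul_self_nonneg (x j))) hi
  have h1 : ‖(1 - K) * x i‖ ≤ ε / 2 :=
    key _ ((le_add_of_nonneg_right (star_mul_self_nonneg _)).trans hle)
  have h2 : ‖x i * (1 - K)‖ ≤ ε / 2 := by
    rw [← norm_star, star_mul, hQs]
    exact key _ (by rw [star_star]; exact (le_add_of_nonneg_left (mul_star_self_nonneg _)).trans hle)
  calc ‖K * x i * K - x i‖ = ‖-((1 - K) * x i) + -(K * (x i * (1 - K)))‖ := by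
        congr 1; noncomm_ring
    _ ≤ ε / 2 + ε / 2 := (norm_add_le _ _).trans (add_le_add (by rwa [norm_neg]) (by
        rw [norm_neg]
        refine (norm_mul_le _ _).trans ?_
        simpa using mul_le_mul hK1 h2 (norm_nonneg _) zero_le_one))
    _ = ε := by ring

end Ext

open Ext in
/-- The cut algebras of a nuclear algebra are nuclear. -/
theorem cutCPAP : CutCPAPStmt := by
  intro A _ G hG hGm ⟨G', hG'm, hG's, hG'G⟩ hA D ε hε
  classical
  have hGG' : G * G' = G := by simpa [hG.star_eq, hG's.star_eq] using congrArg star hG'G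
  obtain ⟨K, hKm, hKs, hK1, hKf, hKx⟩ := exists_unit hG hGm D
    (fun z : cutAlg G => (inr z.1.snd : Unitization ℂ A)) (fun z _ => z.2) (half_pos hε)
  have hKG' : K * G' = K := by rw [← hKf.2.1, mul_assoc, hGG']
  have hG'K : G' * K = K := by rw [← hKf.1, ← mul_assoc, hG'G]
  let sand : cutAlg G →ₗ[ℂ] A :=
    { toFun := fun z => (G' * z.1 * G').snd
      map_add' := fun z w => by simp [mul_add, add_mul]
      map_smul' := fun r z => by simp }
  let fstL : cutAlg G →ₗ[ℂ] ℂ :=
    { toFun := fun z => z.1.fst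
      map_add' := fun z w => by simp
      map_smul' := fun r z => by simp }
  have hsand : ∀ z : cutAlg G, (inr (sand z) : Unitization ℂ A) = G' * z.1 * G' := fun z =>
    inr_snd (mem_mul_left _ hG'm)
  obtain ⟨N, ρ, ψ, hρ, hψ, happ⟩ := hA (D.image sand) (ε / 2) (half_pos hε)
  obtain ⟨w, hw'⟩ := exists_complement (B := cutAlg G) (k := ⟨K, mem_cutAlg hKm hKf⟩)
    (Subtype.ext hKs) hK1
  have hw : (star w * w : cutAlg G).1 = 1 - K * K := by rw [hw']; rfl
  have hmem : ∀ (M : CStarMatrix (Fin (N + 1)) (Fin (N + 1)) ℂ),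
      K * inr (ψ (tl M)) * K + br M • (1 - K * K) ∈ cutAlg G := fun M =>
    add_mem (mem_cutAlg (mem_mul_left _ hKm) (fixedBy_mk hG (by simp only [← mul_assoc, hKf.1])
      (by simp only [mul_assoc, hKf.2.1])))
      ((cutAlg G).smul_mem (hw ▸ (star w * w : cutAlg G).2) _)
  let ψ₁ : CStarMatrix (Fin (N + 1)) (Fin (N + 1)) ℂ →ₗ[ℂ] cutAlg G :=
    { toFun := fun M => ⟨_, hmem M⟩
      map_add' := fun M M' => Subtype.ext (by
        simp only [map_add, inr_add, mul_add, add_mul, add_smul]
        push_cast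
        abel)
      map_smul' := fun r M => Subtype.ext (by
        simp only [map_smul, inr_smul, mul_smul_comm, smul_mul_assoc, smul_eq_mul, mul_smul]
        push_cast
        rw [smul_add]
        rfl) }
  refine ⟨N + 1, bd.comp ((ρ.comp sand).prod fstL), ψ₁, ?_, ?_, fun z hz => ?_⟩
  · intro p Y
    obtain ⟨Z, hZ⟩ := hρ p (CStarMatrix.ofMatrix fun l j => ((Y l j).1 * G').snd)
    refine ⟨CStarMatrix.ofMatrix fun l j => bd (Z l j, (Y l j).1.fst), ?_⟩
    ext i j : 1
    have h1 := congrFun (congrFun hZ i) j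
    simp only [CStarMatrix.map_apply, CStarMatrix.mul_apply, CStarMatrix.star_apply,
      ofMatrix_fun_apply] at h1
    show bd (ρ (sand ((star Y * Y) i j)), fstL ((star Y * Y) i j)) = _
    simp only [CStarMatrix.mul_apply, CStarMatrix.star_apply, ofMatrix_fun_apply, bd_star_mul]
    rw [← map_sum bd]
    refine congrArg bd (Prod.ext ?_ ?_)
    · simp only [Prod.fst_sum, ← h1, map_sum]
      refine Finset.sum_congr rfl fun l _ => congrArg ρ (inr_injective (R := ℂ) ?_)
      rw [hsand, inr_mul, inr_star, inr_snd (mem_mul_left _ hG'm),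
        inr_snd (mem_mul_left _ hG'm), star_mul, hG's.star_eq]
      simp only [MulMemClass.coe_mul, StarMemClass.coe_star, mul_assoc]
    · simp only [Prod.snd_sum, map_sum]
      refine Finset.sum_congr rfl fun l _ => ?_
      show (star (Y l i) * Y l j : cutAlg G).1.fst = _
      simp
  · intro p Y
    obtain ⟨Z₁, hZ₁⟩ := hψ p (Y.map tl)
    obtain ⟨Z₂, hZ₂⟩ := hψ p (Y.map rowPart)
    obtain ⟨W₁, hW₁⟩ := cut_square hG hGm (CStarMatrix.ofMatrix fun l j =>
      (inr (Z₁ l j) : Unitization ℂ A) * K) fun l j => by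
        show inr (Z₁ l j) * K * G = inr (Z₁ l j) * K
        rw [mul_assoc, hKf.2.1]
    obtain ⟨W₂, hW₂⟩ := cut_square hG hGm (CStarMatrix.ofMatrix fun l j =>
      (inr (Z₂ l j) : Unitization ℂ A) * K) fun l j => by
        show inr (Z₂ l j) * K * G = inr (Z₂ l j) * K
        rw [mul_assoc, hKf.2.1]
    let W₃ : Fin (N + 1) → CStarMatrix (Fin p) (Fin p) (cutAlg G) := fun c =>
      CStarMatrix.ofMatrix fun l j => Y l j c (Fin.last N) • w
    obtain ⟨Z, hZ⟩ := exists_sq_sum W₁ W₂ W₃
    refine ⟨Z, ?_⟩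
    have key : ∀ (Z' : CStarMatrix (Fin p) (Fin p) A) (P : CStarMatrix (Fin p) (Fin p)
        (CStarMatrix (Fin N) (Fin N) ℂ)) (W : CStarMatrix (Fin p) (Fin p) (cutAlg G)),
        (star P * P).map ψ = star Z' * Z' →
        (∀ i j, ((star W * W) i j : Unitization ℂ A) = (star (CStarMatrix.ofMatrix fun l j =>
          (inr (Z' l j) : Unitization ℂ A) * K) * CStarMatrix.ofMatrix fun l j =>
            (inr (Z' l j) : Unitization ℂ A) * K :
            CStarMatrix (Fin p) (Fin p) (Unitization ℂ A)) i j) →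
        ∀ i j, ((star W * W) i j : Unitization ℂ A) =
          ∑ l, K * inr (ψ (star (P l i) * P l j)) * K := by
      intro Z' P W h1 h2 i j
      have h3 := congrFun (congrFun h1 i) j
      simp only [CStarMatrix.map_apply, CStarMatrix.mul_apply, CStarMatrix.star_apply,
        map_sum] at h3
      have h4 : ∀ f : Fin p → A, ∑ l, K * inr (f l) * K = K * inr (∑ l, f l) * K := fun f => by
        rw [← Finset.sum_mul, ← Finset.mul_sum]
        congr 2
        exact (map_sum (Unitization.inrNonUnitalAlgHom ℂ A) f _).symm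
      rw [h2, h4, h3, ← h4]
      simp only [CStarMatrix.mul_apply, CStarMatrix.star_apply, ofMatrix_fun_apply]
      refine Finset.sum_congr rfl fun l _ => ?_
      rw [inr_mul, inr_star, star_mul, hKs.star_eq]
      simp only [mul_assoc]
    ext i j : 2
    rw [hZ]
    push_cast
    rw [key Z₁ _ W₁ hZ₁ hW₁, key Z₂ _ W₂ hZ₂ hW₂]
    simp only [CStarMatrix.map_apply, CStarMatrix.mul_apply, CStarMatrix.star_apply, map_sum]
    push_cast
    rw [← Finset.sum_add_distrib, Finset.sum_comm, ← Finset.sum_add_distrib]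
    refine Finset.sum_congr rfl fun l _ => ?_
    show K * inr (ψ (tl (star (Y l i) * Y l j))) * K + br (star (Y l i) * Y l j) • (1 - K * K) = _
    rw [tl_star_mul, map_add, inr_add, mul_add, add_mul, br_star_mul, Finset.sum_smul]
    congr 1
    refine Finset.sum_congr rfl fun c _ => ?_
    simp only [W₃, ofMatrix_fun_apply]
    rw [← hw]
    push_cast
    rw [star_smul]
    exact (smul_mul_smul_comm _ _ _ _).symm
  · set l : ℂ := z.1.fst
    set x : Unitization ℂ A := inr z.1.snd with hx
    have hG'x : G' * x * G' = x := by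
      have hzf : FixedBy G x := z.2
      rw [← hzf.1, ← mul_assoc G' G, hG'G, hzf.1, ← hzf.2.1, mul_assoc x G G', hGG']
    have hKuK : K * inr (sand z) * K = l • (K * K) + K * x * K := by
      rw [hsand, val_eq_fst_snd z.1, ← hx]
      simp only [mul_add, add_mul, mul_smul_comm, smul_mul_assoc, mul_one, hG'x]
      congr 1
      rw [← mul_assoc K, hKG', mul_assoc K, hG'K]
    have e : (ψ₁ (bd.comp ((ρ.comp sand).prod fstL) z) - z : cutAlg G).1 =
        K * inr (ψ (ρ (sand z)) - sand z) * K + (K * x * K - x) := by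
      show K * inr (ψ (tl (bd (ρ (sand z), l)))) * K + br (bd (ρ (sand z), l)) • (1 - K * K) - z.1 = _
      rw [tl_bd, br_bd, inr_sub, mul_sub, sub_mul, hKuK, smul_sub]
      conv_lhs => arg 2; rw [val_eq_fst_snd z.1, ← hx]
      abel
    show ‖(ψ₁ (bd.comp ((ρ.comp sand).prod fstL) z) - z : cutAlg G).1‖ ≤ ε
    rw [e]
    refine (norm_add_le _ _).trans ((add_le_add ?_ (hKx z hz)).trans_eq (add_halves ε))
    refine (norm_mul_le _ _).trans ?_
    have h := (norm_mul_le K (inr (ψ (ρ (sand z)) - sand z))).trans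
      (mul_le_mul hK1 ((Unitization.norm_inr (𝕜 := ℂ) _).le.trans
        (happ _ (Finset.mem_image_of_mem _ hz))) (norm_nonneg _) zero_le_one)
    simpa using mul_le_mul h hK1 (norm_nonneg _) (by positivity)

end

end Vale.P095.NU
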